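import Vale.Agent.P232.Window

/-! # P232: the profile from the bound for densities on a window -/

namespace Vale.Agent.P232

noncomputable section

open Real MeasureTheory Filter Topology Set

lemma continuous_goalF : Continuous goalF :=
  continuous_half.min continuous_const

lemma J_le_goalF {V : ℝ} (h0 : 0 ≤ V) (h1 : V ≤ 1 / 2) : J V ≤ 2 * goalF V := by
  rw [goalF, mul_min_of_nonneg _ _ (by norm_num : (0 : ℝ) ≤ 2), mul_one]
  exact le_min (J_le_half h0 h1) (J_le_two V)

lemma lower_window {E : Set (ℝ × ℝ × ℝ)} {lo hi : ℝ} (h : DensWindow lo hi) (hhi : hi ≤ 1 / 2)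
    (hm : MeasurableSet E) (hE : PerSet E) (hP : perim E ≠ ⊤) (hV : vol E ∈ Ioo lo hi) :
    J (vol E) ≤ (perim E).toReal := by
  refine (J_le_goalF vol_mem (by linarith [hV.2])).trans ?_
  refine le_of_forall_pos_le_add fun τ hτ => ?_
  obtain ⟨K, hK, hb⟩ := h (τ / 8) (by linarith)
  obtain ⟨ρ, hρ, hc⟩ := (Metric.continuous_iff.1 continuous_goalF) (vol E) (τ / 8) (by linarith)
  set ε := min (min (ρ / 2) (min (vol E - lo) (hi - vol E))) (τ / (8 * (K + 1))) with hε
  have hε0 : 0 < ε :=
    lt_min (lt_min (by linarith) (lt_min (sub_pos.2 hV.1) (sub_pos.2 hV.2))) (by positivity)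
  obtain ⟨w, hw, w1, w2, w3⟩ := exists_dens hm hE hP hε0
  have e1 : ε ≤ ρ / 2 := (min_le_left _ _).trans (min_le_left _ _)
  have e2 : ε ≤ vol E - lo := ((min_le_left _ _).trans (min_le_right _ _)).trans (min_le_left _ _)
  have e4 : ε ≤ hi - vol E :=
    ((min_le_left _ _).trans (min_le_right _ _)).trans (min_le_right _ _)
  have e3 : (K + 1) * ε ≤ τ / 8 := by
    have := min_le_right (min (ρ / 2) (min (vol E - lo) (hi - vol E))) (τ / (8 * (K + 1)))
    rw [← hε, le_div_iff₀ (by positivity)] at this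
    linarith
  have hb' := hb w hw ⟨by linarith [(abs_le.1 w2).1], by linarith [(abs_le.1 w2).2]⟩
  have hd := hc (int3 w) (by rw [Real.dist_eq]; linarith)
  rw [Real.dist_eq, abs_lt] at hd
  have hKe : K * int3 (fun p => w p * (1 - w p)) ≤ K * ε := mul_le_mul_of_nonneg_left w3 hK
  linarith [hd.1]

/-- A bound for densities on a window gives the profile there. -/
theorem profile_eq_window {lo hi : ℝ} (h : DensWindow lo hi) (hhi : hi ≤ 1 / 2) {V : ℝ}
    (h0 : 0 ≤ V) (h1 : V ≤ 1)
    (hV : min V (1 - V) ≤ 263 / 1000 ∨ 9 / 25 ≤ min V (1 - V) ∨ min V (1 - V) ∈ Ioo lo hi) :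
    profile V = ENNReal.ofReal (J V) := by
  refine le_antisymm (profile_le h0 h1) ?_
  refine le_iInf fun E => le_iInf fun ⟨hm, hE, he⟩ => ?_
  subst he
  rcases hV with hV | hV | hV
  · exact J_le_perim hm hE (Or.inl hV)
  · exact J_le_perim hm hE (Or.inr hV)
  by_cases hP : perim E = ⊤
  · simp [hP]
  refine (ENNReal.ofReal_le_iff_le_toReal hP).2 ?_
  rcases le_total (vol E) (1 - vol E) with c | c
  · rw [min_eq_left c] at hV
    exact lower_window h hhi hm hE hP hV
  · rw [min_eq_right c] at hV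
    have e := vol_compl hm
    have := lower_window h hhi hm.compl (perSet_compl hE) (by rwa [perim_compl hm]) (by rwa [e])
    rwa [perim_compl hm, e, J_compl] at this

/-- The profile at every volume, from the bound for densities on the middle window. -/
theorem profile_eq_all (h : DensWindow (263 / 1000) (9 / 25)) {V : ℝ} (h0 : 0 ≤ V) (h1 : V ≤ 1) :
    profile V = ENNReal.ofReal (J V) := by
  refine profile_eq_window h (by norm_num) h0 h1 ?_
  rcases le_or_gt (min V (1 - V)) (263 / 1000) with c | c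
  · exact Or.inl c
  rcases le_or_gt (9 / 25) (min V (1 - V)) with d | d
  · exact Or.inr (Or.inl d)
  · exact Or.inr (Or.inr ⟨c, d⟩)

/-- The profile at every volume, from the core statement and the bound for exceptional data. -/
theorem profile_eq_of_core {L : ℝ} {Exc : ℝ → (Fin 3 → ℝ) → (Fin 3 → ℝ) → Prop} (hL : 0 ≤ L)
    (hc : WindowCore L (263 / 1000) (9 / 25) Exc) (he : ExcBound Exc) {V : ℝ} (h0 : 0 ≤ V)
    (h1 : V ≤ 1) : profile V = ENNReal.ofReal (J V) :=
  profile_eq_all (densWindow_of_core hL hc he) h0 h1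

end

end Vale.Agent.P232
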