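import Vale.Agent.P232.GapSlab.Strict
import Vale.Agent.P232.WindowProfile

/-! # P232: the profile at every volume from the tube part of the middle window -/

namespace Vale.Agent.P232

noncomputable section

open Set

/-- The strict window statements on both parts give the profile at every volume. -/
theorem profile_eq_all_of_window {L : ℝ} (hL : 0 ≤ L)
    (h : StrictWindow L (263 / 1000) (323 / 1000)) {V : ℝ} (h0 : 0 ≤ V) (h1 : V ≤ 1) :
    profile V = ENNReal.ofReal (J V) := by
  refine profile_eq_of_core hL ?_ tubeExc_bound h0 h1
  intro v P η f a S hv hη hD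
  rcases le_total v (323 / 1000) with c | c
  · exact h.core v P η f a S ⟨hv.1, c⟩ hη hD
  · exact (GapSlab.slab_strict L).core v P η f a S ⟨c, hv.2⟩ hη hD

end

end Vale.Agent.P232
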