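import Vale.Agent.P232.Smooth

/-! # P232: mollification -/

namespace Vale.Agent.P232

noncomputable section

open MeasureTheory

open scoped Convolution

namespace Approx

/-- The space of the coordinates. -/

lemma measurableSet_cube : MeasurableSet cube :=
  measurableSet_Ico.prod (measurableSet_Ico.prod measurableSet_Ico)

lemma volume_cube : volume cube = 1 := by
  rw [cube, Measure.volume_eq_prod, Measure.prod_prod, Measure.volume_eq_prod, Measure.prod_prod]
  simp

instance : (volume : Measure (ℝ × ℝ)).IsAddHaarMeasure := by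
  rw [Measure.volume_eq_prod]; infer_instance

instance : (volume : Measure (ℝ × ℝ × ℝ)).IsAddHaarMeasure := by
  rw [Measure.volume_eq_prod]; infer_instance

instance : IsProbabilityMeasure ((volume : Measure (ℝ × ℝ × ℝ)).restrict cube) :=
  ⟨by rw [Measure.restrict_apply_univ]; exact volume_cube⟩

/-- A bounded measurable function. -/
def Bd (F : (ℝ × ℝ × ℝ) → ℝ) : Prop := Measurable F ∧ ∃ C, ∀ p, |F p| ≤ C

lemma Bd.integrableOn {F : (ℝ × ℝ × ℝ) → ℝ} (h : Bd F) {s : Set (ℝ × ℝ × ℝ)} (hs : volume s < ⊤) :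
    IntegrableOn F s := by
  obtain ⟨C, hC⟩ := h.2
  have : Fact (volume s < ⊤) := ⟨hs⟩
  exact Integrable.of_bound h.1.aestronglyMeasurable C
    (Filter.Eventually.of_forall fun p => by simpa using hC p)

lemma Bd.shift {F : (ℝ × ℝ × ℝ) → ℝ} (h : Bd F) (u : (ℝ × ℝ × ℝ)) : Bd fun p => F (p + u) :=
  ⟨h.1.comp (measurable_add_const u), h.2.choose, fun _ => h.2.choose_spec _⟩

lemma Bd.mul {F G : (ℝ × ℝ × ℝ) → ℝ} (h : Bd F) (h' : Bd G) : Bd fun p => F p * G p := by
  obtain ⟨C, hC⟩ := h.2
  obtain ⟨D, hD⟩ := h'.2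
  exact ⟨h.1.mul h'.1, C * D, fun p => by
    rw [abs_mul]
    exact mul_le_mul (hC p) (hD p) (abs_nonneg _) ((abs_nonneg _).trans (hC p))⟩

lemma setIntegral_cube {F : (ℝ × ℝ × ℝ) → ℝ} (h : Bd F) : ∫ p in cube, F p = int3 F := by
  obtain ⟨C, hC⟩ := h.2
  have e : ∀ f : ℝ → ℝ, ∫ x in Set.Ico (0 : ℝ) 1, f x = ∫ x in (0 : ℝ)..1, f x := fun f => by
    rw [intervalIntegral.integral_of_le zero_le_one, integral_Ico_eq_integral_Ioc]
  have h2 : ∀ t, IntegrableOn (fun q : ℝ × ℝ => F (t, q))
      (Set.Ico (0 : ℝ) 1 ×ˢ Set.Ico (0 : ℝ) 1) (volume.prod volume) := fun t => by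
    have : Fact ((volume.prod volume : Measure (ℝ × ℝ))
        (Set.Ico (0 : ℝ) 1 ×ˢ Set.Ico (0 : ℝ) 1) < ⊤) := ⟨by simp [Measure.prod_prod]⟩
    exact Integrable.of_bound (h.1.comp measurable_prodMk_left).aestronglyMeasurable C
      (Filter.Eventually.of_forall fun p => by simpa using hC _)
  have h1 : IntegrableOn F (Set.Ico (0 : ℝ) 1 ×ˢ (Set.Ico (0 : ℝ) 1 ×ˢ Set.Ico (0 : ℝ) 1))
      (volume.prod volume) := h.integrableOn (s := cube) (by rw [volume_cube]; simp)
  rw [cube, Measure.volume_eq_prod, setIntegral_prod F h1, int3, ← e]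
  refine setIntegral_congr_fun measurableSet_Ico fun t _ => ?_
  rw [Measure.volume_eq_prod, setIntegral_prod (fun q : ℝ × ℝ => F (t, q)) (h2 t), ← e]
  exact setIntegral_congr_fun measurableSet_Ico fun y _ => e _

lemma per_fst {β : Type*} {F : (ℝ × ℝ × ℝ) → β} (h : Per F) (y z : ℝ) :
    Function.Periodic (fun t => F (t, y, z)) 1 := fun t => by
  simpa [e₁] using (h (t, y, z)).1

lemma per_snd {β : Type*} {F : (ℝ × ℝ × ℝ) → β} (h : Per F) (t z : ℝ) :
    Function.Periodic (fun y => F (t, y, z)) 1 := fun y => by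
  simpa [e₂] using (h (t, y, z)).2.1

lemma per_thd {β : Type*} {F : (ℝ × ℝ × ℝ) → β} (h : Per F) (t y : ℝ) :
    Function.Periodic (fun z => F (t, y, z)) 1 := fun z => by
  simpa [e₃] using (h (t, y, z)).2.2

lemma per_shift {β : Type*} {F : (ℝ × ℝ × ℝ) → β} (h : Per F) (u : (ℝ × ℝ × ℝ)) : Per fun p => F (p + u) := fun p => by
  simp only [add_right_comm p _ u]
  exact h (p + u)

lemma interval_shift {f : ℝ → ℝ} (hf : Function.Periodic f 1) (a : ℝ) :
    ∫ x in (0 : ℝ)..1, f (x + a) = ∫ x in (0 : ℝ)..1, f x := by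
  rw [intervalIntegral.integral_comp_add_right, zero_add, add_comm 1 a]
  simpa using hf.intervalIntegral_add_eq a 0

lemma int3_shift {F : (ℝ × ℝ × ℝ) → ℝ} (h : Per F) (u : (ℝ × ℝ × ℝ)) : int3 (fun p => F (p + u)) = int3 F := by
  obtain ⟨a, b, c⟩ := u
  simp only [int3, Prod.mk_add_mk]
  simp only [fun t y => interval_shift (per_thd h (t + a) (y + b)) c]
  have h2 : ∀ t, Function.Periodic (fun y => ∫ z in (0 : ℝ)..1, F (t, y, z)) 1 := fun t y =>
    intervalIntegral.integral_congr fun z _ => per_snd h t z y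
  simp only [fun t => interval_shift (h2 (t + a)) b]
  have h1 : Function.Periodic (fun t => ∫ y in (0 : ℝ)..1, ∫ z in (0 : ℝ)..1, F (t, y, z)) 1 :=
    fun t => intervalIntegral.integral_congr fun y _ =>
      intervalIntegral.integral_congr fun z _ => per_fst h y z t
  exact interval_shift h1 a

lemma cube_shift {F : (ℝ × ℝ × ℝ) → ℝ} (h : Bd F) (hp : Per F) (u : (ℝ × ℝ × ℝ)) :
    ∫ p in cube, F (p + u) = ∫ p in cube, F p := by
  rw [setIntegral_cube (h.shift u), setIntegral_cube h, int3_shift hp]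

lemma bd_of_per {F : (ℝ × ℝ × ℝ) → ℝ} (hc : Continuous F) (hp : Per F) : Bd F := by
  obtain ⟨C, hC⟩ := (isCompact_Icc.prod (isCompact_Icc.prod isCompact_Icc) :
    IsCompact (Set.Icc (0 : ℝ) 1 ×ˢ (Set.Icc (0 : ℝ) 1 ×ˢ Set.Icc (0 : ℝ) 1))).exists_bound_of_continuousOn
      hc.continuousOn
  refine ⟨hc.measurable, C, fun p => ?_⟩
  obtain ⟨t, y, z⟩ := p
  have e1 : F (t, y, z) = F (Int.fract t, y, z) :=
    (by simpa only [mul_one, Int.self_sub_floor] using ((per_fst hp y z).sub_int_mul_eq (x := t) ⌊t⌋).symm)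
  have e2 : F (Int.fract t, y, z) = F (Int.fract t, Int.fract y, z) :=
    (by simpa only [mul_one, Int.self_sub_floor] using
      ((per_snd hp (Int.fract t) z).sub_int_mul_eq (x := y) ⌊y⌋).symm)
  have e3 : F (Int.fract t, Int.fract y, z) = F (Int.fract t, Int.fract y, Int.fract z) :=
    (by simpa only [mul_one, Int.self_sub_floor] using
      ((per_thd hp (Int.fract t) (Int.fract y)).sub_int_mul_eq (x := z) ⌊z⌋).symm)
  have h01 : ∀ x : ℝ, Int.fract x ∈ Set.Icc (0 : ℝ) 1 := fun x =>
    ⟨Int.fract_nonneg x, (Int.fract_lt_one x).le⟩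
  rw [e1, e2, e3]
  simpa using hC (Int.fract t, Int.fract y, Int.fract z) ⟨h01 t, h01 y, h01 z⟩

lemma per_fderiv {h : (ℝ × ℝ × ℝ) → ℝ} (hh : Per h) (v : (ℝ × ℝ × ℝ)) : Per fun p => fderiv ℝ h p v := by
  intro p
  refine ⟨?_, ?_, ?_⟩ <;> simp only
  · rw [← fderiv_comp_add_right, show (fun q => h (q + e₁)) = h from funext fun q => (hh q).1]
  · rw [← fderiv_comp_add_right, show (fun q => h (q + e₂)) = h from funext fun q => (hh q).2.1]
  · rw [← fderiv_comp_add_right, show (fun q => h (q + e₃)) = h from funext fun q => (hh q).2.2]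

/-- The integral of a derivative of a periodic function vanishes. -/
lemma integral_deriv {h : (ℝ × ℝ × ℝ) → ℝ} (hh : ContDiff ℝ 1 h) (hp : Per h) {v : (ℝ × ℝ × ℝ)}
    (hv : ∀ p, h (p + v) = h p) : ∫ p in cube, fderiv ℝ h p v = 0 := by
  have hc : Continuous fun p => fderiv ℝ h p v :=
    (hh.continuous_fderiv one_ne_zero).clm_apply continuous_const
  have hb := bd_of_per hc (per_fderiv hp v)
  obtain ⟨C, hC⟩ := hb.2
  have hline : ∀ p, ∫ s in (0 : ℝ)..1, fderiv ℝ h (p + s • v) v = 0 := fun p => by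
    have hd : ∀ s : ℝ, HasDerivAt (fun s : ℝ => h (p + s • v)) (fderiv ℝ h (p + s • v) v) s :=
      fun s => ((hh.differentiable one_ne_zero) _).hasFDerivAt.comp_hasDerivAt s
        (by simpa using ((hasDerivAt_id s).smul_const v).const_add p)
    rw [intervalIntegral.integral_eq_sub_of_hasDerivAt (fun s _ => hd s)
      ((hc.comp (by fun_prop : Continuous fun s : ℝ => p + s • v)).intervalIntegrable 0 1)]
    simp [hv]
  have : IsFiniteMeasure ((volume : Measure ℝ).restrict (Set.uIoc (0 : ℝ) 1)) :=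
    ⟨by simp⟩
  have hswap := intervalIntegral_integral_swap (μ := (volume : Measure (ℝ × ℝ × ℝ)).restrict cube)
    (a := (0 : ℝ)) (b := 1) (f := fun s p => fderiv ℝ h (p + s • v) v)
    (Integrable.of_bound (hc.comp (by fun_prop :
      Continuous fun z : ℝ × (ℝ × ℝ × ℝ) => z.2 + z.1 • v)).aestronglyMeasurable C
      (Filter.Eventually.of_forall fun z => by simpa [Function.uncurry] using hC _))
  simp only [hline, integral_zero, cube_shift hb (per_fderiv hp v)] at hswap
  simpa using hswap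

/-- The indicator of a set. -/
def chi (E : Set (ℝ × ℝ × ℝ)) : (ℝ × ℝ × ℝ) → ℝ := E.indicator fun _ => 1

variable {E : Set (ℝ × ℝ × ℝ)}

lemma chi_mem (p : (ℝ × ℝ × ℝ)) : 0 ≤ chi E p ∧ chi E p ≤ 1 := by
  by_cases h : p ∈ E <;> simp [chi, h]

lemma abs_chi (p : (ℝ × ℝ × ℝ)) : |chi E p| ≤ 1 :=
  abs_le.2 ⟨by linarith [(chi_mem (E := E) p).1], (chi_mem p).2⟩

lemma measurable_chi (hm : MeasurableSet E) : Measurable (chi E) :=
  measurable_const.indicator hm

lemma bd_chi (hm : MeasurableSet E) : Bd (chi E) := ⟨measurable_chi hm, 1, abs_chi⟩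

lemma per_chi (hE : PerSet E) : Per (chi E) := fun p =>
  ⟨Set.indicator_eq_indicator (hE p).1 rfl, Set.indicator_eq_indicator (hE p).2.1 rfl,
    Set.indicator_eq_indicator (hE p).2.2 rfl⟩

lemma integral_chi_mul (hm : MeasurableSet E) (G : (ℝ × ℝ × ℝ) → ℝ) :
    ∫ p in cube, chi E p * G p = ∫ p in E ∩ cube, G p := by
  rw [show (fun p => chi E p * G p) = E.indicator G from funext fun p => by
    by_cases h : p ∈ E <;> simp [chi, h], setIntegral_indicator hm, Set.inter_comm]

/-- The mollified indicator. -/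
def moll (E : Set (ℝ × ℝ × ℝ)) (ρ : (ℝ × ℝ × ℝ) → ℝ) (p : (ℝ × ℝ × ℝ)) : ℝ := ∫ u, ρ u * chi E (p - u)

/-- A mollifier. -/
structure Ker (ρ : (ℝ × ℝ × ℝ) → ℝ) : Prop where
  smooth : ContDiff ℝ 2 ρ
  supp : HasCompactSupport ρ
  nonneg : ∀ u, 0 ≤ ρ u
  one : ∫ u, ρ u = 1

variable {ρ : (ℝ × ℝ × ℝ) → ℝ}

lemma abs_sub_unit {x y : ℝ} (h1 : 0 ≤ x) (h2 : x ≤ 1) (h3 : 0 ≤ y) (h4 : y ≤ 1) : |x - y| ≤ 1 :=
  abs_le.2 ⟨by linarith, by linarith⟩

lemma Ker.integrable (hρ : Ker ρ) : Integrable ρ :=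
  hρ.smooth.continuous.integrable_of_hasCompactSupport hρ.supp

lemma Ker.integrable_mul (hρ : Ker ρ) {f : (ℝ × ℝ × ℝ) → ℝ} (hf : Bd f) :
    Integrable fun u => ρ u * f u := by
  obtain ⟨C, hC⟩ := hf.2
  refine Integrable.mono' (hρ.integrable.mul_const C)
    (hρ.smooth.continuous.measurable.mul hf.1).aestronglyMeasurable
    (Filter.Eventually.of_forall fun u => ?_)
  rw [Real.norm_eq_abs, abs_mul, abs_of_nonneg (hρ.nonneg u)]
  exact mul_le_mul_of_nonneg_left (hC u) (hρ.nonneg u)

lemma bd_chi_sub (hm : MeasurableSet E) (p : (ℝ × ℝ × ℝ)) : Bd fun u => chi E (p - u) :=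
  ⟨(measurable_chi hm).comp (measurable_const_sub p), 1, fun _ => abs_chi _⟩

lemma dens_moll (hm : MeasurableSet E) (hE : PerSet E) (hρ : Ker ρ) : Dens (moll E ρ) := by
  refine ⟨?_, fun p => ?_, fun p => ⟨?_, ?_⟩⟩
  · exact hρ.supp.contDiff_convolution_left (ContinuousLinearMap.mul ℝ ℝ) hρ.smooth
      (f := ρ) (g := chi E) (μ := volume)
      ((locallyIntegrable_const (1 : ℝ)).mono (measurable_chi hm).aestronglyMeasurable
        (Filter.Eventually.of_forall fun q => by simpa using abs_chi (E := E) q))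
  · have h := per_chi hE
    refine ⟨?_, ?_, ?_⟩ <;> refine integral_congr_ae (Filter.Eventually.of_forall fun u => ?_) <;>
      simp only [add_sub_right_comm]
    · rw [(h _).1]
    · rw [(h _).2.1]
    · rw [(h _).2.2]
  · exact integral_nonneg fun u => mul_nonneg (hρ.nonneg u) (chi_mem _).1
  · rw [← hρ.one]
    exact integral_mono (hρ.integrable_mul (bd_chi_sub hm p)) hρ.integrable fun u =>
      mul_le_of_le_one_right (hρ.nonneg u) (chi_mem _).2

lemma integrable_pair (hρ : Ker ρ) {f : (ℝ × ℝ × ℝ) × (ℝ × ℝ × ℝ) → ℝ} (hf : Measurable f) {C : ℝ}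
    (hC : ∀ z, |f z| ≤ C) :
    Integrable (fun z : (ℝ × ℝ × ℝ) × (ℝ × ℝ × ℝ) => ρ z.1 * f z)
      ((volume : Measure (ℝ × ℝ × ℝ)).prod ((volume : Measure (ℝ × ℝ × ℝ)).restrict cube)) := by
  refine Integrable.mono' ((hρ.integrable.mul_const C).comp_fst _)
    ((hρ.smooth.continuous.measurable.comp measurable_fst).mul hf).aestronglyMeasurable
    (Filter.Eventually.of_forall fun z => ?_)
  rw [Real.norm_eq_abs, abs_mul, abs_of_nonneg (hρ.nonneg _)]
  exact mul_le_mul_of_nonneg_left (hC z) (hρ.nonneg _)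

/-- Testing the mollified indicator is testing the set against shifts. -/
lemma integral_moll_mul (hm : MeasurableSet E) (hE : PerSet E) (hρ : Ker ρ) {G : (ℝ × ℝ × ℝ) → ℝ}
    (hG : Bd G) (hGp : Per G) :
    ∫ p in cube, moll E ρ p * G p = ∫ u, ρ u * ∫ p in E ∩ cube, G (p + u) := by
  obtain ⟨C, hC⟩ := hG.2
  have hsw := integral_integral_swap (μ := (volume : Measure (ℝ × ℝ × ℝ)))
    (ν := (volume : Measure (ℝ × ℝ × ℝ)).restrict cube) (f := fun u p => ρ u * (chi E (p - u) * G p))
    (integrable_pair hρ (((measurable_chi hm).comp (measurable_snd.sub measurable_fst)).mul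
      (hG.1.comp measurable_snd)) (C := C) fun z => by
        rw [abs_mul]
        exact (mul_le_of_le_one_left (abs_nonneg _) (abs_chi _)).trans (hC _))
  have h1 : ∫ p in cube, moll E ρ p * G p = ∫ u, ρ u * ∫ p in cube, chi E (p - u) * G p := by
    have e : ∫ u, ρ u * ∫ p in cube, chi E (p - u) * G p =
        ∫ u, ∫ p in cube, ρ u * (chi E (p - u) * G p) :=
      integral_congr_ae (Filter.Eventually.of_forall fun u =>
        (integral_const_mul (ρ u) fun p => chi E (p - u) * G p).symm)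
    rw [e, hsw]
    refine setIntegral_congr_fun measurableSet_cube fun p _ => ?_
    simp only [moll, ← integral_mul_const, mul_assoc]
  rw [h1]
  refine integral_congr_ae (Filter.Eventually.of_forall fun u => ?_)
  simp only
  rw [← integral_chi_mul hm]
  congr 1
  have hb : Bd fun p => chi E p * G (p + u) := (bd_chi hm).mul (hG.shift u)
  have hp : Per fun p => chi E p * G (p + u) := fun p => by
    simp only [(per_shift hGp u p).1, (per_shift hGp u p).2.1, (per_shift hGp u p).2.2,
      (per_chi hE p).1, (per_chi hE p).2.1, (per_chi hE p).2.2, and_self]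
  rw [← cube_shift hb hp (-u)]
  refine setIntegral_congr_fun measurableSet_cube fun p _ => ?_
  simp [sub_eq_add_neg]

lemma bd_moll (hm : MeasurableSet E) (hE : PerSet E) (hρ : Ker ρ) : Bd (moll E ρ) :=
  bd_of_per (dens_moll hm hE hρ).smooth.continuous (dens_moll hm hE hρ).per

lemma int3_moll (hm : MeasurableSet E) (hE : PerSet E) (hρ : Ker ρ) :
    int3 (moll E ρ) = vol E := by
  have h := integral_moll_mul hm hE hρ (G := fun _ => 1) ⟨measurable_const, 1, fun _ => by simp⟩
    (fun _ => ⟨rfl, rfl, rfl⟩)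
  simp only [mul_one, setIntegral_const, smul_eq_mul, integral_mul_const, hρ.one, one_mul] at h
  rw [← setIntegral_cube (bd_moll hm hE hρ), h]
  rfl

/-- Smoothing does not increase the total variation. -/
lemma int3_gnorm_le (hm : MeasurableSet E) (hE : PerSet E) (hP : perim E ≠ ⊤) (hρ : Ker ρ)
    {δ : ℝ} (hδ : 0 < δ) :
    int3 (gnorm (moll E ρ)) ≤ (perim E).toReal + δ := by
  have hw := dens_moll hm hE hρ
  set w := moll E ρ
  set d : (ℝ × ℝ × ℝ) → (ℝ × ℝ × ℝ) → ℝ := fun v p => fderiv ℝ w p v with hd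
  have hdc : ∀ v, ContDiff ℝ 1 (d v) := fun v =>
    ((hw.smooth.fderiv_right (m := 1) (by norm_num)).clm_apply contDiff_const)
  have hdp : ∀ v, Per (d v) := per_fderiv hw.per
  set S : (ℝ × ℝ × ℝ) → ℝ := fun p => d e₁ p ^ 2 + d e₂ p ^ 2 + d e₃ p ^ 2 + δ ^ 2
  have hS : ∀ p, 0 < S p := fun p => by positivity
  have hSc : ContDiff ℝ 1 fun p => Real.sqrt (S p) :=
    ((((hdc e₁).pow 2).add ((hdc e₂).pow 2)).add ((hdc e₃).pow 2) |>.add contDiff_const).sqrt
      fun p => (hS p).ne'
  set a : (ℝ × ℝ × ℝ) → (ℝ × ℝ × ℝ) → ℝ := fun v p => -d v p / Real.sqrt (S p) with ha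
  have hac : ∀ v, ContDiff ℝ 1 (a v) := fun v =>
    (hdc v).neg.div hSc fun p => (Real.sqrt_pos.2 (hS p)).ne'
  have hap : ∀ v, Per (a v) := fun v p => by
    simp only [ha, S, (hdp e₁ p).1, (hdp e₁ p).2.1, (hdp e₁ p).2.2, (hdp e₂ p).1, (hdp e₂ p).2.1,
      (hdp e₂ p).2.2, (hdp e₃ p).1, (hdp e₃ p).2.1, (hdp e₃ p).2.2, (hdp v p).1, (hdp v p).2.1,
      (hdp v p).2.2, and_self]
  set φ : (ℝ × ℝ × ℝ) → (ℝ × ℝ × ℝ) := fun p => (a e₁ p, a e₂ p, a e₃ p) with hφ
  have hF : Field φ := by
    refine ⟨(hac e₁).prodMk ((hac e₂).prodMk (hac e₃)), fun p => ?_, fun p => ?_⟩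
    · simp only [hφ, (hap e₁ p).1, (hap e₁ p).2.1, (hap e₁ p).2.2, (hap e₂ p).1, (hap e₂ p).2.1,
        (hap e₂ p).2.2, (hap e₃ p).1, (hap e₃ p).2.1, (hap e₃ p).2.2, and_self]
    · simp only [hφ, ha, div_pow, neg_sq, Real.sq_sqrt (hS p).le, ← add_div]
      rw [div_le_one (hS p)]
      simp only [S]
      nlinarith
  have hdiv : ∀ p, divg φ p =
      fderiv ℝ (a e₁) p e₁ + fderiv ℝ (a e₂) p e₂ + fderiv ℝ (a e₃) p e₃ := fun p => by
    have h : ∀ v, DifferentiableAt ℝ (a v) p := fun v => (hac v).differentiable one_ne_zero p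
    simp only [divg, hφ, (h e₁).fderiv_prodMk ((h e₂).prodMk (h e₃)),
      (h e₂).fderiv_prodMk (h e₃), ContinuousLinearMap.prod_apply]
  have hG : Continuous (divg φ) := by
    simp only [funext hdiv]
    exact ((((hac e₁).continuous_fderiv one_ne_zero).clm_apply continuous_const).add
      (((hac e₂).continuous_fderiv one_ne_zero).clm_apply continuous_const)).add
      (((hac e₃).continuous_fderiv one_ne_zero).clm_apply continuous_const)
  have hGp : Per (divg φ) := fun p => by
    simp only [hdiv, (per_fderiv (hap e₁) e₁ p).1, (per_fderiv (hap e₁) e₁ p).2.1,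
      (per_fderiv (hap e₁) e₁ p).2.2, (per_fderiv (hap e₂) e₂ p).1, (per_fderiv (hap e₂) e₂ p).2.1,
      (per_fderiv (hap e₂) e₂ p).2.2, (per_fderiv (hap e₃) e₃ p).1, (per_fderiv (hap e₃) e₃ p).2.1,
      (per_fderiv (hap e₃) e₃ p).2.2, and_self]
  have hGb : Bd (divg φ) := bd_of_per hG hGp
  have hle : ∀ u, ∫ p in E ∩ cube, divg φ (p + u) ≤ (perim E).toReal := fun u => by
    have hs : ∀ p, divg φ (p + u) = divg (fun q => φ (q + u)) p := fun p => by
      simp only [divg, fderiv_comp_add_right]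
    simp only [hs]
    refine (ENNReal.ofReal_le_iff_le_toReal hP).1 ?_
    exact le_iSup₂ (f := fun (ψ : (ℝ × ℝ × ℝ) → (ℝ × ℝ × ℝ)) (_ : Field ψ) =>
      ENNReal.ofReal (∫ p in E ∩ cube, divg ψ p)) (fun q => φ (q + u))
      ⟨hF.smooth.comp (contDiff_id.add contDiff_const), per_shift hF.per u, fun q => hF.bound _⟩
  have hup : ∫ p in cube, w p * divg φ p ≤ (perim E).toReal := by
    rw [integral_moll_mul hm hE hρ hGb hGp]
    refine (integral_mono (f := fun u => ρ u * ∫ p in E ∩ cube, divg φ (p + u))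
      (g := fun u => ρ u * (perim E).toReal) ?_ (hρ.integrable.mul_const _) fun u =>
        mul_le_mul_of_nonneg_left (hle u) (hρ.nonneg u)).trans (le_of_eq ?_)
    · obtain ⟨C, hC⟩ := hGb.2
      refine Integrable.mono' (hρ.integrable.mul_const C) ?_ (Filter.Eventually.of_forall fun u => ?_)
      · exact hρ.smooth.continuous.aestronglyMeasurable.mul
          ((hG.comp (continuous_snd.add continuous_fst)).measurable.stronglyMeasurable
            |>.integral_prod_right' (ν := volume.restrict (E ∩ cube))).aestronglyMeasurable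
      · rw [Real.norm_eq_abs, abs_mul, abs_of_nonneg (hρ.nonneg u)]
        refine mul_le_mul_of_nonneg_left ?_ (hρ.nonneg u)
        have hlt : volume (E ∩ cube) < ⊤ :=
          (measure_mono Set.inter_subset_right).trans_lt (by rw [volume_cube]; simp)
        refine (norm_setIntegral_le_of_norm_le_const hlt (f := fun p => divg φ (p + u))
          fun p _ => hC (p + u)).trans ?_
        refine mul_le_of_le_one_right ((abs_nonneg _).trans (hC 0)) ?_
        rw [Measure.real]
        have := ENNReal.toReal_mono (by rw [volume_cube]; simp)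
          (measure_mono (Set.inter_subset_right : E ∩ cube ⊆ cube) (μ := volume))
        simpa [volume_cube] using this
    · rw [integral_mul_const, hρ.one, one_mul]
  have hibp : ∀ v, (∀ p, w (p + v) = w p) → (∀ p, a v (p + v) = a v p) →
      ∫ p in cube, w p * fderiv ℝ (a v) p v = ∫ p in cube, -(a v p) * d v p := fun v hv hv' => by
    have hz := integral_deriv (h := fun p => w p * a v p) (v := v)
      ((hw.smooth.of_le one_le_two).mul (hac v))
      (fun p => by simp only [(hw.per p).1, (hw.per p).2.1, (hw.per p).2.2, (hap v p).1,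
        (hap v p).2.1, (hap v p).2.2, and_self]) (fun p => by simp only [hv, hv'])
    have hmul : ∀ p, fderiv ℝ (fun q => w q * a v q) p v =
        w p * fderiv ℝ (a v) p v + a v p * d v p := fun p => by
      rw [fderiv_fun_mul ((hw.smooth.of_le one_le_two).differentiable one_ne_zero p)
        ((hac v).differentiable one_ne_zero p)]
      simp [hd]
    simp only [hmul] at hz
    have hlt : volume cube < ⊤ := by rw [volume_cube]; simp
    rw [integral_add
      (((bd_moll hm hE hρ).mul (bd_of_per (((hac v).continuous_fderiv one_ne_zero).clm_apply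
        continuous_const) (per_fderiv (hap v) v))).integrableOn hlt)
      (((bd_of_per (hac v).continuous (hap v)).mul
        (bd_of_per (hdc v).continuous (hdp v))).integrableOn hlt)] at hz
    simp only [neg_mul, integral_neg]
    linarith
  have hi : ∀ {f : (ℝ × ℝ × ℝ) → ℝ}, Continuous f → IntegrableOn f cube := fun hf =>
    (hf.continuousOn.integrableOn_compact
      (isCompact_Icc.prod (isCompact_Icc.prod isCompact_Icc))).mono_set
      (Set.prod_mono Set.Ico_subset_Icc_self
        (Set.prod_mono Set.Ico_subset_Icc_self Set.Ico_subset_Icc_self))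
  have hwc := hw.smooth.continuous
  have hfc : ∀ v, Continuous fun p => fderiv ℝ (a v) p v := fun v =>
    ((hac v).continuous_fderiv one_ne_zero).clm_apply continuous_const
  have hT : ∀ v, Continuous fun p => -(a v p) * d v p := fun v =>
    (hac v).continuous.neg.mul (hdc v).continuous
  have hadd : ∀ {f g : (ℝ × ℝ × ℝ) → ℝ}, Continuous f → Continuous g →
      ∫ p in cube, (f p + g p) = (∫ p in cube, f p) + ∫ p in cube, g p :=
    fun hf hg => integral_add (hi hf) (hi hg)
  have heq : ∫ p in cube, w p * divg φ p =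
      ∫ p in cube, (-(a e₁ p) * d e₁ p + -(a e₂ p) * d e₂ p + -(a e₃ p) * d e₃ p) := by
    simp only [hdiv, mul_add]
    rw [hadd (f := fun p => w p * fderiv ℝ (a e₁) p e₁ + w p * fderiv ℝ (a e₂) p e₂)
        (g := fun p => w p * fderiv ℝ (a e₃) p e₃)
        ((hwc.mul (hfc e₁)).add (hwc.mul (hfc e₂))) (hwc.mul (hfc e₃)),
      hadd (f := fun p => w p * fderiv ℝ (a e₁) p e₁) (g := fun p => w p * fderiv ℝ (a e₂) p e₂)
        (hwc.mul (hfc e₁)) (hwc.mul (hfc e₂)),
      hadd (f := fun p => -(a e₁ p) * d e₁ p + -(a e₂ p) * d e₂ p) ((hT e₁).add (hT e₂)) (hT e₃),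
      hadd (hT e₁) (hT e₂),
      hibp e₁ (fun p => (hw.per p).1) (fun p => (hap e₁ p).1),
      hibp e₂ (fun p => (hw.per p).2.1) (fun p => (hap e₂ p).2.1),
      hibp e₃ (fun p => (hw.per p).2.2) (fun p => (hap e₃ p).2.2)]
  have hgn : Continuous (gnorm w) :=
    (((hdc e₁).continuous.pow 2).add ((hdc e₂).continuous.pow 2)).add
      ((hdc e₃).continuous.pow 2) |>.sqrt
  have hgp : Per (gnorm w) := fun p => by
    simp only [gnorm, (per_fderiv hw.per e₁ p).1, (per_fderiv hw.per e₁ p).2.1,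
      (per_fderiv hw.per e₁ p).2.2, (per_fderiv hw.per e₂ p).1, (per_fderiv hw.per e₂ p).2.1,
      (per_fderiv hw.per e₂ p).2.2, (per_fderiv hw.per e₃ p).1, (per_fderiv hw.per e₃ p).2.1,
      (per_fderiv hw.per e₃ p).2.2, and_self]
  rw [← setIntegral_cube (bd_of_per hgn hgp)]
  calc ∫ p in cube, gnorm w p
      ≤ ∫ p in cube, ((-(a e₁ p) * d e₁ p + -(a e₂ p) * d e₂ p + -(a e₃ p) * d e₃ p) + δ) := by
        refine setIntegral_mono (hi hgn) ((hi (((hT e₁).add (hT e₂)).add (hT e₃))).add
          (hi continuous_const)) fun p => ?_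
        have hg : gnorm w p = Real.sqrt (S p - δ ^ 2) := by simp [gnorm, S, d]
        have hq := Real.sqrt_pos.2 (hS p)
        have e : -(a e₁ p) * d e₁ p + -(a e₂ p) * d e₂ p + -(a e₃ p) * d e₃ p =
            (S p - δ ^ 2) / Real.sqrt (S p) := by
          simp only [a, S]; field_simp; ring
        rw [e, hg, sub_div, div_eq_mul_inv (S p), ← div_eq_mul_inv, Real.div_sqrt]
        have h1 : Real.sqrt (S p - δ ^ 2) ≤ Real.sqrt (S p) :=
          Real.sqrt_le_sqrt (by nlinarith [sq_nonneg δ])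
        have h2 : δ ≤ Real.sqrt (S p) :=
          Real.le_sqrt_of_sq_le (by simp only [S]; nlinarith)
        have h3 : δ ^ 2 / Real.sqrt (S p) ≤ δ := by
          rw [div_le_iff₀ hq]; nlinarith
        linarith
    _ = (∫ p in cube, w p * divg φ p) + δ := by
        rw [hadd (f := fun p => -(a e₁ p) * d e₁ p + -(a e₂ p) * d e₂ p + -(a e₃ p) * d e₃ p)
          (((hT e₁).add (hT e₂)).add (hT e₃)) continuous_const, ← heq]
        simp
    _ ≤ (perim E).toReal + δ := by linarith

/-- A set is close in mean to its small translates. -/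
lemma exists_ker_close (hm : MeasurableSet E) {ε : ℝ} (hε : 0 < ε) :
    ∃ ρ, Ker ρ ∧ ∀ u, ρ u * ∫ p in cube, |chi E (p - u) - chi E p| ≤ ρ u * ε := by
  set B : Set (ℝ × ℝ × ℝ) := Metric.closedBall 0 2
  have hB : volume B < ⊤ := (isCompact_closedBall _ _).measure_lt_top
  set f : ℝ × ℝ × ℝ → ℝ := (E ∩ B).indicator fun _ => 1
  have hfi : Integrable f := (integrable_indicator_iff (hm.inter measurableSet_closedBall)).2
    (integrableOn_const ((measure_mono Set.inter_subset_right).trans_lt hB).ne)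
  obtain ⟨g, hgs, hg, hgc, hgi⟩ :=
    hfi.exists_hasCompactSupport_integral_sub_le (show 0 < ε / 3 by positivity)
  obtain ⟨η, hη, hunif⟩ := Metric.uniformContinuous_iff.1
    (hgs.uniformContinuous_of_continuous hgc) (ε / 3) (by positivity)
  set b : ContDiffBump (0 : ℝ × ℝ × ℝ) :=
    ⟨min η 1 / 2, min η 1, by positivity, half_lt_self (by positivity)⟩
  refine ⟨b.normed volume, ⟨b.contDiff_normed, b.hasCompactSupport_normed, b.nonneg_normed,
    b.integral_normed⟩, fun u => ?_⟩
  by_cases h0 : b.normed volume u = 0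
  · simp [h0]
  have hmem : u ∈ Function.support (b.normed volume) := h0
  rw [b.support_normed_eq, Metric.mem_ball, dist_zero_right] at hmem
  refine mul_le_mul_of_nonneg_left ?_ (b.nonneg_normed u)
  obtain ⟨huη, hu1⟩ : ‖u‖ < η ∧ ‖u‖ < 1 := lt_min_iff.1 hmem
  have hsub : ∀ p ∈ cube, chi E (p - u) = f (p - u) ∧ chi E p = f p := fun p hp => by
    have hp1 : ‖p‖ ≤ 1 := by
      obtain ⟨h1, h2, h3⟩ := hp
      simp only [Prod.norm_def, Real.norm_eq_abs, max_le_iff, abs_le]
      refine ⟨⟨?_, ?_⟩, ⟨?_, ?_⟩, ?_, ?_⟩ <;>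
        linarith [h1.1, h1.2, h2.1, h2.2, h3.1, h3.2]
    have hq : ∀ q ∈ B, chi E q = f q := fun q hq => by
      by_cases h : q ∈ E <;> simp [chi, f, h, hq]
    refine ⟨hq _ ?_, hq _ (by simp [B]; linarith)⟩
    simp only [B, Metric.mem_closedBall, dist_zero_right]
    linarith [norm_sub_le p u]
  have hfg : Integrable fun p => |f p - g p| := (hfi.sub hgi).abs
  have hfg' : Integrable fun p => |f (p - u) - g (p - u)| := hfg.comp_sub_right u
  calc ∫ p in cube, |chi E (p - u) - chi E p|
      ≤ ∫ p in cube, ((|f (p - u) - g (p - u)| + |f p - g p|) + ε / 3) := by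
        refine setIntegral_mono_on (Bd.integrableOn
          ⟨(((measurable_chi hm).comp (measurable_sub_const u)).sub (measurable_chi hm)).abs, 1,
            fun p => ?_⟩ (by rw [volume_cube]; simp))
          ((hfg'.add hfg).integrableOn.add (integrable_const _)) measurableSet_cube fun p hp => ?_
        · rw [abs_abs]
          exact abs_sub_unit (chi_mem _).1 (chi_mem _).2 (chi_mem _).1
            (chi_mem _).2
        · rw [(hsub p hp).1, (hsub p hp).2]
          have h3 : |g (p - u) - g p| ≤ ε / 3 := (hunif (by simpa using huη)).le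
          have := abs_sub_le (f (p - u)) (g (p - u)) (f p)
          have := abs_sub_le (g (p - u)) (g p) (f p)
          rw [abs_sub_comm (g p) (f p)] at *
          linarith
    _ ≤ ε := by
        rw [integral_add (f := fun p => |f (p - u) - g (p - u)| + |f p - g p|)
            (hfg'.add hfg).integrableOn (integrable_const _),
          integral_add hfg'.integrableOn hfg.integrableOn]
        have h1 : ∫ p in cube, |f (p - u) - g (p - u)| ≤ ε / 3 :=
          (setIntegral_le_integral hfg' (Filter.Eventually.of_forall fun _ => abs_nonneg _)).trans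
            (by rw [integral_sub_right_eq_self fun p => |f p - g p|]; exact hg)
        have h2 : ∫ p in cube, |f p - g p| ≤ ε / 3 :=
          (setIntegral_le_integral hfg (Filter.Eventually.of_forall fun _ => abs_nonneg _)).trans hg
        simp
        linarith

lemma bd_abs_sub_chi (hm : MeasurableSet E) {w : ℝ × ℝ × ℝ → ℝ} (hw : Dens w) :
    Bd fun p => |w p - chi E p| :=
  ⟨(hw.smooth.continuous.measurable.sub (measurable_chi hm)).abs, 1, fun p => by
    rw [abs_abs]
    exact abs_sub_unit (hw.mem p).1 (hw.mem p).2 (chi_mem _).1 (chi_mem _).2⟩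

end Approx

open Approx in
/-- A set of finite perimeter has smooth densities of the same volume close to it in mean. -/
theorem exists_dens_L1 {E : Set (ℝ × ℝ × ℝ)} (hm : MeasurableSet E) (hE : PerSet E) (hP : perim E ≠ ⊤)
    {ε : ℝ} (hε : 0 < ε) :
    ∃ w, Dens w ∧ int3 (gnorm w) ≤ (perim E).toReal + ε ∧ int3 w = vol E ∧
      int3 (fun p => w p * (1 - w p)) ≤ ε ∧ (∫ p in cube, |w p - chi E p|) ≤ ε := by
  obtain ⟨ρ, hρ, hu⟩ := exists_ker_close hm hε
  have hw := dens_moll hm hE hρ
  have hd : ∀ z : (ℝ × ℝ × ℝ) × (ℝ × ℝ × ℝ), |(|chi E (z.2 - z.1) - chi E z.2|)| ≤ 1 := fun z => by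
    rw [abs_abs]
    exact abs_sub_unit (chi_mem _).1 (chi_mem _).2 (chi_mem _).1 (chi_mem _).2
  have hmd : Measurable fun z : (ℝ × ℝ × ℝ) × (ℝ × ℝ × ℝ) =>
      |chi E (z.2 - z.1) - chi E z.2| :=
    (((measurable_chi hm).comp (measurable_snd.sub measurable_fst)).sub
      ((measurable_chi hm).comp measurable_snd)).abs
  have hint := integrable_pair hρ hmd hd
  have hab : ∀ p, |moll E ρ p - chi E p| ≤ ∫ u, ρ u * |chi E (p - u) - chi E p| := fun p => by
    have : moll E ρ p - chi E p = ∫ u, ρ u * (chi E (p - u) - chi E p) := by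
      simp only [mul_sub]
      rw [integral_sub (hρ.integrable_mul (bd_chi_sub hm p)) (hρ.integrable.mul_const _),
        integral_mul_const, hρ.one, one_mul]
      rfl
    rw [this]
    refine abs_integral_le_integral_abs.trans (le_of_eq ?_)
    exact integral_congr_ae (Filter.Eventually.of_forall fun u => by
      simp only [abs_mul, abs_of_nonneg (hρ.nonneg u)])
  have hL : (∫ p in cube, |moll E ρ p - chi E p|) ≤ ε :=
    calc ∫ p in cube, |moll E ρ p - chi E p|
        ≤ ∫ p in cube, ∫ u, ρ u * |chi E (p - u) - chi E p| :=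
          setIntegral_mono ((bd_abs_sub_chi hm hw).integrableOn (by rw [volume_cube]; simp))
            hint.integral_prod_right hab
      _ = ∫ u, ρ u * ∫ p in cube, |chi E (p - u) - chi E p| := by
          rw [← integral_integral_swap hint]
          simp only [integral_const_mul]
      _ ≤ ∫ u, ρ u * ε := by
          refine integral_mono ?_ (hρ.integrable.mul_const ε) hu
          simpa only [integral_const_mul] using hint.integral_prod_left
      _ = ε := by rw [integral_mul_const, hρ.one, one_mul]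
  refine ⟨moll E ρ, hw, int3_gnorm_le hm hE hP hρ hε, int3_moll hm hE hρ, le_trans ?_ hL, hL⟩
  have hprod : Bd fun p => moll E ρ p * (1 - moll E ρ p) :=
    bd_of_per (hw.smooth.continuous.mul (continuous_const.sub hw.smooth.continuous)) fun p => by
      simp only [(hw.per p).1, (hw.per p).2.1, (hw.per p).2.2, and_self]
  rw [← setIntegral_cube hprod]
  refine setIntegral_mono (hprod.integrableOn (by rw [volume_cube]; simp))
    ((bd_abs_sub_chi hm hw).integrableOn (by rw [volume_cube]; simp)) fun p => ?_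
  obtain ⟨h0, h1⟩ := hw.mem p
  by_cases h : p ∈ E
  · simp only [chi, Set.indicator_of_mem h]
    rw [abs_of_nonpos (by linarith)]
    nlinarith
  · simp only [chi, Set.indicator_of_notMem h, sub_zero]
    rw [abs_of_nonneg h0]
    nlinarith

/-- A set of finite perimeter is approximated by smooth densities of no larger total variation. -/
theorem exists_dens {E : Set (ℝ × ℝ × ℝ)} (hm : MeasurableSet E) (hE : PerSet E)
    (hP : perim E ≠ ⊤) {ε : ℝ} (hε : 0 < ε) :
    ∃ w, Dens w ∧ int3 (gnorm w) ≤ (perim E).toReal + ε ∧ |int3 w - vol E| ≤ ε ∧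
      int3 (fun p => w p * (1 - w p)) ≤ ε := by
  obtain ⟨w, hw, h1, h2, h3, -⟩ := exists_dens_L1 hm hE hP hε
  exact ⟨w, hw, h1, by rw [h2, sub_self, abs_zero]; exact hε.le, h3⟩

end

end Vale.Agent.P232
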