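import Mathlib

/-! # P232: calibrations of the one-dimensional slice functional -/

namespace Vale.Agent.P232

noncomputable section

/-- The slice profile of the square. -/
def gfun (x : ℝ) : ℝ :=
  min (min (Real.sqrt (Real.pi * x)) 1) (Real.sqrt (Real.pi * (1 - x)))

/-- `P` dominates every calibrated lower bound of the functional with slice profile `h`. -/
def Low (h : ℝ → ℝ) (v f a P : ℝ) : Prop :=
  ∀ (H C : ℝ) (β : ℝ → ℝ), ContinuousOn β (Set.Icc f a) →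
    (∀ x ∈ Set.Icc f a, 0 ≤ β x ∧ (H * x + C) ^ 2 + h x ^ 2 * β x ^ 2 ≤ h x ^ 2 ∧ β x ≤ 1) →
    H * v + C + (∫ x in f..a, β x) ≤ P

lemma calib_pt {l h b d : ℝ} (hh : 0 ≤ h) (h1 : b ^ 2 ≤ 1)
    (h2 : l ^ 2 + h ^ 2 * b ^ 2 ≤ h ^ 2) : l + b * d ≤ Real.sqrt (h ^ 2 + d ^ 2) := by
  refine Real.le_sqrt_of_sq_le ?_
  rcases hh.eq_or_lt with rfl | hh
  · have : l = 0 := by nlinarith [sq_nonneg l]
    subst this
    nlinarith [sq_nonneg d]
  · have key : h ^ 2 * (l + b * d) ^ 2 ≤ h ^ 2 * (h ^ 2 + d ^ 2) := by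
      nlinarith [sq_nonneg (l * d - b * h ^ 2), sq_nonneg d,
        mul_le_mul_of_nonneg_left h2 (add_nonneg (sq_nonneg h) (sq_nonneg d))]
    exact le_of_mul_le_mul_left key (by positivity)

end

end Vale.Agent.P232
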