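import Vale.Agent.P232.Plane
import Vale.Agent.P232.Calib

/-!
# P232: the isoperimetric inequality of the square torus for smooth densities

The levels of a density `f` are split by the numbers `a ≤ m ≤ b` built from the max-min and min-max
of `f` along the two coordinate directions: above `b` the level sets miss a cross, below `a` they
contain a cross, and in each of the two middle ranges they meet every line of one direction.
-/

namespace Vale.Agent.P232

noncomputable section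

open MeasureTheory Set

/-- The integral of a function over the unit square. -/
def area2 (f : ℝ × ℝ → ℝ) : ℝ := ∫ y in (0 : ℝ)..1, ∫ z in (0 : ℝ)..1, f (y, z)

/-- Densities on the square torus. -/
structure Dens2 (f : ℝ × ℝ → ℝ) : Prop where
  smooth : ContDiff ℝ 1 f
  per : Per2 f
  mem : ∀ p, f p ∈ Set.Icc (0 : ℝ) 1

lemma area2_mono {F G : ℝ × ℝ → ℝ} (hF : Continuous F) (hG : Continuous G) (h : ∀ p, F p ≤ G p) :
    area2 F ≤ area2 G :=
  sq_mono hF hG fun y _ z _ => h (y, z)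

lemma area2_add {F G : ℝ × ℝ → ℝ} (hF : Continuous F) (hG : Continuous G) :
    area2 (fun p => F p + G p) = area2 F + area2 G :=
  sq_add hF hG

lemma area2_const (c : ℝ) : area2 (fun _ => c) = c := by simp [area2]

lemma area2_const_mul (c : ℝ) (F : ℝ × ℝ → ℝ) : area2 (fun p => c * F p) = c * area2 F := by
  simp [area2]

lemma area2_nonneg {F : ℝ × ℝ → ℝ} (h : ∀ p, 0 ≤ F p) : 0 ≤ area2 F :=
  intervalIntegral.integral_nonneg zero_le_one fun y _ =>
    intervalIntegral.integral_nonneg zero_le_one fun z _ => h (y, z)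

lemma area2_one_sub {f : ℝ × ℝ → ℝ} (hf : Continuous f) :
    area2 (fun p => 1 - f p) = 1 - area2 f := by
  have h := area2_add (F := fun p => 1 - f p) (continuous_const.sub hf) hf
  simp only [sub_add_cancel, area2_const] at h
  linarith

lemma amgm_err {t δ : ℝ} (ht : 0 ≤ t) (hδ : 0 < δ) :
    2 * √Real.pi * √t ≤ δ + Real.pi * t / δ := by
  rw [← sub_nonneg]
  have h : δ + Real.pi * t / δ - 2 * √Real.pi * √t = (δ - √Real.pi * √t) ^ 2 / δ := by
    field_simp
    rw [sub_sq, mul_pow, Real.sq_sqrt Real.pi_pos.le, Real.sq_sqrt ht]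
    ring
  rw [h]
  positivity

lemma sqrt_add_le' {x y : ℝ} (hx : 0 ≤ x) (hy : 0 ≤ y) : √(x + y) ≤ √x + √y := by
  rw [Real.sqrt_le_left (by positivity)]
  nlinarith [Real.sq_sqrt hx, Real.sq_sqrt hy, Real.sqrt_nonneg x, Real.sqrt_nonneg y]

/-- The planar profile bounds the total variation plus two cuts. -/
theorem cut2_lower {δ : ℝ} (hδ : 0 < δ) : ∃ K : ℝ, 0 ≤ K ∧ ∀ f, Dens2 f → ∀ y₀ z₀ : ℝ,
    2 * Real.sqrt (Real.pi * area2 f) ≤ tv2 f + 2 * (∫ z in (0 : ℝ)..1, f (y₀, z))
      + 2 * (∫ y in (0 : ℝ)..1, f (y, z₀)) + δ + K * area2 (fun p => f p * (1 - f p)) := by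
  refine ⟨Real.pi / δ, by positivity, fun f hf y₀ z₀ => ?_⟩
  have hc := hf.smooth.continuous
  have hplan : 2 * √Real.pi * √(area2 fun p => f p ^ 2) ≤ tv2 f
      + 2 * (∫ z in (0 : ℝ)..1, f (y₀, z)) + 2 * (∫ y in (0 : ℝ)..1, f (y, z₀)) :=
    planar_cut hf.smooth hf.per (fun p => (hf.mem p).1) y₀ z₀
  set e := area2 fun p => f p * (1 - f p)
  have he : 0 ≤ e := area2_nonneg fun p => mul_nonneg (hf.mem p).1 (by linarith [(hf.mem p).2])
  have hN : 0 ≤ area2 fun p => f p ^ 2 := area2_nonneg fun p => sq_nonneg _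
  have hA : area2 f = (area2 fun p => f p ^ 2) + e := by
    rw [← area2_add (F := fun p => f p ^ 2) (G := fun p => f p * (1 - f p)) (hc.pow 2)
      (hc.mul (continuous_const.sub hc))]
    congr 1; funext p; ring
  rw [hA, Real.sqrt_mul Real.pi_pos.le]
  have h := mul_le_mul_of_nonneg_left (sqrt_add_le' hN he)
    (show 0 ≤ 2 * √Real.pi by positivity)
  have := amgm_err he hδ
  have e1 : Real.pi / δ * e = Real.pi * e / δ := by ring
  linarith

/-- The derivative of the smoothed positive part. -/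
def ramp (η t : ℝ) : ℝ := max 0 (min 1 (t / η))

/-- The smoothed positive part. -/
def sp (η t : ℝ) : ℝ := ∫ s in (0 : ℝ)..t, ramp η s

lemma continuous_ramp (η : ℝ) : Continuous (ramp η) :=
  continuous_const.max (continuous_const.min (continuous_id.div_const η))

lemma hasDerivAt_sp (η t : ℝ) : HasDerivAt (sp η) (ramp η t) t :=
  intervalIntegral.integral_hasDerivAt_right ((continuous_ramp η).intervalIntegrable _ _)
    (continuous_ramp η).aestronglyMeasurable.stronglyMeasurableAtFilter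
    (continuous_ramp η).continuousAt

lemma contDiff_sp (η : ℝ) : ContDiff ℝ 1 (sp η) := by
  refine contDiff_one_iff_deriv.2 ⟨fun t => (hasDerivAt_sp η t).differentiableAt, ?_⟩
  rw [show deriv (sp η) = ramp η from funext fun t => (hasDerivAt_sp η t).deriv]
  exact continuous_ramp η

lemma ramp_nonneg (η t : ℝ) : 0 ≤ ramp η t := le_max_left _ _

lemma ramp_le_one (η t : ℝ) : ramp η t ≤ 1 := max_le zero_le_one (min_le_left _ _)

lemma ramp_eq_zero {η t : ℝ} (hη : 0 < η) (ht : t ≤ 0) : ramp η t = 0 :=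
  max_eq_left ((min_le_right _ _).trans (div_nonpos_of_nonpos_of_nonneg ht hη.le))

lemma ramp_mono {η : ℝ} (hη : 0 < η) : Monotone (ramp η) := fun _ _ h =>
  max_le_max le_rfl (min_le_min le_rfl (div_le_div_of_nonneg_right h hη.le))

lemma sp_mono (η : ℝ) : Monotone (sp η) :=
  monotone_of_deriv_nonneg (fun t => (hasDerivAt_sp η t).differentiableAt) fun t => by
    rw [(hasDerivAt_sp η t).deriv]; exact ramp_nonneg η t

lemma sp_eq_zero {η t : ℝ} (hη : 0 < η) (ht : t ≤ 0) : sp η t = 0 := by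
  rw [sp, intervalIntegral.integral_congr (g := fun _ => (0 : ℝ)) fun s hs => ?_]
  · simp
  · rw [uIcc_of_ge ht] at hs
    exact ramp_eq_zero hη hs.2

lemma sp_nonneg {η : ℝ} (hη : 0 < η) (t : ℝ) : 0 ≤ sp η t := by
  rcases le_total t 0 with h | h
  · exact (sp_eq_zero hη h).ge
  · exact intervalIntegral.integral_nonneg h fun s _ => ramp_nonneg η s

lemma sp_le {η t : ℝ} (ht : 0 ≤ t) : sp η t ≤ t := by
  refine (intervalIntegral.integral_mono_on ht ((continuous_ramp η).intervalIntegrable _ _)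
    intervalIntegrable_const fun s _ => ramp_le_one η s).trans_eq (by simp)

lemma sp_ge {η : ℝ} (hη : 0 < η) (t : ℝ) : t - η ≤ sp η t := by
  rcases le_total t η with h | h
  · linarith [sp_nonneg hη t]
  · have e : ∫ s in η..t, ramp η s = t - η := by
      rw [intervalIntegral.integral_congr (g := fun _ => (1 : ℝ)) fun s hs => ?_]
      · simp
      · rw [uIcc_of_le h] at hs
        show max 0 (min 1 (s / η)) = 1
        rw [min_eq_left ((one_le_div hη).2 hs.1), max_eq_right zero_le_one]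
    rw [sp, ← intervalIntegral.integral_add_adjacent_intervals
      ((continuous_ramp η).intervalIntegrable 0 η) ((continuous_ramp η).intervalIntegrable η t), e]
    have := intervalIntegral.integral_nonneg (μ := volume) hη.le fun s _ => ramp_nonneg η s
    linarith

lemma deriv_sp_sub (η c x : ℝ) : HasDerivAt (fun t => sp η (t - c)) (ramp η (x - c)) x :=
  (hasDerivAt_sp η (x - c)).comp_sub_const x c

lemma deriv_sp_rev (η c x : ℝ) : HasDerivAt (fun t => sp η (c - t)) (-ramp η (c - x)) x :=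
  (hasDerivAt_sp η (c - x)).comp_const_sub c x

lemma grad2_comp {f : ℝ × ℝ → ℝ} {φ : ℝ → ℝ} {d : ℝ} {p : ℝ × ℝ} (hf : ContDiff ℝ 1 f)
    (hφ : HasDerivAt φ d (f p)) : grad2 (fun q => φ (f q)) p = |d| * grad2 f p := by
  have h : fderiv ℝ (fun q => φ (f q)) p = d • fderiv ℝ f p :=
    (hφ.comp_hasFDerivAt p (hf.differentiable one_ne_zero p).hasFDerivAt).fderiv
  simp only [grad2, h, smul_apply, smul_eq_mul, mul_pow]
  rw [← mul_add, Real.sqrt_mul (sq_nonneg _), Real.sqrt_sq_eq_abs]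

lemma per2_reduce {F : ℝ × ℝ → ℝ} (hp : Per2 F) (y z : ℝ) :
    ∃ y' ∈ Icc (0 : ℝ) 1, ∃ z' ∈ Icc (0 : ℝ) 1,
      (∀ w, F (y, w) = F (y', w)) ∧ (∀ w, F (w, z) = F (w, z')) := by
  have h1 : Function.Periodic (fun y => fun w => F (y, w)) 1 := fun y => funext fun w => (hp y w).1
  have h2 : Function.Periodic (fun z => fun w => F (w, z)) 1 := fun z => funext fun w => (hp w z).2
  obtain ⟨y', hy', ey⟩ := h1.exists_mem_Ico₀ one_pos y
  obtain ⟨z', hz', ez⟩ := h2.exists_mem_Ico₀ one_pos z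
  exact ⟨y', Ico_subset_Icc_self hy', z', Ico_subset_Icc_self hz', congrFun ey, congrFun ez⟩

/-- The max-min of a periodic function over the lines of one direction. -/
lemma exists_maxmin {F : ℝ × ℝ → ℝ} (hF : Continuous F) (hp : Per2 F) :
    ∃ c, (∃ y, ∀ z, c ≤ F (y, z)) ∧ ∀ y, ∃ z, F (y, z) ≤ c := by
  set K : Set ℝ := Icc 0 1
  have hK : IsCompact K := isCompact_Icc
  have hK0 : K.Nonempty := nonempty_Icc.2 zero_le_one
  have hcont : Continuous fun y => sInf ((fun z => F (y, z)) '' K) :=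
    hK.continuous_sInf (f := fun y z => F (y, z)) hF
  have hline : ∀ y, ∃ z ∈ K, sInf ((fun z => F (y, z)) '' K) = F (y, z) ∧
      ∀ w ∈ K, F (y, z) ≤ F (y, w) := fun y =>
    hK.exists_sInf_image_eq_and_le hK0 (hF.comp (by fun_prop)).continuousOn
  obtain ⟨y₁, -, hy₁⟩ := hK.exists_isMaxOn hK0 hcont.continuousOn
  refine ⟨sInf ((fun z => F (y₁, z)) '' K), ⟨y₁, fun z => ?_⟩, fun y => ?_⟩
  · obtain ⟨_, -, z', hz', -, ez⟩ := per2_reduce hp y₁ z
    obtain ⟨z₁, -, e₁, hle⟩ := hline y₁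
    rw [e₁, ez y₁]
    exact hle z' hz'
  · obtain ⟨y', hy', _, -, ey, -⟩ := per2_reduce hp y 0
    obtain ⟨z, -, e, -⟩ := hline y'
    refine ⟨z, ?_⟩
    rw [ey z, ← e]
    exact hy₁ hy'

/-- A periodic `C¹` function runs twice through its oscillation in a period. -/
lemma line_osc {g : ℝ → ℝ} (hg : ContDiff ℝ 1 g) (hp : Function.Periodic g 1) (z₁ z₂ : ℝ) :
    2 * (g z₂ - g z₁) ≤ ∫ z in (0 : ℝ)..1, |deriv g z| := by
  have hd : Continuous (deriv g) := hg.continuous_deriv le_rfl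
  have hdp : Function.Periodic (fun z => |deriv g z|) 1 := fun z => by
    show |deriv g (z + 1)| = _
    rw [← deriv_comp_add_const g 1 z, show (fun x => g (x + 1)) = g from funext hp]
  obtain ⟨w, hw, ew⟩ := hp.exists_mem_Ico one_pos z₂ z₁
  have key : ∀ u v : ℝ, u ≤ v → |g v - g u| ≤ ∫ z in u..v, |deriv g z| := fun u v huv => by
    rw [← intervalIntegral.integral_deriv_eq_sub
      (fun x _ => hg.differentiable one_ne_zero x) (hd.intervalIntegrable u v)]
    exact intervalIntegral.abs_integral_le_integral_abs huv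
  have k1 := key z₁ w hw.1
  have k2 := key w (z₁ + 1) hw.2.le
  rw [← ew] at k1 k2
  rw [hp] at k2
  have e := hdp.intervalIntegral_add_eq z₁ 0
  rw [zero_add, ← intervalIntegral.integral_add_adjacent_intervals
    (hd.abs.intervalIntegrable z₁ w) (hd.abs.intervalIntegrable w _)] at e
  linarith [le_abs_self (g z₂ - g z₁), neg_le_abs (g z₁ - g z₂)]

/-- A range of levels met by every line is paid twice. -/
lemma band_le {F : ℝ × ℝ → ℝ} (hF : ContDiff ℝ 1 F) (hp : Per2 F) {φ φ' : ℝ → ℝ}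
    (hd : ∀ x, HasDerivAt φ (φ' x) x) (hc : Continuous φ') (h0 : ∀ x, 0 ≤ φ' x) {lo hi : ℝ}
    (hlo : ∀ y, ∃ z, F (y, z) ≤ lo) (hhi : ∀ y, ∃ z, hi ≤ F (y, z)) :
    2 * (φ hi - φ lo) ≤ area2 fun p => φ' (F p) * |fderiv ℝ F p (0, 1)| := by
  have hmono : Monotone φ := monotone_of_deriv_nonneg (fun x => (hd x).differentiableAt) fun x => by
    rw [(hd x).deriv]; exact h0 x
  have hφ : ContDiff ℝ 1 φ := contDiff_one_iff_deriv.2 ⟨fun x => (hd x).differentiableAt, by
    rw [show deriv φ = φ' from funext fun x => (hd x).deriv]; exact hc⟩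
  have hcont : Continuous fun p => φ' (F p) * |fderiv ℝ F p (0, 1)| :=
    (hc.comp hF.continuous).mul ((hF.continuous_fderiv one_ne_zero).clm_apply continuous_const).abs
  rw [show 2 * (φ hi - φ lo) = area2 fun _ => 2 * (φ hi - φ lo) from (area2_const _).symm]
  refine intervalIntegral.integral_mono_on zero_le_one
    ((cont_inner continuous_const).intervalIntegrable _ _)
    ((cont_inner hcont).intervalIntegrable _ _) fun y _ => ?_
  obtain ⟨z₁, hz₁⟩ := hlo y
  obtain ⟨z₂, hz₂⟩ := hhi y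
  have hz : ∀ z, HasDerivAt (fun z => φ (F (y, z)))
      (φ' (F (y, z)) * fderiv ℝ F (y, z) (0, 1)) z := fun z =>
    (hd _).comp z ((hF.differentiable one_ne_zero (y, z)).hasFDerivAt.comp_hasDerivAt z
      ((hasDerivAt_const z y).prodMk (hasDerivAt_id z)))
  have h := line_osc (g := fun z => φ (F (y, z)))
    (hφ.comp (hF.comp (contDiff_const.prodMk contDiff_id))) (fun z => by simp [(hp y z).2]) z₁ z₂
  simp only [fun z => (hz z).deriv, abs_mul, abs_of_nonneg (h0 _)] at h
  simp only [intervalIntegral.integral_const, sub_zero, one_smul]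
  linarith [hmono hz₁, hmono hz₂]

/-- The other direction. -/
lemma band_le' {F : ℝ × ℝ → ℝ} (hF : ContDiff ℝ 1 F) (hp : Per2 F) {φ φ' : ℝ → ℝ}
    (hd : ∀ x, HasDerivAt φ (φ' x) x) (hc : Continuous φ') (h0 : ∀ x, 0 ≤ φ' x) {lo hi : ℝ}
    (hlo : ∀ z, ∃ y, F (y, z) ≤ lo) (hhi : ∀ z, ∃ y, hi ≤ F (y, z)) :
    2 * (φ hi - φ lo) ≤ area2 fun p => φ' (F p) * |fderiv ℝ F p (1, 0)| := by
  set S : ℝ × ℝ → ℝ × ℝ := Prod.swap
  have hS : ContDiff ℝ 1 (F ∘ S) := hF.comp (contDiff_snd.prodMk contDiff_fst)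
  have h := band_le hS (fun a b => ⟨(hp b a).2, (hp b a).1⟩) hd hc h0 (lo := lo) (hi := hi)
    hlo hhi
  have e : ∀ p, fderiv ℝ (F ∘ S) p (0, 1) = fderiv ℝ F (S p) (1, 0) := fun p => by
    rw [((hF.differentiable one_ne_zero (S p)).hasFDerivAt.comp p
      (hasFDerivAt_snd.prodMk hasFDerivAt_fst)).fderiv]
    simp
  refine h.trans_eq ?_
  simp only [e, Function.comp_apply, area2, S, Prod.swap_prod_mk]
  exact (sq_swap (F := fun p => φ' (F p) * |fderiv ℝ F p (1, 0)|)
    ((hc.comp hF.continuous).mul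
      ((hF.continuous_fderiv one_ne_zero).clm_apply continuous_const).abs)).symm

/-- One outer range of levels: the planar inequality, up to the error of the two-valued test. -/
lemma outer_le {η c : ℝ} (hη : 0 < η) (hη1 : η ≤ 1) (hc0 : 0 ≤ c) (hc1 : c ≤ 1)
    {f F : ℝ × ℝ → ℝ} (hf : Continuous f) (hm : ∀ p, f p ∈ Icc (0 : ℝ) 1) (hF : ContDiff ℝ 1 F)
    (hp : Per2 F) (hF0 : ∀ p, 0 ≤ F p) (hF1 : ∀ p, F p ≤ 1)
    (hlow : ∀ p, c * f p ≤ F p + η + f p * (1 - f p))
    {y₀ z₀ : ℝ} (hy : ∀ z, F (y₀, z) = 0) (hz : ∀ y, F (y, z₀) = 0) :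
    c * (2 * √Real.pi * √(area2 f))
      ≤ tv2 F + 2 * √Real.pi * √(4 * (η + area2 fun p => f p * (1 - f p))) := by
  have hplan : 2 * √Real.pi * √(area2 fun p => F p ^ 2) ≤ tv2 F := by
    have h := planar_cut hF hp hF0 y₀ z₀
    simp only [hy, hz, intervalIntegral.integral_zero, mul_zero, add_zero] at h
    exact h
  set e := area2 fun p => f p * (1 - f p)
  set N := area2 fun p => F p ^ 2
  have hr : Continuous fun p => f p * (1 - f p) := hf.mul (continuous_const.sub hf)
  have hq : Continuous fun p => F p ^ 2 := hF.continuous.pow 2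
  have hrc : Continuous fun p => 4 * (η + f p * (1 - f p)) :=
    continuous_const.mul (continuous_const.add hr)
  have hsq : ∀ p, c ^ 2 * f p ≤ F p ^ 2 + 4 * (η + f p * (1 - f p)) := fun p => by
    obtain ⟨g0, g1⟩ := hm p
    set r := f p * (1 - f p) with hrdef
    have r0 : 0 ≤ r := mul_nonneg g0 (by linarith)
    have r1 : r ≤ 1 := by nlinarith
    have h := pow_le_pow_left₀ (mul_nonneg hc0 g0) (hlow p) 2
    have e1 : c ^ 2 * r ≤ 1 * r := mul_le_mul_of_nonneg_right (pow_le_one₀ hc0 hc1) r0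
    nlinarith [mul_le_mul_of_nonneg_right (hF1 p) (add_nonneg hη.le r0)]
  have hA : c ^ 2 * area2 f ≤ N + 4 * (η + e) := by
    have h := area2_mono (F := fun p => c ^ 2 * f p)
      (G := fun p => F p ^ 2 + 4 * (η + f p * (1 - f p))) (continuous_const.mul hf) (hq.add hrc) hsq
    rw [area2_const_mul, area2_add (F := fun p => F p ^ 2)
      (G := fun p => 4 * (η + f p * (1 - f p))) hq hrc, area2_const_mul,
      area2_add (F := fun _ => η) (G := fun p => f p * (1 - f p)) continuous_const hr,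
      area2_const] at h
    exact h
  have he : 0 ≤ e := area2_nonneg fun p => mul_nonneg (hm p).1 (by linarith [(hm p).2])
  have hs : c * √(area2 f) ≤ √N + √(4 * (η + e)) := by
    rw [← Real.sqrt_sq hc0, ← Real.sqrt_mul (sq_nonneg c)]
    exact (Real.sqrt_le_sqrt hA).trans
      (sqrt_add_le' (area2_nonneg fun p => sq_nonneg _) (by positivity))
  have := mul_le_mul_of_nonneg_left hs (show 0 ≤ 2 * √Real.pi by positivity)
  linarith

lemma piece_high {b x η : ℝ} (hη : 0 < η) (h0 : 0 ≤ x) (h1 : x ≤ 1) :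
    (1 - b) * x ≤ sp η (x - b) + η + x * (1 - x) := by
  have := sp_ge hη (x - b)
  rcases le_total b x with h | h
  · nlinarith
  · nlinarith [sp_nonneg hη (x - b)]

lemma ramp_sum {η a m b x G D₁ D₂ : ℝ} (hη : 0 < η) (ham : a ≤ m) (hmb : m ≤ b) (h₁ : D₁ ≤ G)
    (h₂ : D₂ ≤ G) (hG : 0 ≤ G) :
    ramp η (a - x) * G + (ramp η (x - a) - ramp η (x - m)) * D₁
      + (ramp η (x - m) - ramp η (x - b)) * D₂ + ramp η (x - b) * G ≤ G := by
  have i1 : ramp η (x - m) ≤ ramp η (x - a) := ramp_mono hη (by linarith)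
  have i2 : ramp η (x - b) ≤ ramp η (x - m) := ramp_mono hη (by linarith)
  have hs : ramp η (a - x) + ramp η (x - a) ≤ 1 := by
    rcases le_total x a with h | h
    · rw [ramp_eq_zero hη (show x - a ≤ 0 by linarith), add_zero]; exact ramp_le_one _ _
    · rw [ramp_eq_zero hη (show a - x ≤ 0 by linarith), zero_add]; exact ramp_le_one _ _
  nlinarith [mul_le_mul_of_nonneg_left h₁ (sub_nonneg.2 i1),
    mul_le_mul_of_nonneg_left h₂ (sub_nonneg.2 i2), mul_le_mul_of_nonneg_right hs hG]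

/-- The torus inequality when the max-min in the first direction is the smaller one. -/
lemma torus2_ordered {η : ℝ} (hη : 0 < η) (hη1 : η ≤ 1) {f : ℝ × ℝ → ℝ} (hf : Dens2 f)
    {a₁ b₁ a₂ b₂ : ℝ} (A₁ : ∃ y, ∀ z, a₁ ≤ f (y, z)) (A₁' : ∀ y, ∃ z, f (y, z) ≤ a₁)
    (B₁ : ∃ y, ∀ z, f (y, z) ≤ b₁) (B₁' : ∀ y, ∃ z, b₁ ≤ f (y, z))
    (A₂ : ∃ z, ∀ y, a₂ ≤ f (y, z)) (A₂' : ∀ z, ∃ y, f (y, z) ≤ a₂)
    (B₂ : ∃ z, ∀ y, f (y, z) ≤ b₂) (B₂' : ∀ z, ∃ y, b₂ ≤ f (y, z)) (ha : a₁ ≤ a₂) :
    2 * gfun (area2 f) ≤ tv2 f + 4 * η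
      + 2 * (2 * √Real.pi * √(4 * (η + area2 fun p => f p * (1 - f p)))) := by
  obtain ⟨ya, hya⟩ := A₁
  obtain ⟨yb, hyb⟩ := B₁
  obtain ⟨za, hza⟩ := A₂
  obtain ⟨zb, hzb⟩ := B₂
  have hab : a₂ ≤ b₁ := (hza yb).trans (hyb za)
  set b := max b₁ b₂
  have ha0 : 0 ≤ a₁ := by
    obtain ⟨z, hz⟩ := B₁' 0
    obtain ⟨w, hw⟩ := A₁' ya
    linarith [hya w, (hf.mem (ya, w)).1, le_antisymm hw (hya w)]
  have hb1 : b ≤ 1 := by
    obtain ⟨z, hz⟩ := B₁' yb
    obtain ⟨y, hy⟩ := B₂' zb
    exact max_le (hz.trans (hf.mem _).2) (hy.trans (hf.mem _).2)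
  have ha1 : a₁ ≤ 1 := by linarith [le_max_left b₁ b₂]
  have hb0 : 0 ≤ b := by linarith [le_max_left b₁ b₂]
  have hc := hf.smooth.continuous
  set e := area2 fun p => f p * (1 - f p)
  set err := 2 * √Real.pi * √(4 * (η + e))
  have hup := outer_le (c := 1 - b) (F := fun p => sp η (f p - b)) hη hη1 (by linarith)
    (by linarith) hc hf.mem ((contDiff_sp η).comp (hf.smooth.sub contDiff_const))
    (fun y z => by simp [(hf.per y z).1, (hf.per y z).2]) (fun p => sp_nonneg hη _)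
    (fun p => (sp_mono η (by linarith [(hf.mem p).2] : f p - b ≤ 1)).trans (sp_le zero_le_one))
    (fun p => piece_high hη (hf.mem p).1 (hf.mem p).2)
    (y₀ := yb) (z₀ := zb) (fun z => sp_eq_zero hη (by linarith [hyb z, le_max_left b₁ b₂]))
    (fun y => sp_eq_zero hη (by linarith [hzb y, le_max_right b₁ b₂]))
  have hdn := outer_le (c := a₁) (f := fun p => 1 - f p) (F := fun p => sp η (a₁ - f p)) hη hη1
    ha0 ha1 (continuous_const.sub hc)
    (fun p => ⟨by linarith [(hf.mem p).2], by linarith [(hf.mem p).1]⟩)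
    ((contDiff_sp η).comp (contDiff_const.sub hf.smooth))
    (fun y z => by simp [(hf.per y z).1, (hf.per y z).2]) (fun p => sp_nonneg hη _)
    (fun p => (sp_mono η (by linarith [(hf.mem p).1] : a₁ - f p ≤ 1)).trans (sp_le zero_le_one))
    (fun p => by
      have h := piece_high (b := 1 - a₁) (x := 1 - f p) hη
        (by linarith [(hf.mem p).2]) (by linarith [(hf.mem p).1])
      rwa [sub_sub_cancel, show 1 - f p - (1 - a₁) = a₁ - f p by ring] at h)
    (y₀ := ya) (z₀ := za) (fun z => sp_eq_zero hη (by linarith [hya z]))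
    (fun y => sp_eq_zero hη (by linarith [hza y]))
  simp only [sub_sub_cancel, mul_comm (1 - f _) (f _), area2_one_sub hc] at hdn
  have hmid₁ : 2 * (b₁ - a₁ - η) ≤ area2 fun p =>
      (ramp η (f p - a₁) - ramp η (f p - b₁)) * |fderiv ℝ f p (0, 1)| := by
    refine le_trans ?_ (band_le hf.smooth hf.per
      (φ := fun t => sp η (t - a₁) - sp η (t - b₁))
      (fun x => (deriv_sp_sub η a₁ x).sub (deriv_sp_sub η b₁ x))
      (((continuous_ramp η).comp (continuous_id.sub continuous_const)).sub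
        ((continuous_ramp η).comp (continuous_id.sub continuous_const)))
      (fun x => sub_nonneg.2 (ramp_mono hη (by linarith))) A₁' B₁')
    simp only [sub_self, sp_eq_zero hη le_rfl, sp_eq_zero hη (show a₁ - b₁ ≤ 0 by linarith)]
    linarith [sp_ge hη (b₁ - a₁)]
  have hmid₂ : 2 * (b - b₁ - η) ≤ area2 fun p =>
      (ramp η (f p - b₁) - ramp η (f p - b)) * |fderiv ℝ f p (1, 0)| := by
    rcases le_total b₂ b₁ with h | h
    · have eb : b = b₁ := max_eq_left h
      refine le_trans (by linarith) (area2_nonneg fun p => ?_)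
      simp [eb]
    have eb : b = b₂ := max_eq_right h
    rw [eb]
    refine le_trans ?_ (band_le' hf.smooth hf.per
      (φ := fun t => sp η (t - b₁) - sp η (t - b₂))
      (fun x => (deriv_sp_sub η b₁ x).sub (deriv_sp_sub η b₂ x))
      (((continuous_ramp η).comp (continuous_id.sub continuous_const)).sub
        ((continuous_ramp η).comp (continuous_id.sub continuous_const)))
      (fun x => sub_nonneg.2 (ramp_mono hη (by linarith))) A₂' B₂')
    simp only [sub_self, sp_eq_zero hη le_rfl, sp_eq_zero hη (show a₂ - b₁ ≤ 0 by linarith),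
      sp_eq_zero hη (show a₂ - b₂ ≤ 0 by linarith)]
    linarith [sp_ge hη (b₂ - b₁)]
  have hg := continuous_grad2 hf.smooth
  have hD : ∀ v, Continuous fun p => |fderiv ℝ f p v| := fun v =>
    ((hf.smooth.continuous_fderiv one_ne_zero).clm_apply continuous_const).abs
  have hR : ∀ c : ℝ, Continuous fun p => ramp η (f p - c) := fun c =>
    (continuous_ramp η).comp (hc.sub continuous_const)
  have hR' : Continuous fun p => ramp η (a₁ - f p) :=
    (continuous_ramp η).comp (continuous_const.sub hc)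
  have eU : tv2 (fun p => sp η (f p - b)) = area2 fun p => ramp η (f p - b) * grad2 f p := by
    show area2 (grad2 fun p => sp η (f p - b)) = _
    congr 1; funext p
    rw [grad2_comp (φ := fun t => sp η (t - b)) hf.smooth (deriv_sp_sub η b _),
      abs_of_nonneg (ramp_nonneg _ _)]
  have eD : tv2 (fun p => sp η (a₁ - f p)) = area2 fun p => ramp η (a₁ - f p) * grad2 f p := by
    show area2 (grad2 fun p => sp η (a₁ - f p)) = _
    congr 1; funext p
    rw [grad2_comp (φ := fun t => sp η (a₁ - t)) hf.smooth (deriv_sp_rev η a₁ _), abs_neg,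
      abs_of_nonneg (ramp_nonneg _ _)]
  have c₁ := ((hR a₁).fun_sub (hR b₁)).fun_mul (hD (0, 1))
  have c₂ := ((hR b₁).fun_sub (hR b)).fun_mul (hD (1, 0))
  have c₀ := hR'.fun_mul hg
  have hsum := area2_mono (((c₀.fun_add c₁).fun_add c₂).fun_add ((hR b).fun_mul hg)) hg fun p => by
    refine ramp_sum hη (by linarith : a₁ ≤ b₁) (le_max_left b₁ b₂) ?_ ?_ (Real.sqrt_nonneg _)
    · exact Real.abs_le_sqrt (by nlinarith)
    · exact Real.abs_le_sqrt (by nlinarith)
  rw [area2_add ((c₀.fun_add c₁).fun_add c₂) ((hR b).fun_mul hg), area2_add (c₀.fun_add c₁) c₂,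
    area2_add c₀ c₁, show area2 (grad2 f) = tv2 f from rfl, ← eU, ← eD] at hsum
  set A := area2 f
  have g₁ : gfun A ≤ √Real.pi * √A := by
    rw [← Real.sqrt_mul Real.pi_pos.le]; exact (min_le_left _ _).trans (min_le_left _ _)
  have g₂ : gfun A ≤ √Real.pi * √(1 - A) := by
    rw [← Real.sqrt_mul Real.pi_pos.le]; exact min_le_right _ _
  have g₃ : gfun A ≤ 1 := (min_le_left _ _).trans (min_le_right _ _)
  nlinarith [mul_le_mul_of_nonneg_left g₁ (show 0 ≤ 1 - b by linarith),
    mul_le_mul_of_nonneg_left g₂ ha0,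
    mul_le_mul_of_nonneg_left g₃ (show 0 ≤ b - a₁ by linarith [le_max_left b₁ b₂])]

lemma tv2_swap {f : ℝ × ℝ → ℝ} (hf : ContDiff ℝ 1 f) : tv2 (f ∘ Prod.swap) = tv2 f := by
  have e : ∀ p : ℝ × ℝ, grad2 (f ∘ Prod.swap) p = grad2 f p.swap := fun p => by
    have h : HasFDerivAt (f ∘ Prod.swap) _ p :=
      (hf.differentiable one_ne_zero p.swap).hasFDerivAt.comp p
        (hasFDerivAt_snd.prodMk hasFDerivAt_fst)
    simp only [grad2, h.fderiv]
    simp [add_comm]
  show area2 (grad2 (f ∘ Prod.swap)) = area2 (grad2 f)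
  simp only [area2, e, Prod.swap_prod_mk]
  exact (sq_swap (continuous_grad2 hf)).symm

/-- The torus profile bounds the total variation of nearly two-valued densities. -/
theorem torus2_lower {δ : ℝ} (hδ : 0 < δ) : ∃ K : ℝ, 0 ≤ K ∧ ∀ f, Dens2 f →
    2 * gfun (area2 f) ≤ tv2 f + δ + K * area2 (fun p => f p * (1 - f p)) := by
  set d := δ / 8 with hd
  set η := min 1 (min d (d * d / (4 * Real.pi))) with hηd
  have hd0 : 0 < d := by positivity
  have hη : 0 < η := by positivity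
  refine ⟨8 * Real.pi / d, by positivity, fun f hf => ?_⟩
  have hc := hf.smooth.continuous
  have hswap : Per2 (f ∘ Prod.swap) := fun y z => ⟨(hf.per z y).2, (hf.per z y).1⟩
  have hneg : Per2 fun p => -f p := fun y z => by simp [(hf.per y z).1, (hf.per y z).2]
  have hnegs : Per2 fun p => -f (Prod.swap p) := fun y z => by
    simp [(hf.per z y).1, (hf.per z y).2]
  obtain ⟨a₁, A₁, A₁'⟩ := exists_maxmin hc hf.per
  obtain ⟨a₂, A₂, A₂'⟩ := exists_maxmin (hc.comp continuous_swap) hswap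
  obtain ⟨c₁, ⟨y, hy⟩, C₁'⟩ := exists_maxmin hc.neg hneg
  obtain ⟨c₂, ⟨z, hz⟩, C₂'⟩ := exists_maxmin (hc.comp continuous_swap).neg hnegs
  have hb₁ : ∃ y, ∀ z, f (y, z) ≤ -c₁ := ⟨y, fun w => le_neg.1 (hy w)⟩
  have hb₁' : ∀ y, ∃ z, -c₁ ≤ f (y, z) := fun y => (C₁' y).imp fun w h => neg_le.1 h
  have hb₂ : ∃ z, ∀ y, f (y, z) ≤ -c₂ := ⟨z, fun w => le_neg.1 (hz w)⟩
  have hb₂' : ∀ z, ∃ y, -c₂ ≤ f (y, z) := fun y => (C₂' y).imp fun w h => neg_le.1 h
  set e := area2 fun p => f p * (1 - f p) with he_def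
  have he : 0 ≤ e := area2_nonneg fun p => mul_nonneg (hf.mem p).1 (by linarith [(hf.mem p).2])
  have main : 2 * gfun (area2 f) ≤ tv2 f + 4 * η
      + 2 * (2 * √Real.pi * √(4 * (η + e))) := by
    rcases le_total a₁ a₂ with h | h
    · exact torus2_ordered hη (min_le_left _ _) hf A₁ A₁' hb₁ hb₁' A₂ A₂' hb₂ hb₂' h
    · have hg : Dens2 (f ∘ Prod.swap) :=
        ⟨hf.smooth.comp (contDiff_snd.prodMk contDiff_fst), hswap, fun p => hf.mem _⟩
      have := torus2_ordered hη (min_le_left _ _) hg A₂ A₂' hb₂ hb₂' A₁ A₁' hb₁ hb₁' h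
      rw [tv2_swap hf.smooth] at this
      have eA : ∀ F : ℝ × ℝ → ℝ, Continuous F → area2 (F ∘ Prod.swap) = area2 F := fun F hF =>
        (sq_swap hF).symm
      rwa [eA f hc, show (area2 fun p => (f ∘ Prod.swap) p * (1 - (f ∘ Prod.swap) p)) = e from
        eA (fun p => f p * (1 - f p)) (hc.mul (continuous_const.sub hc))] at this
  have h1 := amgm_err (t := 4 * (η + e)) (by positivity) hd0
  have h2 : η ≤ d := (min_le_right _ _).trans (min_le_left _ _)
  have h3 : Real.pi * (4 * η) / d ≤ d := by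
    rw [div_le_iff₀ hd0]
    have : η ≤ d * d / (4 * Real.pi) := (min_le_right _ _).trans (min_le_right _ _)
    rw [le_div_iff₀ (by positivity)] at this
    linarith
  have e1 : Real.pi * (4 * (η + e)) / d = Real.pi * (4 * η) / d + 8 * Real.pi / d * e / 2 := by
    ring
  linarith

end

end Vale.Agent.P232
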