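import Vale.Agent.P232.Smooth
import Vale.Agent.P232.Torus2

/-! # P232: the calibrated slice bounds in the three axis directions -/

namespace Vale.Agent.P232

noncomputable section

open MeasureTheory

namespace Axis


/-- A slice. -/
def sec (w : (ℝ × ℝ × ℝ) → ℝ) (t : ℝ) : ℝ × ℝ → ℝ := fun q => w (t, q)

/-- The area of a slice. -/
def secA (w : (ℝ × ℝ × ℝ) → ℝ) (t : ℝ) : ℝ := area2 (sec w t)

/-! ### Integrals of continuous functions -/

lemma integral_swap {G : ℝ × ℝ → ℝ} (hG : Continuous G) (a b : ℝ) {c d : ℝ} (hcd : c ≤ d) :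
    ∫ x in a..b, ∫ y in c..d, G (x, y) = ∫ y in c..d, ∫ x in a..b, G (x, y) := by
  simp only [intervalIntegral.integral_of_le hcd]
  refine intervalIntegral_integral_swap ?_
  rw [Measure.prod_restrict]
  exact (hG.continuousOn.integrableOn_compact (isCompact_uIcc.prod isCompact_Icc)).mono_set
    (Set.prod_mono Set.uIoc_subset_uIcc Set.Ioc_subset_Icc_self)

lemma continuous_inner {F : ℝ × ℝ → ℝ} (hF : Continuous F) :
    Continuous fun y => ∫ z in (0 : ℝ)..1, F (y, z) :=
  intervalIntegral.continuous_parametric_intervalIntegral_of_continuous' (f := fun y z => F (y, z))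
    hF 0 1

lemma continuous_sec {F : (ℝ × ℝ × ℝ) → ℝ} (hF : Continuous F) :
    Continuous fun t => area2 (fun q => F (t, q)) :=
  intervalIntegral.continuous_parametric_intervalIntegral_of_continuous'
    (f := fun t y => ∫ z in (0 : ℝ)..1, F (t, y, z))
    (intervalIntegral.continuous_parametric_intervalIntegral_of_continuous'
      (f := fun (p : ℝ × ℝ) z => F (p.1, p.2, z))
      (hF.comp ((continuous_fst.comp continuous_fst).prodMk
        ((continuous_snd.comp continuous_fst).prodMk continuous_snd))) 0 1) 0 1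

lemma area2_add {F G : ℝ × ℝ → ℝ} (hF : Continuous F) (hG : Continuous G) :
    area2 (fun q => F q + G q) = area2 F + area2 G := by
  simp only [area2]
  rw [← intervalIntegral.integral_add ((continuous_inner hF).intervalIntegrable _ _)
    ((continuous_inner hG).intervalIntegrable _ _)]
  refine intervalIntegral.integral_congr fun y _ => ?_
  exact intervalIntegral.integral_add ((hF.comp (by fun_prop)).intervalIntegrable _ _)
    ((hG.comp (by fun_prop)).intervalIntegrable _ _)

lemma area2_const_mul (c : ℝ) (F : ℝ × ℝ → ℝ) : area2 (fun q => c * F q) = c * area2 F := by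
  simp only [area2, intervalIntegral.integral_const_mul]

lemma area2_mono {F G : ℝ × ℝ → ℝ} (hF : Continuous F) (hG : Continuous G)
    (h : ∀ q, F q ≤ G q) : area2 F ≤ area2 G :=
  intervalIntegral.integral_mono_on zero_le_one ((continuous_inner hF).intervalIntegrable _ _)
    ((continuous_inner hG).intervalIntegrable _ _) fun _ _ =>
    intervalIntegral.integral_mono_on zero_le_one ((hF.comp (by fun_prop)).intervalIntegrable _ _)
      ((hG.comp (by fun_prop)).intervalIntegrable _ _) fun _ _ => h _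

lemma sqrt_le_area2 {g h : ℝ × ℝ → ℝ} (hg : Continuous g) (hh : Continuous h) :
    Real.sqrt (area2 g ^ 2 + area2 h ^ 2) ≤ area2 fun q => Real.sqrt (g q ^ 2 + h q ^ 2) := by
  set R := Real.sqrt (area2 g ^ 2 + area2 h ^ 2) with hR
  have hS : Continuous fun q => Real.sqrt (g q ^ 2 + h q ^ 2) :=
    ((hg.pow 2).add (hh.pow 2)).sqrt
  have h1 : area2 (fun q => area2 g * g q + area2 h * h q) ≤
      area2 fun q => R * Real.sqrt (g q ^ 2 + h q ^ 2) :=
    area2_mono ((continuous_const.mul hg : Continuous fun q => area2 g * g q).add (continuous_const.mul hh : Continuous fun q => area2 h * h q)) (continuous_const.mul hS)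
      fun q => by
      rw [hR, ← Real.sqrt_mul (by positivity)]
      refine Real.le_sqrt_of_sq_le ?_
      nlinarith [sq_nonneg (area2 g * h q - area2 h * g q)]
  rw [area2_add (F := fun q => area2 g * g q) (G := fun q => area2 h * h q) (continuous_const.mul hg : Continuous fun q => area2 g * g q) (continuous_const.mul hh : Continuous fun q => area2 h * h q), area2_const_mul,
    area2_const_mul, area2_const_mul] at h1
  have h2 : R ^ 2 = area2 g ^ 2 + area2 h ^ 2 := Real.sq_sqrt (by positivity)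
  have h0 : 0 ≤ area2 fun q => Real.sqrt (g q ^ 2 + h q ^ 2) :=
    intervalIntegral.integral_nonneg zero_le_one fun y _ =>
      intervalIntegral.integral_nonneg zero_le_one fun z _ => Real.sqrt_nonneg _
  rcases (Real.sqrt_nonneg (area2 g ^ 2 + area2 h ^ 2)).eq_or_lt with he | hp
  · rw [← hR] at he
    rw [← he]
    exact h0
  · rw [← hR] at hp
    nlinarith

lemma int3_eq (F : (ℝ × ℝ × ℝ) → ℝ) : int3 F = ∫ t in (0 : ℝ)..1, area2 (fun q => F (t, q)) := rfl

lemma int3_add_const {F : (ℝ × ℝ × ℝ) → ℝ} (hF : Continuous F) (c K : ℝ) :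
    ∫ t in (0 : ℝ)..1, (c + K * area2 (fun q => F (t, q))) = c + K * int3 F := by
  rw [intervalIntegral.integral_add (f := fun _ => c) (g := fun t => K * area2 fun q => F (t, q))
    intervalIntegrable_const
    ((continuous_const.mul (continuous_sec hF) :
      Continuous fun t => K * area2 fun q => F (t, q)).intervalIntegrable _ _),
    intervalIntegral.integral_const_mul,
    int3_eq]
  simp

/-! ### Slices -/

variable {w : (ℝ × ℝ × ℝ) → ℝ}

lemma dens2_sec (hw : Dens w) (t : ℝ) : Dens2 (sec w t) where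
  smooth := (hw.smooth.of_le one_le_two).comp (contDiff_const.prodMk contDiff_id)
  per y z := by
    have h := hw.per (t, y, z)
    simp only [e₂, e₃, Prod.mk_add_mk, add_zero] at h
    exact h.2
  mem p := hw.mem _

lemma secA_periodic (hw : Dens w) : Function.Periodic (secA w) 1 := fun t => by
  have h : ∀ y z, w (t + 1, y, z) = w (t, y, z) := fun y z => by
    have h := hw.per (t, y, z)
    simp only [e₁, Prod.mk_add_mk, add_zero] at h
    exact h.1
  exact intervalIntegral.integral_congr fun y _ => intervalIntegral.integral_congr fun z _ => h y z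

lemma secA_mem (hw : Dens w) (t : ℝ) : secA w t ∈ Set.Icc (0 : ℝ) 1 := by
  have hc : Continuous (sec w t) := (dens2_sec hw t).smooth.continuous
  constructor
  · exact intervalIntegral.integral_nonneg zero_le_one fun y _ =>
      intervalIntegral.integral_nonneg zero_le_one fun z _ => (hw.mem _).1
  · refine (area2_mono hc continuous_const fun q => (hw.mem _).2).trans (le_of_eq ?_)
    simp [area2]

lemma continuous_secA (hw : Dens w) : Continuous (secA w) := continuous_sec hw.smooth.continuous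

lemma exists_min (hw : Dens w) : ∃ t₀, ∀ t, secA w t₀ ≤ secA w t := by
  obtain ⟨t₀, -, h⟩ := isCompact_Icc.exists_isMinOn (Set.nonempty_Icc.2 (zero_le_one' ℝ))
    (continuous_secA hw).continuousOn
  refine ⟨t₀, fun t => ?_⟩
  have e := (secA_periodic hw).sub_int_mul_eq (x := t) ⌊t⌋
  rw [mul_one, Int.self_sub_floor] at e
  rw [← e]
  exact h ⟨Int.fract_nonneg t, (Int.fract_lt_one t).le⟩

lemma exists_max (hw : Dens w) : ∃ t₀, ∀ t, secA w t ≤ secA w t₀ := by
  obtain ⟨t₀, -, h⟩ := isCompact_Icc.exists_isMaxOn (Set.nonempty_Icc.2 (zero_le_one' ℝ))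
    (continuous_secA hw).continuousOn
  refine ⟨t₀, fun t => ?_⟩
  have e := (secA_periodic hw).sub_int_mul_eq (x := t) ⌊t⌋
  rw [mul_one, Int.self_sub_floor] at e
  rw [← e]
  exact h ⟨Int.fract_nonneg t, (Int.fract_lt_one t).le⟩

/-- The derivative of the slice area. -/
def secD (w : (ℝ × ℝ × ℝ) → ℝ) (t : ℝ) : ℝ := area2 fun q => fderiv ℝ w (t, q) e₁

lemma continuous_dir (hw : Dens w) (v : (ℝ × ℝ × ℝ)) : Continuous fun p => fderiv ℝ w p v :=
  (hw.smooth.continuous_fderiv two_ne_zero).clm_apply continuous_const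

lemma continuous_secD (hw : Dens w) : Continuous (secD w) := continuous_sec (continuous_dir hw e₁)

lemma hasDerivAt_secA (hw : Dens w) (t : ℝ) : HasDerivAt (secA w) (secD w t) t := by
  have hd := continuous_dir hw e₁
  have hline : ∀ y z s : ℝ, HasDerivAt (fun s => w (s, y, z)) (fderiv ℝ w (s, y, z) e₁) s :=
    fun y z s => (hw.smooth.differentiable two_ne_zero (s, y, z)).hasFDerivAt.comp_hasDerivAt s
      ((hasDerivAt_id s).prodMk (hasDerivAt_const s (y, z)))
  have hint : ∀ s : ℝ, secA w s = secA w 0 + ∫ u in (0 : ℝ)..s, secD w u := fun s => by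
    have e : ∫ u in (0 : ℝ)..s, secD w u =
        area2 fun q => w (s, q) - w (0, q) := by
      simp only [secD, area2]
      rw [integral_swap (G := fun p : ℝ × ℝ => ∫ z in (0 : ℝ)..1, fderiv ℝ w (p.1, p.2, z) e₁)
        (intervalIntegral.continuous_parametric_intervalIntegral_of_continuous'
          (f := fun (p : ℝ × ℝ) z => fderiv ℝ w (p.1, p.2, z) e₁)
          (hd.comp ((continuous_fst.comp continuous_fst).prodMk
            ((continuous_snd.comp continuous_fst).prodMk continuous_snd))) 0 1) 0 s zero_le_one]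
      refine intervalIntegral.integral_congr fun y _ => ?_
      dsimp only
      rw [integral_swap (G := fun p : ℝ × ℝ => fderiv ℝ w (p.1, y, p.2) e₁)
        (hd.comp (continuous_fst.prodMk (continuous_const.prodMk continuous_snd))) 0 s zero_le_one]
      refine intervalIntegral.integral_congr fun z _ => ?_
      exact intervalIntegral.integral_eq_sub_of_hasDerivAt (fun u _ => hline y z u)
        ((hd.comp (continuous_id.prodMk (continuous_const (y := (y, z))))).intervalIntegrable _ _)
    rw [e, secA, secA, ← area2_add (G := fun q : ℝ × ℝ => w (s, q) - w (0, q))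
      (dens2_sec hw 0).smooth.continuous
      ((hw.smooth.continuous.comp (continuous_const.prodMk continuous_id)).sub
        (hw.smooth.continuous.comp (continuous_const.prodMk continuous_id)))]
    congr 1
    funext q
    simp [sec]
  refine HasDerivAt.congr_of_eventuallyEq ?_ (Filter.Eventually.of_forall hint)
  exact ((continuous_secD hw).integral_hasStrictDerivAt 0 t).hasDerivAt.const_add _

/-- The tensor bound: slice variation and change of the area. -/
lemma sqrt_le_gnorm (hw : Dens w) (t : ℝ) :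
    Real.sqrt (tv2 (sec w t) ^ 2 + secD w t ^ 2) ≤ area2 fun q => gnorm w (t, q) := by
  have hg := continuous_grad2 (dens2_sec hw t).smooth
  have hh : Continuous fun q : ℝ × ℝ => fderiv ℝ w (t, q) e₁ :=
    (continuous_dir hw e₁).comp (continuous_const.prodMk continuous_id)
  refine (sqrt_le_area2 hg hh).trans (le_of_eq ?_)
  congr 1
  funext q
  have hf : HasFDerivAt (sec w t) ((fderiv ℝ w (t, q)).comp (ContinuousLinearMap.inr ℝ ℝ (ℝ × ℝ)))
      q := (hw.smooth.differentiable two_ne_zero (t, q)).hasFDerivAt.comp q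
    ((hasFDerivAt_const t q).prodMk (hasFDerivAt_id q))
  rw [grad2, hf.fderiv, Real.sq_sqrt (by positivity), gnorm]
  simp only [ContinuousLinearMap.coe_comp, Function.comp_apply, ContinuousLinearMap.inr_apply,
    e₁, e₂, e₃]
  ring_nf

/-! ### One axis -/

/-- The calibrated bound along the first axis. -/
lemma low_of_slices (hw : Dens w) {h X : ℝ → ℝ} (hh : ∀ x, 0 ≤ h x) (hX : Continuous X)
    (hX0 : ∀ t, 0 ≤ X t) (hb : ∀ t, 2 * h (secA w t) ≤ tv2 (sec w t) + 2 * X t) {t₀ t₁ P : ℝ}
    (h0 : ∀ t, secA w t₀ ≤ secA w t) (h1 : ∀ t, secA w t ≤ secA w t₁)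
    (hP : int3 (gnorm w) / 2 + ∫ t in (0 : ℝ)..1, X t ≤ P) :
    Low h (int3 w) (secA w t₀) (secA w t₁) P := by
  intro H C β hβc hβ
  refine le_trans ?_ hP
  set A := secA w
  set D := secD w
  set b := Set.IccExtend (h0 t₁) ((Set.Icc (A t₀) (A t₁)).domRestrict β)
  have hbc : Continuous b := (continuousOn_iff_continuous_domRestrict.1 hβc).Icc_extend'
  have hbA : ∀ t, b (A t) = β (A t) := fun t => Set.IccExtend_of_mem _ _ ⟨h0 t, h1 t⟩
  have hA := continuous_secA hw
  have hD := continuous_secD hw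
  have hgn : Continuous (gnorm w) :=
    ((((continuous_dir hw e₁).pow 2).add ((continuous_dir hw e₂).pow 2)).add
      ((continuous_dir hw e₃).pow 2)).sqrt
  have hpt : ∀ t, H * A t + C + b (A t) * |D t| / 2 ≤
      area2 (fun q => gnorm w (t, q)) / 2 + X t := by
    intro t
    obtain ⟨b0, b1, b2⟩ := hβ (A t) ⟨h0 t, h1 t⟩
    have hc := calib_pt (d := |D t| / 2) (hh _) (show β (A t) ^ 2 ≤ 1 by nlinarith) b1
    set T := tv2 (sec w t)
    have hT : 0 ≤ T := intervalIntegral.integral_nonneg zero_le_one fun y _ =>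
      intervalIntegral.integral_nonneg zero_le_one fun z _ => Real.sqrt_nonneg _
    have hs : 2 * Real.sqrt (h (A t) ^ 2 + (|D t| / 2) ^ 2) ≤
        Real.sqrt (T ^ 2 + D t ^ 2) + 2 * X t := by
      have hq : Real.sqrt (T ^ 2 + D t ^ 2) ^ 2 = T ^ 2 + D t ^ 2 := Real.sq_sqrt (by positivity)
      have hTle : T ≤ Real.sqrt (T ^ 2 + D t ^ 2) := Real.le_sqrt_of_sq_le (by nlinarith)
      have hr : Real.sqrt (h (A t) ^ 2 + (|D t| / 2) ^ 2) ≤
          (Real.sqrt (T ^ 2 + D t ^ 2) + 2 * X t) / 2 := by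
        rw [Real.sqrt_le_left (by linarith [hX0 t, Real.sqrt_nonneg (T ^ 2 + D t ^ 2)]), div_pow,
          sq_abs]
        nlinarith [mul_self_le_mul_self (mul_nonneg zero_le_two (hh (A t))) (hb t),
          mul_le_mul_of_nonneg_right hTle (hX0 t)]
      linarith
    have hg := sqrt_le_gnorm hw t
    rw [hbA]
    linarith
  have hab : Continuous fun t => b (A t) * |D t| := (hbc.comp hA).mul hD.abs
  have hAC : Continuous fun t => H * A t + C := (continuous_const.mul hA).add continuous_const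
  have hI := intervalIntegral.integral_mono_on (μ := volume) zero_le_one
    ((hAC.add (hab.div_const 2)).intervalIntegrable 0 1)
    ((((continuous_sec hgn).div_const 2).add hX).intervalIntegrable 0 1) fun t _ => hpt t
  simp only [Pi.add_apply] at hI
  rw [intervalIntegral.integral_add (hAC.intervalIntegrable _ _)
      ((hab.div_const 2).intervalIntegrable _ _),
    intervalIntegral.integral_add (f := fun t => H * A t)
      ((continuous_const.mul hA).intervalIntegrable _ _)
      intervalIntegrable_const,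
    intervalIntegral.integral_add (((continuous_sec hgn).div_const 2).intervalIntegrable _ _)
      (hX.intervalIntegrable _ _),
    intervalIntegral.integral_div, intervalIntegral.integral_div,
    intervalIntegral.integral_const_mul, ← int3_eq, intervalIntegral.integral_const, sub_zero,
    one_smul] at hI
  have hV : ∫ t in (0 : ℝ)..1, A t = int3 w := rfl
  rw [hV] at hI
  -- the circuit from the least area to the greatest and back
  have hper : Function.Periodic A 1 := secA_periodic hw
  set s := t₀ + Int.fract (t₁ - t₀)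
  have hs : A s = A t₁ := by
    have e := hper.sub_int_mul_eq (x := t₁) ⌊t₁ - t₀⌋
    rw [mul_one] at e
    rw [← e]
    congr 1
    simp only [s, Int.fract]
    ring
  have hs0 : t₀ ≤ s := le_add_of_nonneg_right (Int.fract_nonneg _)
  have hs1 : s ≤ t₀ + 1 := by
    linarith [Int.fract_lt_one (t₁ - t₀), show s = t₀ + Int.fract (t₁ - t₀) from rfl]
  have hDp : Function.Periodic D 1 := fun t =>
    (hasDerivAt_secA hw (t + 1)).unique (by
      have h := (hasDerivAt_secA hw t)
      have h' : HasDerivAt (fun u => A (u - 1)) (D t) (t + 1) := by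
        refine HasDerivAt.comp_sub_const (t + 1) 1 ?_
        rwa [add_sub_cancel_right]
      simpa [A, funext fun u => hper.sub_eq u] using h')
  have hgp : Function.Periodic (fun t => b (A t) * |D t|) 1 := fun t => by
    simp only [hper t, hDp t]
  have hshift : ∫ t in (0 : ℝ)..1, b (A t) * |D t| = ∫ t in t₀..t₀ + 1, b (A t) * |D t| := by
    simpa using (hgp.intervalIntegral_add_eq t₀ 0).symm
  have hcv : ∀ p q, ∫ t in p..q, b (A t) * D t = ∫ x in A p..A q, b x := fun p q =>
    intervalIntegral.integral_comp_mul_deriv (fun t _ => hasDerivAt_secA hw t) hD.continuousOn hbc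
  have hb0 : ∀ t, 0 ≤ b (A t) := fun t => by rw [hbA]; exact (hβ _ ⟨h0 t, h1 t⟩).1
  have hcD : Continuous fun t => b (A t) * D t := (hbc.comp hA).mul hD
  have hup := intervalIntegral.integral_mono_on (μ := volume) hs0
    (hcD.intervalIntegrable t₀ s) (hab.intervalIntegrable t₀ s) fun t _ =>
      mul_le_mul_of_nonneg_left (le_abs_self _) (hb0 t)
  have hdown := intervalIntegral.integral_mono_on (μ := volume) hs1
    ((hcD.neg : Continuous fun t => -(b (A t) * D t)).intervalIntegrable s (t₀ + 1)) (hab.intervalIntegrable s (t₀ + 1)) fun t _ => by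
      change -(b (A t) * D t) ≤ _
      rw [← mul_neg]
      exact mul_le_mul_of_nonneg_left (neg_le_abs _) (hb0 t)
  rw [hcv, hs] at hup
  change (∫ t in s..t₀ + 1, -(b (A t) * D t)) ≤ _ at hdown
  rw [intervalIntegral.integral_neg, hcv, hs, hper t₀, intervalIntegral.integral_symm, neg_neg]
    at hdown
  have hbeq : ∫ x in A t₀..A t₁, b x = ∫ x in A t₀..A t₁, β x :=
    intervalIntegral.integral_congr fun x hx => by
      rw [Set.uIcc_of_le (h0 t₁)] at hx
      exact Set.IccExtend_of_mem _ _ hx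
  have hadd := intervalIntegral.integral_add_adjacent_intervals (μ := volume)
    (hab.intervalIntegrable t₀ s) (hab.intervalIntegrable s (t₀ + 1))
  linarith

/-- The mean of the slice areas. -/
lemma mean_mem (hw : Dens w) {t₀ t₁ : ℝ} (h0 : ∀ t, secA w t₀ ≤ secA w t)
    (h1 : ∀ t, secA w t ≤ secA w t₁) : secA w t₀ ≤ int3 w ∧ int3 w ≤ secA w t₁ := by
  have hc := (continuous_secA hw).intervalIntegrable (μ := volume) 0 1
  constructor
  · have h := intervalIntegral.integral_mono_on zero_le_one intervalIntegrable_const hc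
      fun t _ => h0 t
    simpa [int3_eq, secA, sec, area2] using h
  · have h := intervalIntegral.integral_mono_on zero_le_one hc intervalIntegrable_const
      fun t _ => h1 t
    simpa [int3_eq, secA, sec, area2] using h

/-- Both bounds along the first axis. -/
lemma axis_one {δ K₁ K₂ : ℝ} (hδ : 0 < δ) (hK₁ : 0 ≤ K₁) (hK₂ : 0 ≤ K₂)
    (h₁ : ∀ f, Dens2 f → 2 * gfun (area2 f) ≤ tv2 f + δ + K₁ * area2 (fun p => f p * (1 - f p)))
    (h₂ : ∀ f, Dens2 f → ∀ y₀ z₀ : ℝ, 2 * Real.sqrt (Real.pi * area2 f) ≤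
      tv2 f + 2 * (∫ z in (0 : ℝ)..1, f (y₀, z)) + 2 * (∫ y in (0 : ℝ)..1, f (y, z₀)) + δ +
        K₂ * area2 (fun p => f p * (1 - f p)))
    (hw : Dens w) {t₀ t₁ : ℝ} (h0 : ∀ t, secA w t₀ ≤ secA w t) (h1 : ∀ t, secA w t ≤ secA w t₁)
    (y₀ z₀ : ℝ) :
    0 ≤ secA w t₀ ∧ secA w t₀ ≤ int3 w ∧ int3 w ≤ secA w t₁ ∧ secA w t₁ ≤ 1 ∧
      Low gfun (int3 w) (secA w t₀) (secA w t₁)
        (int3 (gnorm w) / 2 + δ + (K₁ + K₂) * int3 (fun p => w p * (1 - w p))) ∧
      Low (fun x => Real.sqrt (Real.pi * x)) (int3 w) (secA w t₀) (secA w t₁)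
        (int3 (gnorm w) / 2 + δ + (K₁ + K₂) * int3 (fun p => w p * (1 - w p))
          + ((∫ t in (0 : ℝ)..1, ∫ z in (0 : ℝ)..1, w (t, y₀, z))
            + ∫ t in (0 : ℝ)..1, ∫ y in (0 : ℝ)..1, w (t, y, z₀))) := by
  have hF : Continuous fun p => w p * (1 - w p) :=
    hw.smooth.continuous.mul (continuous_const.sub hw.smooth.continuous)
  set E := int3 fun p => w p * (1 - w p)
  have hE0 : ∀ t, 0 ≤ area2 fun q => w (t, q) * (1 - w (t, q)) := fun t =>
    intervalIntegral.integral_nonneg zero_le_one fun y _ =>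
      intervalIntegral.integral_nonneg zero_le_one fun z _ =>
        mul_nonneg (hw.mem _).1 (sub_nonneg.2 (hw.mem _).2)
  have hE : 0 ≤ E := intervalIntegral.integral_nonneg zero_le_one fun t _ => hE0 t
  obtain ⟨hm, hM⟩ := mean_mem hw h0 h1
  refine ⟨(secA_mem hw t₀).1, hm, hM, (secA_mem hw t₁).2, ?_, ?_⟩
  · refine low_of_slices hw (X := fun t => δ / 2 + K₁ / 2 * area2 fun q => w (t, q) * (1 - w (t, q)))
      (fun x => le_min (le_min (Real.sqrt_nonneg _) zero_le_one) (Real.sqrt_nonneg _))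
      (continuous_const.add (continuous_const.mul (continuous_sec hF) : Continuous fun t => K₁ / 2 * area2 fun q => w (t, q) * (1 - w (t, q))))
      (fun t => add_nonneg (by linarith) (mul_nonneg (by linarith) (hE0 t)))
      (fun t => (h₁ _ (dens2_sec hw t)).trans (le_of_eq (by simp only [sec]; ring))) h0 h1 ?_
    rw [int3_add_const hF]
    nlinarith
  · have hy : Continuous fun t => ∫ z in (0 : ℝ)..1, w (t, y₀, z) :=
      continuous_inner (F := fun p => w (p.1, y₀, p.2))
        (hw.smooth.continuous.comp (by fun_prop))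
    have hz : Continuous fun t => ∫ y in (0 : ℝ)..1, w (t, y, z₀) :=
      continuous_inner (F := fun p => w (p.1, p.2, z₀))
        (hw.smooth.continuous.comp (by fun_prop))
    refine low_of_slices hw (X := fun t => (δ / 2 + K₂ / 2 * area2 fun q => w (t, q) * (1 - w (t, q)))
        + ((∫ z in (0 : ℝ)..1, w (t, y₀, z)) + ∫ y in (0 : ℝ)..1, w (t, y, z₀)))
      (fun x => Real.sqrt_nonneg _)
      ((continuous_const.add (continuous_const.mul (continuous_sec hF) : Continuous fun t => K₂ / 2 * area2 fun q => w (t, q) * (1 - w (t, q)))).add (hy.add hz))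
      (fun t => add_nonneg (add_nonneg (by linarith) (mul_nonneg (by linarith) (hE0 t)))
        (add_nonneg (intervalIntegral.integral_nonneg zero_le_one fun z _ => (hw.mem _).1)
          (intervalIntegral.integral_nonneg zero_le_one fun y _ => (hw.mem _).1)))
      (fun t => (h₂ _ (dens2_sec hw t) y₀ z₀).trans (le_of_eq (by simp only [sec]; ring))) h0 h1 ?_
    rw [intervalIntegral.integral_add
        (f := fun t => δ / 2 + K₂ / 2 * area2 fun q => w (t, q) * (1 - w (t, q)))
        (g := fun t => (∫ z in (0 : ℝ)..1, w (t, y₀, z)) + ∫ y in (0 : ℝ)..1, w (t, y, z₀))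
        ((continuous_const.add (continuous_const.mul (continuous_sec hF) : Continuous fun t => K₂ / 2 * area2 fun q => w (t, q) * (1 - w (t, q)))).intervalIntegrable _ _)
        ((hy.add hz).intervalIntegrable _ _),
      intervalIntegral.integral_add (hy.intervalIntegrable _ _) (hz.intervalIntegrable _ _),
      int3_add_const hF]
    nlinarith

/-! ### Permutations of the coordinates -/

/-- Exchange of the first two coordinates. -/
def swap₂ : (ℝ × ℝ × ℝ) →L[ℝ] (ℝ × ℝ × ℝ) :=
  ((ContinuousLinearMap.fst ℝ ℝ ℝ).comp (ContinuousLinearMap.snd ℝ ℝ (ℝ × ℝ))).prod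
    ((ContinuousLinearMap.fst ℝ ℝ (ℝ × ℝ)).prod
      ((ContinuousLinearMap.snd ℝ ℝ ℝ).comp (ContinuousLinearMap.snd ℝ ℝ (ℝ × ℝ))))

/-- The cycle of the coordinates. -/
def cyc₃ : (ℝ × ℝ × ℝ) →L[ℝ] (ℝ × ℝ × ℝ) :=
  ((ContinuousLinearMap.fst ℝ ℝ ℝ).comp (ContinuousLinearMap.snd ℝ ℝ (ℝ × ℝ))).prod
    (((ContinuousLinearMap.snd ℝ ℝ ℝ).comp (ContinuousLinearMap.snd ℝ ℝ (ℝ × ℝ))).prod
      (ContinuousLinearMap.fst ℝ ℝ (ℝ × ℝ)))

lemma swap₂_apply (p : (ℝ × ℝ × ℝ)) : swap₂ p = (p.2.1, p.1, p.2.2) := rfl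

lemma cyc₃_apply (p : (ℝ × ℝ × ℝ)) : cyc₃ p = (p.2.1, p.2.2, p.1) := rfl

lemma dens_comp (hw : Dens w) (L : (ℝ × ℝ × ℝ) →L[ℝ] (ℝ × ℝ × ℝ))
    (hL : ∀ e ∈ ({e₁, e₂, e₃} : Set (ℝ × ℝ × ℝ)), L e ∈ ({e₁, e₂, e₃} : Set (ℝ × ℝ × ℝ))) : Dens fun p => w (L p) := by
  have h : ∀ e ∈ ({e₁, e₂, e₃} : Set (ℝ × ℝ × ℝ)), ∀ p, w (L (p + e)) = w (L p) := fun e he p => by
    rw [map_add]
    rcases hL e he with h | h | h <;> rw [h]
    exacts [(hw.per _).1, (hw.per _).2.1, (hw.per _).2.2]
  exact ⟨hw.smooth.comp L.contDiff,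
    fun p => ⟨h _ (by simp) p, h _ (by simp) p, h _ (by simp) p⟩, fun p => hw.mem _⟩

lemma gnorm_comp (hw : Dens w) (L : (ℝ × ℝ × ℝ) →L[ℝ] (ℝ × ℝ × ℝ)) (p : (ℝ × ℝ × ℝ)) :
    gnorm (fun q => w (L q)) p = Real.sqrt (fderiv ℝ w (L p) (L e₁) ^ 2 +
      fderiv ℝ w (L p) (L e₂) ^ 2 + fderiv ℝ w (L p) (L e₃) ^ 2) := by
  have h : HasFDerivAt (fun q => w (L q)) ((fderiv ℝ w (L p)).comp L) p :=
    (hw.smooth.differentiable two_ne_zero (L p)).hasFDerivAt.comp p L.hasFDerivAt
  rw [gnorm, h.fderiv]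
  rfl

lemma int3_swap₂ {F : (ℝ × ℝ × ℝ) → ℝ} (hF : Continuous F) : int3 (fun p => F (swap₂ p)) = int3 F := by
  simp only [int3, swap₂_apply]
  exact integral_swap (G := fun p : ℝ × ℝ => ∫ z in (0 : ℝ)..1, F (p.2, p.1, z))
    (intervalIntegral.continuous_parametric_intervalIntegral_of_continuous'
      (f := fun (p : ℝ × ℝ) z => F (p.2, p.1, z))
      (hF.comp ((continuous_snd.comp continuous_fst).prodMk
        ((continuous_fst.comp continuous_fst).prodMk continuous_snd))) 0 1) 0 1 zero_le_one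

lemma int3_cyc₃ {F : (ℝ × ℝ × ℝ) → ℝ} (hF : Continuous F) : int3 (fun p => F (cyc₃ p)) = int3 F := by
  simp only [int3, cyc₃_apply]
  rw [integral_swap (G := fun p : ℝ × ℝ => ∫ z in (0 : ℝ)..1, F (p.2, z, p.1))
    (intervalIntegral.continuous_parametric_intervalIntegral_of_continuous'
      (f := fun (p : ℝ × ℝ) z => F (p.2, z, p.1))
      (hF.comp ((continuous_snd.comp continuous_fst).prodMk
        (continuous_snd.prodMk (continuous_fst.comp continuous_fst)))) 0 1) 0 1 zero_le_one]
  exact intervalIntegral.integral_congr fun y _ =>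
    integral_swap (G := fun p : ℝ × ℝ => F (y, p.2, p.1))
      (hF.comp (continuous_const.prodMk (continuous_snd.prodMk continuous_fst))) 0 1 zero_le_one

end Axis

open Axis in
/-- In each axis the least and greatest slice areas control the total variation through `Low`. -/
theorem axis_bounds {δ : ℝ} (hδ : 0 < δ) : ∃ K : ℝ, 0 ≤ K ∧ ∀ w, Dens w →
    ∃ f a : Fin 3 → ℝ, ∀ i, 0 ≤ f i ∧ f i ≤ int3 w ∧ int3 w ≤ a i ∧ a i ≤ 1 ∧
      Low gfun (int3 w) (f i) (a i)
        (int3 (gnorm w) / 2 + δ + K * int3 (fun p => w p * (1 - w p))) ∧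
      Low (fun x => Real.sqrt (Real.pi * x)) (int3 w) (f i) (a i)
        (int3 (gnorm w) / 2 + δ + K * int3 (fun p => w p * (1 - w p))
          + ((∑ j, f j) - f i)) := by
  obtain ⟨K₁, hK₁, h₁⟩ := torus2_lower hδ
  obtain ⟨K₂, hK₂, h₂⟩ := cut2_lower hδ
  refine ⟨K₁ + K₂, by positivity, fun w hw => ?_⟩
  set u := fun p => w (swap₂ p) with hu
  set v := fun p => w (cyc₃ p) with hv
  have hud : Dens u := dens_comp hw _ fun e he => by
    rcases he with rfl | rfl | rfl <;> simp [swap₂_apply, e₁, e₂, e₃]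
  have hvd : Dens v := dens_comp hw _ fun e he => by
    rcases he with rfl | rfl | rfl <;> simp [cyc₃_apply, e₁, e₂, e₃]
  have hw0 := hw.smooth.continuous
  have hF : Continuous fun p => w p * (1 - w p) := hw0.mul (continuous_const.sub hw0)
  have hg : Continuous (gnorm w) :=
    ((((continuous_dir hw e₁).pow 2).add ((continuous_dir hw e₂).pow 2)).add
      ((continuous_dir hw e₃).pow 2)).sqrt
  obtain ⟨a₁, hm₁⟩ := exists_min hw
  obtain ⟨b₁, hM₁⟩ := exists_max hw
  obtain ⟨a₂, hm₂⟩ := exists_min hud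
  obtain ⟨b₂, hM₂⟩ := exists_max hud
  obtain ⟨a₃, hm₃⟩ := exists_min hvd
  obtain ⟨b₃, hM₃⟩ := exists_max hvd
  have r₁ := axis_one hδ hK₁ hK₂ h₁ h₂ hw hm₁ hM₁ a₂ a₃
  have r₂ := axis_one hδ hK₁ hK₂ h₁ h₂ hud hm₂ hM₂ a₁ a₃
  have r₃ := axis_one hδ hK₁ hK₂ h₁ h₂ hvd hm₃ hM₃ a₁ a₂
  have gu : ∀ p, gnorm u p = gnorm w (swap₂ p) := fun p => by
    rw [gnorm_comp hw, gnorm]
    simp only [swap₂_apply, e₁, e₂, e₃]
    ring_nf
  have gv : ∀ p, gnorm v p = gnorm w (cyc₃ p) := fun p => by
    rw [gnorm_comp hw, gnorm]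
    simp only [cyc₃_apply, e₁, e₂, e₃]
    ring_nf
  rw [show int3 u = int3 w from int3_swap₂ hw0,
    show int3 (gnorm u) = int3 (gnorm w) by rw [show gnorm u = _ from funext gu]; exact int3_swap₂ hg,
    show int3 (fun p => u p * (1 - u p)) = int3 fun p => w p * (1 - w p) from int3_swap₂ hF] at r₂
  rw [show int3 v = int3 w from int3_cyc₃ hw0,
    show int3 (gnorm v) = int3 (gnorm w) by rw [show gnorm v = _ from funext gv]; exact int3_cyc₃ hg,
    show int3 (fun p => v p * (1 - v p)) = int3 fun p => w p * (1 - w p) from int3_cyc₃ hF] at r₃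
  have c12 : ∫ t in (0 : ℝ)..1, ∫ y in (0 : ℝ)..1, u (t, y, a₃) = secA v a₃ :=
    integral_swap (G := fun p : ℝ × ℝ => w (p.2, p.1, a₃))
      (hw0.comp (continuous_snd.prodMk (continuous_fst.prodMk continuous_const))) 0 1 zero_le_one
  have c31 : ∫ t in (0 : ℝ)..1, ∫ z in (0 : ℝ)..1, v (t, a₁, z) = secA w a₁ :=
    integral_swap (G := fun p : ℝ × ℝ => w (a₁, p.2, p.1))
      (hw0.comp (continuous_const.prodMk (continuous_snd.prodMk continuous_fst))) 0 1 zero_le_one
  have c32 : ∫ t in (0 : ℝ)..1, ∫ y in (0 : ℝ)..1, v (t, y, a₂) = secA u a₂ :=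
    integral_swap (G := fun p : ℝ × ℝ => w (p.2, a₂, p.1))
      (hw0.comp (continuous_snd.prodMk (continuous_const.prodMk continuous_fst))) 0 1 zero_le_one
  rw [show (∫ t in (0 : ℝ)..1, ∫ z in (0 : ℝ)..1, w (t, a₂, z)) = secA u a₂ from rfl,
    show (∫ t in (0 : ℝ)..1, ∫ y in (0 : ℝ)..1, w (t, y, a₃)) = secA v a₃ from rfl] at r₁
  rw [show (∫ t in (0 : ℝ)..1, ∫ z in (0 : ℝ)..1, u (t, a₁, z)) = secA w a₁ from rfl, c12] at r₂
  rw [c31, c32] at r₃
  refine ⟨![secA w a₁, secA u a₂, secA v a₃], ![secA w b₁, secA u b₂, secA v b₃], fun i => ?_⟩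
  simp only [Fin.sum_univ_three]
  fin_cases i
  · simpa [add_assoc, add_sub_cancel_left] using r₁
  · simpa [add_assoc, add_sub_assoc, show ∀ p q r : ℝ, p + (q + r) - q = p + r from fun p q r => by
      ring] using r₂
  · simpa using r₃

end

end Vale.Agent.P232
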