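import Mathlib

/-! # P232: the perimeter of balls -/

namespace Vale.Agent.P232

noncomputable section

open Real

/-- Half the perimeter of a ball of volume `v`. -/
def ballF (v : ℝ) : ℝ := (9 * π / 2 * v ^ 2) ^ ((3 : ℕ) : ℝ)⁻¹

/-- Tangent lines of `ballF`. -/
lemma ballF_le {S v : ℝ} (hS : 0 < S) (hv : 0 ≤ v) :
    ballF v ≤ (√π * v + 2 * S ^ 3 / 3) / S := by
  set r := (√π * v + 2 * S ^ 3 / 3) / S with hr
  have hr0 : 0 ≤ r := by positivity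
  have key : 9 * π / 2 * v ^ 2 ≤ r ^ 3 := by
    have hx : 0 ≤ √π * v := by positivity
    have h1 : 9 / 2 * (√π * v) ^ 2 * S ^ 3 ≤ (√π * v + 2 * S ^ 3 / 3) ^ 3 := by
      nlinarith [mul_nonneg hx (sq_nonneg (√π * v - 4 * S ^ 3 / 3)),
        mul_nonneg (pow_nonneg hS.le 3) (sq_nonneg (√π * v - 4 * S ^ 3 / 3))]
    rw [hr, div_pow, le_div_iff₀ (by positivity)]
    rw [mul_pow, Real.sq_sqrt Real.pi_pos.le] at h1
    linarith
  calc ballF v ≤ (r ^ 3) ^ ((3 : ℕ) : ℝ)⁻¹ :=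
        Real.rpow_le_rpow (by positivity) key (by positivity)
    _ = r := Real.pow_rpow_inv_natCast hr0 (by norm_num)

lemma ballF_le_line {v : ℝ} (hv : 0 ≤ v) : ballF v ≤ 3 * v + 2 * π / 27 := by
  have h := ballF_le (S := √π / 3) (by positivity) hv
  refine h.trans_eq ?_
  have hs := Real.sq_sqrt Real.pi_pos.le
  have hne : √π ≠ 0 := by positivity
  field_simp
  nlinarith

lemma two_ballF {v : ℝ} (hv : 0 ≤ v) :
    (36 * π) ^ (1 / 3 : ℝ) * v ^ (2 / 3 : ℝ) = 2 * ballF v := by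
  have e : (2 : ℝ) = (8 : ℝ) ^ ((3 : ℕ) : ℝ)⁻¹ := by
    rw [show (8 : ℝ) = 2 ^ 3 by norm_num, Real.pow_rpow_inv_natCast (by norm_num) (by norm_num)]
  rw [ballF]
  have e2 : ∀ x : ℝ, 0 ≤ x → 2 * x ^ ((3 : ℕ) : ℝ)⁻¹ = (8 * x) ^ ((3 : ℕ) : ℝ)⁻¹ := fun x hx => by
    rw [Real.mul_rpow (by norm_num) hx, ← e]
  rw [e2 _ (by positivity), show (8 : ℝ) * (9 * π / 2 * v ^ 2) = 36 * π * v ^ 2 by ring,
    Real.mul_rpow (by positivity) (sq_nonneg v), ← Real.rpow_natCast v 2, ← Real.rpow_mul hv]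
  norm_num

end

end Vale.Agent.P232
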