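import Vale.Agent.P232.Torus2

/-!
# P232: tilted calibration of bands

On a range of levels met by every line `{y} × ℝ` the gradient is paired with
`(√(1 - p²), p)`, where `p` is linear in the distance from the seam `y₀`. This gives a bound which is
linear in the area and in the content of the seam.
-/

namespace Vale.Agent.P232

noncomputable section

open MeasureTheory Set

/-- The length of a band calibrated with tilt `k`. -/
def bandC (k : ℝ) : ℝ := ∫ t in (0 : ℝ)..1, √(1 - (2 * k * (t - 1 / 2)) ^ 2)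

/-- The slice profile with tilts `k` and `l` in the two directions. -/
def kfun (k l A : ℝ) : ℝ :=
  min (min √(Real.pi * A) (bandC k + k * A)) (min (bandC l + l * A) √(Real.pi * (1 - A)))

lemma sq_tilt_le {k : ℝ} (hk : k ∈ Icc (0 : ℝ) 1) {t : ℝ} (ht : t ∈ Icc (0 : ℝ) 1) :
    (2 * k * (t - 1 / 2)) ^ 2 ≤ 1 := by
  have h : |2 * k * (t - 1 / 2)| ≤ 1 := by
    rw [abs_le]; constructor <;> nlinarith [hk.1, hk.2, ht.1, ht.2]
  exact (sq_le_one_iff_abs_le_one _).2 h

lemma tilt_pt {p D E : ℝ} (hp : p ^ 2 ≤ 1) :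
    √(1 - p ^ 2) * |D| - p * E ≤ √(E ^ 2 + D ^ 2) := by
  refine Real.le_sqrt_of_sq_le ?_
  have h := Real.sq_sqrt (show 0 ≤ 1 - p ^ 2 by linarith)
  nlinarith [sq_nonneg (√(1 - p ^ 2) * E + p * |D|), sq_abs D]

/-- A range of levels met by every line `{y} × ℝ`, calibrated from the seam `y = 0`. -/
lemma band_cal₀ {F : ℝ × ℝ → ℝ} (hF : ContDiff ℝ 1 F) (hp : Per2 F) {φ φ' : ℝ → ℝ}
    (hd : ∀ x, HasDerivAt φ (φ' x) x) (hc : Continuous φ') (h0 : ∀ x, 0 ≤ φ' x) {lo hi k : ℝ}
    (hk : k ∈ Icc (0 : ℝ) 1) (hlo : ∀ y, ∃ z, F (y, z) ≤ lo) (hhi : ∀ y, ∃ z, hi ≤ F (y, z)) :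
    2 * (φ hi - φ lo) * bandC k + 2 * k * (area2 fun p => φ (F p))
        - 2 * k * (∫ z in (0 : ℝ)..1, φ (F (0, z)))
      ≤ area2 fun p => φ' (F p) * grad2 F p := by
  have hφ : ContDiff ℝ 1 φ := contDiff_one_iff_deriv.2 ⟨fun x => (hd x).differentiableAt, by
    rw [show deriv φ = φ' from funext fun x => (hd x).deriv]; exact hc⟩
  have hmono : Monotone φ := monotone_of_deriv_nonneg (fun x => (hd x).differentiableAt) fun x => by
    rw [(hd x).deriv]; exact h0 x
  set s : ℝ → ℝ := fun y => √(1 - (2 * k * (y - 1 / 2)) ^ 2) with hs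
  set q : ℝ → ℝ := fun y => 2 * k * (y - 1 / 2) with hq
  have hsc : Continuous s := by fun_prop
  have hqc : Continuous q := by fun_prop
  have hD : ∀ v, Continuous fun p => φ' (F p) * fderiv ℝ F p v := fun v =>
    (hc.comp hF.continuous).mul ((hF.continuous_fderiv one_ne_zero).clm_apply continuous_const)
  have hG : Continuous fun p => φ (F p) := hφ.continuous.comp hF.continuous
  -- the tilted part
  have hz : ∀ z, (∫ y in (0 : ℝ)..1, q y * (φ' (F (y, z)) * fderiv ℝ F (y, z) (1, 0)))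
      = 2 * k * φ (F (0, z)) - 2 * k * ∫ y in (0 : ℝ)..1, φ (F (y, z)) := fun z => by
    have hu : ∀ y, HasDerivAt q (2 * k) y := fun y => by
      simpa [hq] using ((hasDerivAt_id y).sub_const (1 / 2 : ℝ)).const_mul (2 * k)
    have hv : ∀ y, HasDerivAt (fun y => φ (F (y, z)))
        (φ' (F (y, z)) * fderiv ℝ F (y, z) (1, 0)) y := fun y =>
      (hd _).comp y ((hF.differentiable one_ne_zero (y, z)).hasFDerivAt.comp_hasDerivAt y
        ((hasDerivAt_id y).prodMk (hasDerivAt_const y z)))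
    have hv' : Continuous fun y => φ' (F (y, z)) * fderiv ℝ F (y, z) (1, 0) :=
      (hD (1, 0)).comp (continuous_id.prodMk continuous_const)
    rw [intervalIntegral.integral_mul_deriv_eq_deriv_mul (a := 0) (b := 1) (fun y _ => hu y)
      (fun y _ => hv y) intervalIntegrable_const (hv'.intervalIntegrable 0 1),
      intervalIntegral.integral_const_mul]
    have e : F (1, z) = F (0, z) := by simpa using (hp 0 z).1
    simp only [hq, e]
    ring
  have htilt : area2 (fun p => q p.1 * (φ' (F p) * fderiv ℝ F p (1, 0)))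
      = 2 * k * (∫ z in (0 : ℝ)..1, φ (F (0, z))) - 2 * k * area2 fun p => φ (F p) := by
    simp only [area2]
    rw [sq_swap (F := fun p => q p.1 * (φ' (F p) * fderiv ℝ F p (1, 0)))
      ((hqc.comp continuous_fst).mul (hD (1, 0)))]
    simp only [hz]
    rw [intervalIntegral.integral_sub, intervalIntegral.integral_const_mul,
      intervalIntegral.integral_const_mul, sq_swap (F := fun p => φ (F p)) hG]
    · exact (continuous_const.mul (hG.comp (by fun_prop))).intervalIntegrable _ _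
    · exact (continuous_const.mul
        (intervalIntegral.continuous_parametric_intervalIntegral_of_continuous'
          (f := fun z y => φ (F (y, z))) (hG.comp (by fun_prop)) 0 1)).intervalIntegrable _ _
  -- the straight part
  have hline : ∀ y, 2 * (φ hi - φ lo) ≤
      ∫ z in (0 : ℝ)..1, φ' (F (y, z)) * |fderiv ℝ F (y, z) (0, 1)| := fun y => by
    obtain ⟨z₁, hz₁⟩ := hlo y
    obtain ⟨z₂, hz₂⟩ := hhi y
    have hz' : ∀ z, HasDerivAt (fun z => φ (F (y, z)))
        (φ' (F (y, z)) * fderiv ℝ F (y, z) (0, 1)) z := fun z =>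
      (hd _).comp z ((hF.differentiable one_ne_zero (y, z)).hasFDerivAt.comp_hasDerivAt z
        ((hasDerivAt_const z y).prodMk (hasDerivAt_id z)))
    have h := line_osc (g := fun z => φ (F (y, z)))
      (hφ.comp (hF.comp (contDiff_const.prodMk contDiff_id))) (fun z => by simp [(hp y z).2]) z₁ z₂
    simp only [fun z => (hz' z).deriv, abs_mul, abs_of_nonneg (h0 _)] at h
    linarith [hmono hz₁, hmono hz₂]
  have hAbs : Continuous fun p => φ' (F p) * |fderiv ℝ F p (0, 1)| :=
    (hc.comp hF.continuous).mul ((hF.continuous_fderiv one_ne_zero).clm_apply continuous_const).abs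
  have hstraight : 2 * (φ hi - φ lo) * bandC k ≤
      area2 fun p => s p.1 * (φ' (F p) * |fderiv ℝ F p (0, 1)|) := by
    rw [bandC, ← intervalIntegral.integral_const_mul]
    refine intervalIntegral.integral_mono_on zero_le_one
      ((continuous_const.mul hsc).intervalIntegrable _ _)
      ((cont_inner ((hsc.comp continuous_fst).mul hAbs)).intervalIntegrable _ _) fun y _ => ?_
    simp only [intervalIntegral.integral_const_mul]
    rw [mul_comm]
    exact mul_le_mul_of_nonneg_left (hline y) (Real.sqrt_nonneg _)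
  have hgr : Continuous fun p => φ' (F p) * grad2 F p :=
    (hc.comp hF.continuous).mul (continuous_grad2 hF)
  have hq1 : Continuous fun p : ℝ × ℝ => q p.1 * (φ' (F p) * fderiv ℝ F p (1, 0)) :=
    (hqc.comp continuous_fst).mul (hD (1, 0))
  have hmain : area2 (fun p => s p.1 * (φ' (F p) * |fderiv ℝ F p (0, 1)|)) ≤
      area2 fun p => q p.1 * (φ' (F p) * fderiv ℝ F p (1, 0)) + φ' (F p) * grad2 F p := by
    refine sq_mono ((hsc.comp continuous_fst).mul hAbs) (hq1.add hgr) fun y hy z _ => ?_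
    have := mul_le_mul_of_nonneg_left (tilt_pt (D := fderiv ℝ F (y, z) (0, 1))
      (E := fderiv ℝ F (y, z) (1, 0)) (sq_tilt_le hk hy)) (h0 (F (y, z)))
    simp only [Pi.add_apply, Pi.mul_apply, Function.comp_apply, grad2, hs, hq]
    linarith
  rw [area2_add hq1 hgr, htilt] at hmain
  linarith

/-- A range of levels met by every line `{y} × ℝ`, calibrated from an arbitrary seam. -/
lemma band_cal {F : ℝ × ℝ → ℝ} (hF : ContDiff ℝ 1 F) (hp : Per2 F) {φ φ' : ℝ → ℝ}
    (hd : ∀ x, HasDerivAt φ (φ' x) x) (hc : Continuous φ') (h0 : ∀ x, 0 ≤ φ' x) {lo hi k : ℝ}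
    (hk : k ∈ Icc (0 : ℝ) 1) (hlo : ∀ y, ∃ z, F (y, z) ≤ lo) (hhi : ∀ y, ∃ z, hi ≤ F (y, z))
    (y₀ : ℝ) :
    2 * (φ hi - φ lo) * bandC k + 2 * k * (area2 fun p => φ (F p))
        - 2 * k * (∫ z in (0 : ℝ)..1, φ (F (y₀, z)))
      ≤ area2 fun p => φ' (F p) * grad2 F p := by
  set G : ℝ × ℝ → ℝ := fun p => F (p.1 + y₀, p.2) with hGdef
  have hG : ContDiff ℝ 1 G := hF.comp ((contDiff_fst.add contDiff_const).prodMk contDiff_snd)
  have hGp : Per2 G := fun y z => ⟨by
    show F (y + 1 + y₀, z) = F (y + y₀, z)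
    rw [show y + 1 + y₀ = y + y₀ + 1 by ring, (hp _ _).1], (hp _ _).2⟩
  have h := band_cal₀ hG hGp hd hc h0 hk (lo := lo) (hi := hi)
    (fun y => hlo (y + y₀)) fun y => hhi (y + y₀)
  have hshift : ∀ H : ℝ × ℝ → ℝ, (∀ y z, H (y + 1, z) = H (y, z)) →
      area2 (fun p => H (p.1 + y₀, p.2)) = area2 H := fun H hH => by
    have hper : Function.Periodic (fun y => ∫ z in (0 : ℝ)..1, H (y, z)) 1 := fun y => by
      simp only [hH]
    simp only [area2]
    rw [intervalIntegral.integral_comp_add_right (fun y => ∫ z in (0 : ℝ)..1, H (y, z)) y₀,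
      zero_add, add_comm 1 y₀, hper.intervalIntegral_add_eq y₀ 0, zero_add]
  have hgrad : ∀ p : ℝ × ℝ, grad2 G p = grad2 F (p.1 + y₀, p.2) := fun p => by
    have e : fderiv ℝ G p = fderiv ℝ F (p.1 + y₀, p.2) := by
      have := fderiv_comp_add_right (𝕜 := ℝ) (f := F) (x := p) (y₀, (0 : ℝ))
      simpa [hGdef, Prod.add_def] using this
    simp only [grad2, e]
  have hdper : ∀ y z, fderiv ℝ F (y + 1, z) = fderiv ℝ F (y, z) := fun y z => by
    have := fderiv_comp_add_right (𝕜 := ℝ) (f := F) (x := (y, z)) ((1 : ℝ), (0 : ℝ))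
    have e : (fun p : ℝ × ℝ => F (p + (1, 0))) = F := funext fun p => by
      simpa [Prod.add_def] using (hp p.1 p.2).1
    rw [e] at this
    simpa [Prod.add_def] using this.symm
  have e1 : area2 (fun p => φ (G p)) = area2 fun p => φ (F p) :=
    hshift (fun p => φ (F p)) fun y z => by simp [(hp y z).1]
  have e2 : area2 (fun p => φ' (G p) * grad2 G p) = area2 fun p => φ' (F p) * grad2 F p := by
    simp only [hgrad]
    exact hshift (fun p => φ' (F p) * grad2 F p) fun y z => by simp [grad2, hdper, (hp y z).1]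
  rw [e1, e2] at h
  simpa [hGdef] using h

/-- The same in the other direction. -/
lemma band_cal' {F : ℝ × ℝ → ℝ} (hF : ContDiff ℝ 1 F) (hp : Per2 F) {φ φ' : ℝ → ℝ}
    (hd : ∀ x, HasDerivAt φ (φ' x) x) (hc : Continuous φ') (h0 : ∀ x, 0 ≤ φ' x) {lo hi k : ℝ}
    (hk : k ∈ Icc (0 : ℝ) 1) (hlo : ∀ z, ∃ y, F (y, z) ≤ lo) (hhi : ∀ z, ∃ y, hi ≤ F (y, z))
    (z₀ : ℝ) :
    2 * (φ hi - φ lo) * bandC k + 2 * k * (area2 fun p => φ (F p))
        - 2 * k * (∫ y in (0 : ℝ)..1, φ (F (y, z₀)))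
      ≤ area2 fun p => φ' (F p) * grad2 F p := by
  have hS : ContDiff ℝ 1 (F ∘ Prod.swap) := hF.comp (contDiff_snd.prodMk contDiff_fst)
  have h := band_cal hS (fun a b => ⟨(hp b a).2, (hp b a).1⟩) hd hc h0 hk (lo := lo) (hi := hi)
    hlo hhi z₀
  have hg : ∀ p : ℝ × ℝ, grad2 (F ∘ Prod.swap) p = grad2 F p.swap := fun p => by
    have h : HasFDerivAt (F ∘ Prod.swap) _ p :=
      (hF.differentiable one_ne_zero p.swap).hasFDerivAt.comp p
        (hasFDerivAt_snd.prodMk hasFDerivAt_fst)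
    simp only [grad2, h.fderiv]
    simp [add_comm]
  have hφc : Continuous φ := continuous_iff_continuousAt.2 fun x => (hd x).continuousAt
  have e1 : area2 (fun p => φ ((F ∘ Prod.swap) p)) = area2 fun p => φ (F p) :=
    (sq_swap (F := fun p => φ (F p)) (hφc.comp hF.continuous)).symm
  have e2 : area2 (fun p => φ' ((F ∘ Prod.swap) p) * grad2 (F ∘ Prod.swap) p)
      = area2 fun p => φ' (F p) * grad2 F p := by
    simp only [hg, Function.comp_apply]
    exact (sq_swap (F := fun p => φ' (F p) * grad2 F p)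
      ((hc.comp hF.continuous).mul (continuous_grad2 hF))).symm
  rw [e1, e2] at h
  simpa using h

/-- The truncation of a two-valued function to a range of levels has the full area. -/
lemma piece_mid {η a b x : ℝ} (hη : 0 < η) (hab : a ≤ b) (hb : b ≤ 1) (h0 : 0 ≤ x)
    (h1 : x ≤ 1) : (b - a) * x ≤ (sp η (x - a) - sp η (x - b)) + η + x * (1 - x) := by
  have g := sp_ge hη (x - a)
  have n := sp_nonneg hη (x - a)
  rcases le_total x b with h | h
  · rw [sp_eq_zero hη (by linarith : x - b ≤ 0)]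
    rcases le_total x a with h' | h' <;> nlinarith
  · have := sp_le (η := η) (by linarith : 0 ≤ x - b)
    nlinarith

/-- A truncation lies below the function. -/
lemma piece_le {η a b x : ℝ} (hη : 0 < η) (ha : 0 ≤ a) (h0 : 0 ≤ x) :
    sp η (x - a) - sp η (x - b) ≤ x := by
  have := sp_nonneg hη (x - b)
  rcases le_total x a with h | h
  · rw [sp_eq_zero hη (by linarith : x - a ≤ 0)]; linarith
  · linarith [sp_le (η := η) (by linarith : 0 ≤ x - a)]

/-- The tilted torus inequality when the max-min in the first direction is the smaller one. -/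
lemma torusK_ordered {η k l : ℝ} (hη : 0 < η) (hη1 : η ≤ 1) (hk : k ∈ Icc (0 : ℝ) 1)
    (hl : l ∈ Icc (0 : ℝ) 1) {f : ℝ × ℝ → ℝ} (hf : Dens2 f) {a₁ b₁ a₂ b₂ : ℝ}
    (A₁ : ∃ y, ∀ z, a₁ ≤ f (y, z)) (A₁' : ∀ y, ∃ z, f (y, z) ≤ a₁)
    (B₁ : ∃ y, ∀ z, f (y, z) ≤ b₁) (B₁' : ∀ y, ∃ z, b₁ ≤ f (y, z))
    (A₂ : ∃ z, ∀ y, a₂ ≤ f (y, z)) (A₂' : ∀ z, ∃ y, f (y, z) ≤ a₂)
    (B₂ : ∃ z, ∀ y, f (y, z) ≤ b₂) (B₂' : ∀ z, ∃ y, b₂ ≤ f (y, z)) (ha : a₁ ≤ a₂) (y₀ z₀ : ℝ) :
    2 * kfun k l (area2 f) ≤ tv2 f + 2 * k * (∫ z in (0 : ℝ)..1, f (y₀, z))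
      + 2 * l * (∫ y in (0 : ℝ)..1, f (y, z₀)) + 12 * η
      + 4 * (area2 fun p => f p * (1 - f p))
      + 2 * (2 * √Real.pi * √(4 * (η + area2 fun p => f p * (1 - f p)))) := by
  obtain ⟨ya, hya⟩ := A₁
  obtain ⟨yb, hyb⟩ := B₁
  obtain ⟨za, hza⟩ := A₂
  obtain ⟨zb, hzb⟩ := B₂
  have hab : a₂ ≤ b₁ := (hza yb).trans (hyb za)
  set b := max b₁ b₂ with hbdef
  have ha0 : 0 ≤ a₁ := by
    obtain ⟨w, hw⟩ := A₁' ya
    linarith [(hf.mem (ya, w)).1, le_antisymm hw (hya w)]
  have hb1 : b ≤ 1 := by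
    obtain ⟨z, hz⟩ := B₁' yb
    obtain ⟨y, hy⟩ := B₂' zb
    exact max_le (hz.trans (hf.mem _).2) (hy.trans (hf.mem _).2)
  have hab₁ : a₁ ≤ b₁ := ha.trans hab
  have hbb : b₁ ≤ b := le_max_left _ _
  have hc := hf.smooth.continuous
  set A := area2 f
  set e := area2 fun p => f p * (1 - f p)
  have he : 0 ≤ e := area2_nonneg fun p => mul_nonneg (hf.mem p).1 (by linarith [(hf.mem p).2])
  have hup := outer_le (c := 1 - b) (F := fun p => sp η (f p - b)) hη hη1 (by linarith)
    (by linarith) hc hf.mem ((contDiff_sp η).comp (hf.smooth.sub contDiff_const))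
    (fun y z => by simp [(hf.per y z).1, (hf.per y z).2]) (fun p => sp_nonneg hη _)
    (fun p => (sp_mono η (by linarith [(hf.mem p).2] : f p - b ≤ 1)).trans (sp_le zero_le_one))
    (fun p => piece_high hη (hf.mem p).1 (hf.mem p).2)
    (y₀ := yb) (z₀ := zb) (fun z => sp_eq_zero hη (by linarith [hyb z]))
    (fun y => sp_eq_zero hη (by linarith [hzb y, le_max_right b₁ b₂]))
  have hdn := outer_le (c := a₁) (f := fun p => 1 - f p) (F := fun p => sp η (a₁ - f p)) hη hη1
    ha0 (by linarith) (continuous_const.sub hc)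
    (fun p => ⟨by linarith [(hf.mem p).2], by linarith [(hf.mem p).1]⟩)
    ((contDiff_sp η).comp (contDiff_const.sub hf.smooth))
    (fun y z => by simp [(hf.per y z).1, (hf.per y z).2]) (fun p => sp_nonneg hη _)
    (fun p => (sp_mono η (by linarith [(hf.mem p).1] : a₁ - f p ≤ 1)).trans (sp_le zero_le_one))
    (fun p => by
      have h := piece_high (b := 1 - a₁) (x := 1 - f p) hη
        (by linarith [(hf.mem p).2]) (by linarith [(hf.mem p).1])
      rwa [sub_sub_cancel, show 1 - f p - (1 - a₁) = a₁ - f p by ring] at h)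
    (y₀ := ya) (z₀ := za) (fun z => sp_eq_zero hη (by linarith [hya z]))
    (fun y => sp_eq_zero hη (by linarith [hza y]))
  simp only [sub_sub_cancel, mul_comm (1 - f _) (f _), area2_one_sub hc] at hdn
  have hR : ∀ c : ℝ, Continuous fun p => ramp η (f p - c) := fun c =>
    (continuous_ramp η).comp (hc.sub continuous_const)
  have hR' : Continuous fun p => ramp η (a₁ - f p) :=
    (continuous_ramp η).comp (continuous_const.sub hc)
  have hC : ∀ a c : ℝ, a ≤ c → 0 ≤ a → c ≤ 1 →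
      (c - a) * A ≤ (area2 fun p => sp η (f p - a) - sp η (f p - c)) + η + e := fun a c h1 h2 h3 => by
    have hs : Continuous fun p => sp η (f p - a) - sp η (f p - c) :=
      ((contDiff_sp η).continuous.comp (hc.sub continuous_const)).sub
        ((contDiff_sp η).continuous.comp (hc.sub continuous_const))
    have h := area2_mono (F := fun p => (c - a) * f p)
      (G := fun p => (sp η (f p - a) - sp η (f p - c) + η) + f p * (1 - f p))
      (continuous_const.mul hc) ((hs.add continuous_const).add (hc.mul (continuous_const.sub hc)))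
      fun p => piece_mid hη h1 h3 (hf.mem p).1 (hf.mem p).2
    rwa [area2_const_mul, area2_add
      (F := fun p => sp η (f p - a) - sp η (f p - c) + η) (G := fun p => f p * (1 - f p))
      (hs.add continuous_const) (hc.mul (continuous_const.sub hc)),
      area2_add hs continuous_const, area2_const] at h
  have hL : ∀ a c : ℝ, 0 ≤ a → ∀ g : ℝ → ℝ × ℝ, Continuous g →
      ∫ t in (0 : ℝ)..1, sp η (f (g t) - a) - sp η (f (g t) - c) ≤ ∫ t in (0 : ℝ)..1, f (g t) :=
    fun a c h2 g hg => intervalIntegral.integral_mono_on zero_le_one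
      ((((contDiff_sp η).continuous.comp ((hc.comp hg).sub continuous_const)).sub
        ((contDiff_sp η).continuous.comp ((hc.comp hg).sub continuous_const))).intervalIntegrable
          _ _)
      ((hc.comp hg).intervalIntegrable _ _) fun t _ => piece_le hη h2 (hf.mem _).1
  have hd : ∀ a c x : ℝ, HasDerivAt (fun t => sp η (t - a) - sp η (t - c))
      (ramp η (x - a) - ramp η (x - c)) x := fun a c x =>
    (deriv_sp_sub η a x).sub (deriv_sp_sub η c x)
  have hdc : ∀ a c : ℝ, Continuous fun x => ramp η (x - a) - ramp η (x - c) := fun a c =>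
    ((continuous_ramp η).comp (continuous_id.sub continuous_const)).sub
      ((continuous_ramp η).comp (continuous_id.sub continuous_const))
  have hC0 : ∀ k, 0 ≤ bandC k := fun k =>
    intervalIntegral.integral_nonneg zero_le_one fun t _ => Real.sqrt_nonneg _
  have hC1 : ∀ k, bandC k ≤ 1 := fun k =>
    (intervalIntegral.integral_mono_on zero_le_one
      (Continuous.intervalIntegrable (by fun_prop) _ _) intervalIntegrable_const
      fun t _ => Real.sqrt_le_one.2 (by nlinarith)).trans_eq (by simp)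
  have hmid₁ : 2 * (b₁ - a₁) * (bandC k + k * A) ≤
      (area2 fun p => (ramp η (f p - a₁) - ramp η (f p - b₁)) * grad2 f p)
        + 2 * k * (∫ z in (0 : ℝ)..1, f (y₀, z)) + 4 * η + 2 * e := by
    have h := band_cal hf.smooth hf.per (φ := fun t => sp η (t - a₁) - sp η (t - b₁))
      (hd a₁ b₁) (hdc a₁ b₁) (fun x => sub_nonneg.2 (ramp_mono hη (by linarith))) hk A₁' B₁' y₀
    simp only [sub_self, sp_eq_zero hη le_rfl, sp_eq_zero hη (show a₁ - b₁ ≤ 0 by linarith)] at h
    have g1 := mul_le_mul_of_nonneg_left (hC a₁ b₁ hab₁ ha0 (hbb.trans hb1)) hk.1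
    have g2 := mul_le_mul_of_nonneg_left (hL a₁ b₁ ha0 (fun t => (y₀, t)) (by fun_prop)) hk.1
    have g3 := mul_le_mul_of_nonneg_right (sp_ge hη (b₁ - a₁)) (hC0 k)
    nlinarith [hC1 k, hk.2]
  have hmid₂ : 2 * (b - b₁) * (bandC l + l * A) ≤
      (area2 fun p => (ramp η (f p - b₁) - ramp η (f p - b)) * grad2 f p)
        + 2 * l * (∫ y in (0 : ℝ)..1, f (y, z₀)) + 4 * η + 2 * e := by
    rcases le_total b₂ b₁ with h | h
    · have eb : b = b₁ := max_eq_left h
      have i1 : 0 ≤ ∫ y in (0 : ℝ)..1, f (y, z₀) :=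
        intervalIntegral.integral_nonneg zero_le_one fun y _ => (hf.mem _).1
      have i2 : 0 ≤ area2 fun p => (ramp η (f p - b₁) - ramp η (f p - b)) * grad2 f p :=
        area2_nonneg fun p => by simp [eb]
      rw [eb] at i2 ⊢
      nlinarith [mul_nonneg hl.1 i1]
    have eb : b = b₂ := max_eq_right h
    rw [eb]
    have h := band_cal' hf.smooth hf.per (φ := fun t => sp η (t - b₁) - sp η (t - b₂))
      (hd b₁ b₂) (hdc b₁ b₂) (fun x => sub_nonneg.2 (ramp_mono hη (by linarith))) hl A₂' B₂' z₀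
    simp only [sub_self, sp_eq_zero hη le_rfl, sp_eq_zero hη (show a₂ - b₁ ≤ 0 by linarith),
      sp_eq_zero hη (show a₂ - b₂ ≤ 0 by linarith)] at h
    have g1 := mul_le_mul_of_nonneg_left (hC b₁ b₂ (by linarith) (by linarith) (eb ▸ hb1)) hl.1
    have g2 := mul_le_mul_of_nonneg_left
      (hL b₁ b₂ (by linarith) (fun t => (t, z₀)) (by fun_prop)) hl.1
    have g3 := mul_le_mul_of_nonneg_right (sp_ge hη (b₂ - b₁)) (hC0 l)
    nlinarith [hC1 l, hl.2]
  have hg := continuous_grad2 hf.smooth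
  have eU : tv2 (fun p => sp η (f p - b)) = area2 fun p => ramp η (f p - b) * grad2 f p := by
    show area2 (grad2 fun p => sp η (f p - b)) = _
    congr 1; funext p
    rw [grad2_comp (φ := fun t => sp η (t - b)) hf.smooth (deriv_sp_sub η b _),
      abs_of_nonneg (ramp_nonneg _ _)]
  have eD : tv2 (fun p => sp η (a₁ - f p)) = area2 fun p => ramp η (a₁ - f p) * grad2 f p := by
    show area2 (grad2 fun p => sp η (a₁ - f p)) = _
    congr 1; funext p
    rw [grad2_comp (φ := fun t => sp η (a₁ - t)) hf.smooth (deriv_sp_rev η a₁ _), abs_neg,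
      abs_of_nonneg (ramp_nonneg _ _)]
  have c₁ := ((hR a₁).fun_sub (hR b₁)).fun_mul hg
  have c₂ := ((hR b₁).fun_sub (hR b)).fun_mul hg
  have c₀ := hR'.fun_mul hg
  have hsum := area2_mono (((c₀.fun_add c₁).fun_add c₂).fun_add ((hR b).fun_mul hg)) hg fun p =>
    ramp_sum hη hab₁ hbb le_rfl le_rfl (Real.sqrt_nonneg _)
  rw [area2_add ((c₀.fun_add c₁).fun_add c₂) ((hR b).fun_mul hg), area2_add (c₀.fun_add c₁) c₂,
    area2_add c₀ c₁, show area2 (grad2 f) = tv2 f from rfl, ← eU, ← eD] at hsum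
  have g₁ : kfun k l A ≤ √Real.pi * √A := by
    rw [← Real.sqrt_mul Real.pi_pos.le]; exact (min_le_left _ _).trans (min_le_left _ _)
  have g₂ : kfun k l A ≤ √Real.pi * √(1 - A) := by
    rw [← Real.sqrt_mul Real.pi_pos.le]; exact (min_le_right _ _).trans (min_le_right _ _)
  have g₃ : kfun k l A ≤ bandC k + k * A := (min_le_left _ _).trans (min_le_right _ _)
  have g₄ : kfun k l A ≤ bandC l + l * A := (min_le_right _ _).trans (min_le_left _ _)
  linarith [mul_le_mul_of_nonneg_left g₁ (show 0 ≤ 1 - b by linarith),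
    mul_le_mul_of_nonneg_left g₂ ha0,
    mul_le_mul_of_nonneg_left g₃ (show 0 ≤ b₁ - a₁ by linarith),
    mul_le_mul_of_nonneg_left g₄ (show 0 ≤ b - b₁ by linarith)]

/-- The tilted torus profile bounds the total variation plus the weighted contents of two seams. -/
theorem torusK_lower {δ : ℝ} (hδ : 0 < δ) : ∃ K : ℝ, 0 ≤ K ∧ ∀ k l : ℝ, k ∈ Icc (0 : ℝ) 1 →
    l ∈ Icc (0 : ℝ) 1 → ∀ f, Dens2 f → ∀ y₀ z₀ : ℝ,
    2 * kfun k l (area2 f) ≤ tv2 f + 2 * k * (∫ z in (0 : ℝ)..1, f (y₀, z))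
      + 2 * l * (∫ y in (0 : ℝ)..1, f (y, z₀)) + δ + K * area2 (fun p => f p * (1 - f p)) := by
  set d := δ / 16 with hd
  set η := min 1 (min (d / 6) (d * d / (4 * Real.pi))) with hηd
  have hd0 : 0 < d := by positivity
  have hη : 0 < η := by positivity
  refine ⟨4 + 8 * Real.pi / d, by positivity, fun k l hk hl f hf y₀ z₀ => ?_⟩
  have hc := hf.smooth.continuous
  have hswap : Per2 (f ∘ Prod.swap) := fun y z => ⟨(hf.per z y).2, (hf.per z y).1⟩
  have hneg : Per2 fun p => -f p := fun y z => by simp [(hf.per y z).1, (hf.per y z).2]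
  have hnegs : Per2 fun p => -f (Prod.swap p) := fun y z => by
    simp [(hf.per z y).1, (hf.per z y).2]
  obtain ⟨a₁, A₁, A₁'⟩ := exists_maxmin hc hf.per
  obtain ⟨a₂, A₂, A₂'⟩ := exists_maxmin (hc.comp continuous_swap) hswap
  obtain ⟨c₁, ⟨y, hy⟩, C₁'⟩ := exists_maxmin hc.neg hneg
  obtain ⟨c₂, ⟨z, hz⟩, C₂'⟩ := exists_maxmin (hc.comp continuous_swap).neg hnegs
  have hb₁ : ∃ y, ∀ z, f (y, z) ≤ -c₁ := ⟨y, fun w => le_neg.1 (hy w)⟩
  have hb₁' : ∀ y, ∃ z, -c₁ ≤ f (y, z) := fun y => (C₁' y).imp fun w h => neg_le.1 h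
  have hb₂ : ∃ z, ∀ y, f (y, z) ≤ -c₂ := ⟨z, fun w => le_neg.1 (hz w)⟩
  have hb₂' : ∀ z, ∃ y, -c₂ ≤ f (y, z) := fun y => (C₂' y).imp fun w h => neg_le.1 h
  set e := area2 fun p => f p * (1 - f p) with he_def
  have he : 0 ≤ e := area2_nonneg fun p => mul_nonneg (hf.mem p).1 (by linarith [(hf.mem p).2])
  have main : 2 * kfun k l (area2 f) ≤ tv2 f + 2 * k * (∫ z in (0 : ℝ)..1, f (y₀, z))
      + 2 * l * (∫ y in (0 : ℝ)..1, f (y, z₀)) + 12 * η + 4 * e
      + 2 * (2 * √Real.pi * √(4 * (η + e))) := by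
    rcases le_total a₁ a₂ with h | h
    · exact torusK_ordered hη (min_le_left _ _) hk hl hf A₁ A₁' hb₁ hb₁' A₂ A₂' hb₂ hb₂' h y₀ z₀
    · have hg : Dens2 (f ∘ Prod.swap) :=
        ⟨hf.smooth.comp (contDiff_snd.prodMk contDiff_fst), hswap, fun p => hf.mem _⟩
      have := torusK_ordered hη (min_le_left _ _) hl hk hg A₂ A₂' hb₂ hb₂' A₁ A₁' hb₁ hb₁' h z₀ y₀
      rw [tv2_swap hf.smooth] at this
      have eA : ∀ F : ℝ × ℝ → ℝ, Continuous F → area2 (F ∘ Prod.swap) = area2 F := fun F hF =>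
        (sq_swap hF).symm
      rw [eA f hc, show (area2 fun p => (f ∘ Prod.swap) p * (1 - (f ∘ Prod.swap) p)) = e from
        eA (fun p => f p * (1 - f p)) (hc.mul (continuous_const.sub hc))] at this
      simp only [Function.comp_apply, Prod.swap_prod_mk] at this
      rw [show kfun k l (area2 f) = kfun l k (area2 f) by simp only [kfun]; ac_rfl]
      linarith
  have h1 := amgm_err (t := 4 * (η + e)) (by positivity) hd0
  have h2 : η ≤ d / 6 := (min_le_right _ _).trans (min_le_left _ _)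
  have h3 : Real.pi * (4 * η) / d ≤ d := by
    rw [div_le_iff₀ hd0]
    have : η ≤ d * d / (4 * Real.pi) := (min_le_right _ _).trans (min_le_right _ _)
    rw [le_div_iff₀ (by positivity)] at this
    linarith
  have e1 : Real.pi * (4 * (η + e)) / d = Real.pi * (4 * η) / d + 4 * Real.pi / d * e := by ring
  have e2 : (4 + 8 * Real.pi / d) * e = 4 * e + 2 * (4 * Real.pi / d * e) := by ring
  linarith

end

end Vale.Agent.P232
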