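import Vale.Agent.P232.Axis
import Vale.Agent.P232.Band

/-! # P232: the tilted slice bounds in the three axis directions -/

namespace Vale.Agent.P232

noncomputable section

open MeasureTheory Set

namespace Axis

variable {w : (ℝ × ℝ × ℝ) → ℝ}

lemma bandC_nonneg (k : ℝ) : 0 ≤ bandC k :=
  intervalIntegral.integral_nonneg zero_le_one fun _ _ => Real.sqrt_nonneg _

lemma kfun_nonneg {k l x : ℝ} (hk : 0 ≤ k) (hl : 0 ≤ l) (hx : 0 ≤ x) : 0 ≤ kfun k l x :=
  le_min (le_min (Real.sqrt_nonneg _) (add_nonneg (bandC_nonneg k) (mul_nonneg hk hx)))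
    (le_min (add_nonneg (bandC_nonneg l) (mul_nonneg hl hx)) (Real.sqrt_nonneg _))

/-- The tilted bounds along the first axis. -/
lemma axisK_one {δ K : ℝ} (hδ : 0 < δ) (hK : 0 ≤ K)
    (hT : ∀ k l : ℝ, k ∈ Icc (0 : ℝ) 1 → l ∈ Icc (0 : ℝ) 1 → ∀ f, Dens2 f → ∀ y₀ z₀ : ℝ,
      2 * kfun k l (area2 f) ≤ tv2 f + 2 * k * (∫ z in (0 : ℝ)..1, f (y₀, z))
        + 2 * l * (∫ y in (0 : ℝ)..1, f (y, z₀)) + δ + K * area2 (fun p => f p * (1 - f p)))
    (hw : Dens w) {t₀ t₁ : ℝ} (h0 : ∀ t, secA w t₀ ≤ secA w t) (h1 : ∀ t, secA w t ≤ secA w t₁)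
    (y₀ z₀ : ℝ) :
    0 ≤ secA w t₀ ∧ secA w t₀ ≤ int3 w ∧ int3 w ≤ secA w t₁ ∧ secA w t₁ ≤ 1 ∧
      ∀ k l : ℝ, k ∈ Icc (0 : ℝ) 1 → l ∈ Icc (0 : ℝ) 1 →
        Low (kfun k l) (int3 w) (secA w t₀) (secA w t₁)
          (int3 (gnorm w) / 2 + δ + K * int3 (fun p => w p * (1 - w p))
            + (k * (∫ t in (0 : ℝ)..1, ∫ z in (0 : ℝ)..1, w (t, y₀, z))
              + l * ∫ t in (0 : ℝ)..1, ∫ y in (0 : ℝ)..1, w (t, y, z₀))) := by
  obtain ⟨hm, hM⟩ := mean_mem hw h0 h1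
  refine ⟨(secA_mem hw t₀).1, hm, hM, (secA_mem hw t₁).2, fun k l hk hl H C β hβc hβ => ?_⟩
  have hF : Continuous fun p => w p * (1 - w p) :=
    hw.smooth.continuous.mul (continuous_const.sub hw.smooth.continuous)
  have hE0 : ∀ t, 0 ≤ area2 fun q => w (t, q) * (1 - w (t, q)) := fun t =>
    intervalIntegral.integral_nonneg zero_le_one fun y _ =>
      intervalIntegral.integral_nonneg zero_le_one fun z _ =>
        mul_nonneg (hw.mem _).1 (sub_nonneg.2 (hw.mem _).2)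
  have hy : Continuous fun t => ∫ z in (0 : ℝ)..1, w (t, y₀, z) :=
    continuous_inner (F := fun p => w (p.1, y₀, p.2)) (hw.smooth.continuous.comp (by fun_prop))
  have hz : Continuous fun t => ∫ y in (0 : ℝ)..1, w (t, y, z₀) :=
    continuous_inner (F := fun p => w (p.1, p.2, z₀)) (hw.smooth.continuous.comp (by fun_prop))
  have hXc : Continuous fun t => δ / 2 + K / 2 * area2 fun q => w (t, q) * (1 - w (t, q)) :=
    continuous_const.add (continuous_const.mul (continuous_sec hF))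
  have hLc : Continuous fun t => k * (∫ z in (0 : ℝ)..1, w (t, y₀, z))
      + l * ∫ y in (0 : ℝ)..1, w (t, y, z₀) :=
    (continuous_const.mul hy).add (continuous_const.mul hz)
  have hlow := low_of_slices hw (h := fun x => max 0 (kfun k l x))
    (X := fun t => (δ / 2 + K / 2 * area2 fun q => w (t, q) * (1 - w (t, q)))
      + (k * (∫ z in (0 : ℝ)..1, w (t, y₀, z)) + l * ∫ y in (0 : ℝ)..1, w (t, y, z₀)))
    (fun x => le_max_left _ _) (hXc.add hLc)
    (fun t => add_nonneg (add_nonneg (by linarith) (mul_nonneg (by linarith) (hE0 t)))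
      (add_nonneg
        (mul_nonneg hk.1 (intervalIntegral.integral_nonneg zero_le_one fun z _ => (hw.mem _).1))
        (mul_nonneg hl.1 (intervalIntegral.integral_nonneg zero_le_one fun y _ => (hw.mem _).1))))
    (fun t => by
      rw [max_eq_right (kfun_nonneg hk.1 hl.1 (secA_mem hw t).1)]
      exact (hT k l hk hl _ (dens2_sec hw t) y₀ z₀).trans (le_of_eq (by simp only [sec]; ring)))
    h0 h1 (P := int3 (gnorm w) / 2 + δ + K * int3 (fun p => w p * (1 - w p))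
      + (k * (∫ t in (0 : ℝ)..1, ∫ z in (0 : ℝ)..1, w (t, y₀, z))
        + l * ∫ t in (0 : ℝ)..1, ∫ y in (0 : ℝ)..1, w (t, y, z₀))) (by
      rw [intervalIntegral.integral_add (hXc.intervalIntegrable _ _) (hLc.intervalIntegrable _ _),
        intervalIntegral.integral_add (f := fun t => k * ∫ z in (0 : ℝ)..1, w (t, y₀, z))
          (g := fun t => l * ∫ y in (0 : ℝ)..1, w (t, y, z₀))
          ((continuous_const.mul hy).intervalIntegrable _ _)
          ((continuous_const.mul hz).intervalIntegrable _ _),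
        intervalIntegral.integral_const_mul, intervalIntegral.integral_const_mul,
        int3_add_const hF]
      have hE : 0 ≤ int3 fun p => w p * (1 - w p) :=
        intervalIntegral.integral_nonneg zero_le_one fun t _ => hE0 t
      nlinarith)
  exact hlow H C β hβc fun x hx => by
    simp only [max_eq_right (kfun_nonneg hk.1 hl.1 ((secA_mem hw t₀).1.trans hx.1))]
    exact hβ x hx

end Axis

open Axis in
/-- In each axis and for all tilts, the least and greatest slice areas control the total variation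
through `Low`, at the price of the weighted least slice areas of the other two axes. -/
theorem axisK_bounds {δ : ℝ} (hδ : 0 < δ) : ∃ K : ℝ, 0 ≤ K ∧ ∀ w, Dens w →
    ∃ f a : Fin 3 → ℝ, ∀ i, 0 ≤ f i ∧ f i ≤ int3 w ∧ int3 w ≤ a i ∧ a i ≤ 1 ∧
      ∀ k l : ℝ, k ∈ Icc (0 : ℝ) 1 → l ∈ Icc (0 : ℝ) 1 →
        Low (kfun k l) (int3 w) (f i) (a i)
          (int3 (gnorm w) / 2 + δ + K * int3 (fun p => w p * (1 - w p))
            + (k * f (i + 1) + l * f (i + 2))) := by
  obtain ⟨K₀, hK₀, hT⟩ := torusK_lower hδ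
  refine ⟨K₀, hK₀, fun w hw => ?_⟩
  set u := fun p => w (swap₂ p) with hu
  set v := fun p => w (cyc₃ p) with hv
  have hud : Dens u := dens_comp hw _ fun e he => by
    rcases he with rfl | rfl | rfl <;> simp [swap₂_apply, e₁, e₂, e₃]
  have hvd : Dens v := dens_comp hw _ fun e he => by
    rcases he with rfl | rfl | rfl <;> simp [cyc₃_apply, e₁, e₂, e₃]
  have hw0 := hw.smooth.continuous
  have hF : Continuous fun p => w p * (1 - w p) := hw0.mul (continuous_const.sub hw0)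
  have hg : Continuous (gnorm w) :=
    ((((continuous_dir hw e₁).pow 2).add ((continuous_dir hw e₂).pow 2)).add
      ((continuous_dir hw e₃).pow 2)).sqrt
  obtain ⟨a₁, hm₁⟩ := exists_min hw
  obtain ⟨b₁, hM₁⟩ := exists_max hw
  obtain ⟨a₂, hm₂⟩ := exists_min hud
  obtain ⟨b₂, hM₂⟩ := exists_max hud
  obtain ⟨a₃, hm₃⟩ := exists_min hvd
  obtain ⟨b₃, hM₃⟩ := exists_max hvd
  obtain ⟨p₁, p₂, p₃, p₄, r₁⟩ := axisK_one hδ hK₀ hT hw hm₁ hM₁ a₂ a₃
  obtain ⟨q₁, q₂, q₃, q₄, r₂⟩ := axisK_one hδ hK₀ hT hud hm₂ hM₂ a₁ a₃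
  obtain ⟨s₁, s₂, s₃, s₄, r₃⟩ := axisK_one hδ hK₀ hT hvd hm₃ hM₃ a₁ a₂
  have gu : ∀ p, gnorm u p = gnorm w (swap₂ p) := fun p => by
    rw [gnorm_comp hw, gnorm]
    simp only [swap₂_apply, e₁, e₂, e₃]
    ring_nf
  have gv : ∀ p, gnorm v p = gnorm w (cyc₃ p) := fun p => by
    rw [gnorm_comp hw, gnorm]
    simp only [cyc₃_apply, e₁, e₂, e₃]
    ring_nf
  rw [show int3 u = int3 w from int3_swap₂ hw0] at q₂ q₃ r₂
  rw [
    show int3 (gnorm u) = int3 (gnorm w) by rw [show gnorm u = _ from funext gu]; exact int3_swap₂ hg,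
    show int3 (fun p => u p * (1 - u p)) = int3 fun p => w p * (1 - w p) from int3_swap₂ hF] at r₂
  rw [show int3 v = int3 w from int3_cyc₃ hw0] at s₂ s₃ r₃
  rw [
    show int3 (gnorm v) = int3 (gnorm w) by rw [show gnorm v = _ from funext gv]; exact int3_cyc₃ hg,
    show int3 (fun p => v p * (1 - v p)) = int3 fun p => w p * (1 - w p) from int3_cyc₃ hF] at r₃

  have c12 : ∫ t in (0 : ℝ)..1, ∫ y in (0 : ℝ)..1, u (t, y, a₃) = secA v a₃ :=
    integral_swap (G := fun p : ℝ × ℝ => w (p.2, p.1, a₃))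
      (hw0.comp (continuous_snd.prodMk (continuous_fst.prodMk continuous_const))) 0 1 zero_le_one
  have c31 : ∫ t in (0 : ℝ)..1, ∫ z in (0 : ℝ)..1, v (t, a₁, z) = secA w a₁ :=
    integral_swap (G := fun p : ℝ × ℝ => w (a₁, p.2, p.1))
      (hw0.comp (continuous_const.prodMk (continuous_snd.prodMk continuous_fst))) 0 1 zero_le_one
  have c32 : ∫ t in (0 : ℝ)..1, ∫ y in (0 : ℝ)..1, v (t, y, a₂) = secA u a₂ :=
    integral_swap (G := fun p : ℝ × ℝ => w (p.2, a₂, p.1))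
      (hw0.comp (continuous_snd.prodMk (continuous_const.prodMk continuous_fst))) 0 1 zero_le_one
  rw [show (∫ t in (0 : ℝ)..1, ∫ z in (0 : ℝ)..1, w (t, a₂, z)) = secA u a₂ from rfl,
    show (∫ t in (0 : ℝ)..1, ∫ y in (0 : ℝ)..1, w (t, y, a₃)) = secA v a₃ from rfl] at r₁
  rw [show (∫ t in (0 : ℝ)..1, ∫ z in (0 : ℝ)..1, u (t, a₁, z)) = secA w a₁ from rfl, c12] at r₂
  rw [c31, c32] at r₃
  refine ⟨![secA w a₁, secA u a₂, secA v a₃], ![secA w b₁, secA u b₂, secA v b₃], fun i => ?_⟩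
  fin_cases i
  · exact ⟨p₁, p₂, p₃, p₄, r₁⟩
  · refine ⟨q₁, q₂, q₃, q₄, fun k l hk hl => ?_⟩
    have e : kfun k l = kfun l k := funext fun x => by simp only [kfun]; ac_rfl
    have h := r₂ l k hl hk
    simpa [e, add_comm] using h
  · exact ⟨s₁, s₂, s₃, s₄, r₃⟩

end

end Vale.Agent.P232
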