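import Vale.Agent.P232.Calib

/-!
# P232: rational certificates on boxes of pairs (least slice area, greatest slice area)

Numbers are integers scaled by `10^7`.
-/

namespace Vale.Agent.P232

/-- A decision tree over rectangles in `(f, a)`. -/
inductive Tree : Type
  | leaf (H C ulo : ℤ) (ns : List (ℤ × ℤ)) : Tree
  | cutF (m : ℤ) (l r : Tree) : Tree
  | cutA (m : ℤ) (l r : Tree) : Tree
  | corner : Tree

/-- The scale. -/
def scale : ℤ := 10000000

/-- The line `H x + C` is below `gfun` at the node `x`, with room `y`. -/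
def nodeOk (H C x y : ℤ) : Bool :=
  decide (0 ≤ y ∧ y ≤ scale ∧
    (H * x + C * scale) ^ 2 ≤ (scale ^ 2 - y ^ 2) * (31415926 * x) ∧
    (H * x + C * scale) ^ 2 ≤ (scale ^ 2 - y ^ 2) * scale ^ 2 ∧
    (H * x + C * scale) ^ 2 ≤ (scale ^ 2 - y ^ 2) * (31415926 * (scale - x)))

/-- The nodes are admissible and strictly increasing. -/
def chainOk (H C : ℤ) : List (ℤ × ℤ) → Bool
  | [] => true
  | [p] => nodeOk H C p.1 p.2
  | p :: q :: r => nodeOk H C p.1 p.2 && decide (p.1 < q.1) && chainOk H C (q :: r)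

/-- Twice the trapezoidal sum. -/
def trap2 : List (ℤ × ℤ) → ℤ
  | [] => 0
  | [_] => 0
  | p :: q :: r => (q.1 - p.1) * (p.2 + q.2) + trap2 (q :: r)

/-- The last abscissa of a list of nodes starting at `p`. -/
def lastX : ℤ × ℤ → List (ℤ × ℤ) → ℤ
  | p, [] => p.1
  | _, q :: r => lastX q r

/-- The nodes run exactly from `lo` to `hi`, or there are none. -/
def spanOk (lo hi : ℤ) : List (ℤ × ℤ) → Bool
  | [] => true
  | p :: r => decide (p.1 = lo ∧ lastX p r = hi)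

/-- The inequality at the end of a tube leaf: `H u^2 + C + S ≥ sqrt π u` on `[ulo, uhi]`. -/
def tubeOk (H C ulo uhi f0 S : ℤ) : Bool :=
  decide (0 ≤ ulo ∧ ulo ^ 2 ≤ max 1551403 f0 * scale ∧ H ≤ 3 * scale ∧
    ((0 < H ∧ 2 * scale ^ 2 * 31415927 ≤ 4 * H * (2 * C * scale + S)) ∨
      (2 * 17724539 * ulo * scale ≤ 2 * H * ulo ^ 2 + 2 * C * scale ^ 2 + S * scale ∧
        2 * 17724539 * uhi * scale ≤ 2 * H * uhi ^ 2 + 2 * C * scale ^ 2 + S * scale ∧
        (H ≤ 0 ∨ 17724539 * scale ≤ 2 * H * ulo ∨ 2 * H * uhi ≤ 17724538 * scale))))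

/-- The inequality at the end of a slab leaf: `H v + C + S ≥ 1` for `3599500/10^7 ≤ v ≤ 1/2`. -/
def slabOk (H C S : ℤ) : Bool :=
  decide (2 * scale ^ 2 ≤ 2 * H * 3599500 + 2 * C * scale + S ∧
    2 * scale ^ 2 ≤ 2 * H * 5000000 + 2 * C * scale + S)

/-- The whole check; `slab` selects the final inequality, `uhi` the largest root of the volume. -/
def Tree.check (slab : Bool) (uhi : ℤ) : Tree → ℤ → ℤ → ℤ → ℤ → Bool
  | .leaf H C ulo ns, f0, f1, a0, a1 =>
      decide (0 ≤ f0 ∧ f0 < f1 ∧ a0 < a1 ∧ a1 ≤ scale ∧ f0 < a1) && spanOk f1 a0 ns &&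
        chainOk H C ((f0, 0) :: (ns ++ [(a1, 0)])) &&
        (bif slab then slabOk H C (trap2 ns) else tubeOk H C ulo uhi f0 (trap2 ns))
  | .cutF m l r, f0, f1, a0, a1 => l.check slab uhi f0 m a0 a1 && r.check slab uhi m f1 a0 a1
  | .cutA m l r, f0, f1, a0, a1 => l.check slab uhi f0 f1 a0 m && r.check slab uhi f0 f1 m a1
  | .corner, f0, f1, a0, a1 =>
      slab && decide (0 ≤ f0 ∧ f1 ≤ 500 ∧ 9999500 ≤ a0 ∧ a1 ≤ scale)

end Vale.Agent.P232
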