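import Vale.Agent.P232.Calib

/-! # P232: almost constant slices of a slab -/

namespace Vale.Agent.P232

noncomputable section

open Real MeasureTheory

lemma gfun_sq_ge {x : ℝ} (h0 : 0 ≤ x) (h1 : x ≤ 1) : 2 * (x * (1 - x)) ≤ gfun x ^ 2 := by
  unfold gfun
  have hp := Real.two_le_pi
  have hx : 0 ≤ x * (1 - x) := mul_nonneg h0 (by linarith)
  rcases min_choice (min √(π * x) 1) √(π * (1 - x)) with e | e <;> rw [e]
  · rcases min_choice √(π * x) 1 with e' | e' <;> rw [e']
    · rw [Real.sq_sqrt (by positivity)]; nlinarith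
    · nlinarith [sq_nonneg (2 * x - 1)]
  · rw [Real.sq_sqrt (mul_nonneg Real.pi_pos.le (by linarith))]; nlinarith

lemma log_le_root {y : ℝ} (hy : 0 < y) : Real.log y ≤ 4 * √(√y) := by
  have h1 : Real.log (√(√y)) = Real.log y / 4 := by
    rw [Real.log_sqrt (Real.sqrt_nonneg _), Real.log_sqrt hy.le]; ring
  have h2 := Real.log_le_sub_one_of_pos (x := √(√y)) (by positivity)
  linarith

lemma integral_div_le {c b : ℝ} (hc : 0 ≤ c) (hc' : c ≤ 1 / 20000) (hcb : c ≤ b) (hb : b ≤ 1) :
    c + (∫ x in c..b, c / x) ≤ 7 / 20 * √c := by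
  rcases hc.eq_or_lt with rfl | hc0
  · simp
  have hb0 : 0 < b := hc0.trans_le hcb
  have e : (∫ x in c..b, c / x) = c * Real.log (b / c) := by
    simp_rw [div_eq_mul_inv c]
    rw [intervalIntegral.integral_const_mul, integral_inv_of_pos hc0 hb0]
  rw [e]
  set t := √(√c) with ht
  have ht0 : 0 < t := by positivity
  have ht2 : t ^ 2 = √c := Real.sq_sqrt (Real.sqrt_nonneg _)
  have ht4 : t ^ 4 = c := by
    rw [show t ^ 4 = (t ^ 2) ^ 2 by ring, ht2, Real.sq_sqrt hc]
  have ht1 : t ≤ 841 / 10000 := by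
    rw [← abs_of_pos ht0]
    refine abs_le_of_sq_le_sq ?_ (by norm_num)
    refine (sq_le_sq₀ (sq_nonneg _) (by norm_num)).1 ?_
    rw [← pow_mul, ht4]
    norm_num
    linarith
  have h1 : Real.log (b / c) ≤ 4 * t⁻¹ := by
    refine (log_le_root (div_pos hb0 hc0)).trans (mul_le_mul_of_nonneg_left ?_ (by norm_num))
    rw [ht, ← Real.sqrt_inv, ← Real.sqrt_inv]
    refine Real.sqrt_le_sqrt (Real.sqrt_le_sqrt ?_)
    rw [div_eq_mul_inv]
    exact mul_le_of_le_one_left (by positivity) hb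
  have h2 := mul_le_mul_of_nonneg_left h1 hc
  rw [← ht2]
  have h3 : c * (4 * t⁻¹) = 4 * t ^ 3 := by rw [← ht4]; field_simp
  rw [h3] at h2
  rw [← ht4] at h2 ⊢
  nlinarith [mul_le_mul_of_nonneg_left ht1 (sq_nonneg t),
    mul_le_mul_of_nonneg_left (mul_self_le_mul_self ht0.le ht1) (sq_nonneg t)]

/-- The pointwise inequality near the slab. -/
lemma corner_pt {f c x : ℝ} (hf : 0 ≤ f) (hc : 0 ≤ c) (h1 : f ≤ x) (h2 : c ≤ 1 - x) :
    0 ≤ max 0 (1 - (f / x + c / (1 - x))) ∧
      ((√c - √f) * x + √f) ^ 2 + gfun x ^ 2 * max 0 (1 - (f / x + c / (1 - x))) ^ 2 ≤ gfun x ^ 2 ∧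
      max 0 (1 - (f / x + c / (1 - x))) ≤ 1 := by
  have x0 : 0 ≤ x := hf.trans h1
  have x1 : 0 ≤ 1 - x := hc.trans h2
  have hg := gfun_sq_ge x0 (by linarith : x ≤ 1)
  generalize gfun x ^ 2 = g2 at hg ⊢
  have k1 : f * (1 - x) ≤ f / x * (x * (1 - x)) := by
    rcases x0.eq_or_lt with h | h
    · have : f = 0 := by linarith
      simp [this]
    · rw [← mul_assoc, div_mul_cancel₀ _ h.ne']
  have k2 : c * x ≤ c / (1 - x) * (x * (1 - x)) := by
    rcases x1.eq_or_lt with h | h
    · have : c = 0 := by linarith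
      simp [this]
    · rw [mul_comm x, ← mul_assoc, div_mul_cancel₀ _ h.ne']
  have hr0 : 0 ≤ f / x + c / (1 - x) := by positivity
  generalize hu : f / x = u at k1 hr0 ⊢
  generalize hw : c / (1 - x) = w at k2 hr0 ⊢
  have hu0 : 0 ≤ u := hu ▸ div_nonneg hf x0
  have hw0 : 0 ≤ w := hw ▸ div_nonneg hc x1
  refine ⟨le_max_left _ _, ?_, max_le zero_le_one (by linarith)⟩
  have hxx : 0 ≤ x * (1 - x) := mul_nonneg x0 x1
  have a2 := Real.sq_sqrt hf
  have b2 := Real.sq_sqrt hc
  have ub : ((√c - √f) * x + √f) ^ 2 ≤ 2 * (f * (1 - x) ^ 2 + c * x ^ 2) := by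
    nlinarith [sq_nonneg (√f * (1 - x) - √c * x)]
  have t1 : f * (1 - x) ^ 2 ≤ u * (x * (1 - x)) := by
    rw [sq, ← mul_assoc]
    exact (mul_le_mul_of_nonneg_right k1 x1).trans
      (mul_le_of_le_one_right (mul_nonneg hu0 hxx) (by linarith))
  have t2 : c * x ^ 2 ≤ w * (x * (1 - x)) := by
    rw [sq, ← mul_assoc]
    exact (mul_le_mul_of_nonneg_right k2 x0).trans
      (mul_le_of_le_one_right (mul_nonneg hw0 hxx) (by linarith))
  rcases le_or_gt (u + w) 1 with hr1 | hr1
  · rw [max_eq_right (by linarith)]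
    have s2 : u + w ≤ 1 - (1 - (u + w)) ^ 2 := by nlinarith
    have s3 := mul_le_mul_of_nonneg_left hg (hr0.trans s2)
    have s4 := mul_le_mul_of_nonneg_right s2 hxx
    linarith
  · rw [max_eq_left (by linarith)]
    have t3 : f * (1 - x) ^ 2 ≤ x * (1 - x) * (1 - x) := by
      rw [sq, ← mul_assoc]
      exact mul_le_mul_of_nonneg_right (mul_le_mul_of_nonneg_right h1 x1) x1
    have t4 : c * x ^ 2 ≤ x * (1 - x) * x := by
      rw [sq, ← mul_assoc, mul_comm x (1 - x)]
      exact mul_le_mul_of_nonneg_right (mul_le_mul_of_nonneg_right h2 x0) x0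
    linarith

/-- The calibration near the slab. -/
lemma corner_bound {v f a P : ℝ} (hf : 0 ≤ f) (hf' : f ≤ 1 / 20000) (ha : 1 - 1 / 20000 ≤ a)
    (ha' : a ≤ 1) (hv : 35995 / 100000 ≤ v) (hv' : v ≤ 1 / 2) (hP : Low gfun v f a P) :
    1 ≤ P := by
  set c := 1 - a with hcdef
  have hc : 0 ≤ c := by linarith
  have hc' : c ≤ 1 / 20000 := by linarith
  have hfa : f ≤ a := by linarith
  have hcon1 : ContinuousOn (fun x : ℝ => f / x) (Set.Icc f a) := by
    rcases hf.eq_or_lt with rfl | h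
    · simp [continuousOn_const]
    · exact continuousOn_const.div continuousOn_id fun x hx => (h.trans_le hx.1).ne'
  have hcon2 : ContinuousOn (fun x : ℝ => c / (1 - x)) (Set.Icc f a) := by
    rcases hc.eq_or_lt with h | h
    · simp [← h, continuousOn_const]
    · exact continuousOn_const.div (continuousOn_const.sub continuousOn_id) fun x hx => by
        rw [Set.mem_Icc] at hx
        linarith
  have hcon : ContinuousOn (fun x : ℝ => max 0 (1 - (f / x + c / (1 - x)))) (Set.Icc f a) :=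
    continuousOn_const.sup (continuousOn_const.sub (hcon1.add hcon2))
  have main := hP (√c - √f) √f _ hcon fun x hx =>
    corner_pt hf hc hx.1 (by linarith [hx.2])
  have hi : a - f - ((∫ x in f..a, f / x) + ∫ x in f..a, c / (1 - x)) ≤
      ∫ x in f..a, max 0 (1 - (f / x + c / (1 - x))) := by
    have i1 := hcon1.intervalIntegrable_of_Icc hfa (μ := volume)
    have i2 := hcon2.intervalIntegrable_of_Icc hfa (μ := volume)
    rw [← intervalIntegral.integral_add i1 i2]
    calc a - f - (∫ x in f..a, (f / x + c / (1 - x)))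
        = ∫ x in f..a, (1 - (f / x + c / (1 - x))) := by
          rw [intervalIntegral.integral_sub intervalIntegrable_const (i1.add i2)]
          simp
      _ ≤ _ := intervalIntegral.integral_mono_on hfa
          (intervalIntegrable_const.sub (i1.add i2)) (hcon.intervalIntegrable_of_Icc hfa)
          fun x _ => le_max_right _ _
  have e2 : (∫ x in f..a, c / (1 - x)) = ∫ x in c..(1 - f), c / x :=
    intervalIntegral.integral_comp_sub_left (fun x => c / x) 1
  have l1 := integral_div_le hf hf' hfa ha'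
  have l2 := integral_div_le hc hc' (show c ≤ 1 - f by linarith) (by linarith)
  rw [e2] at hi
  nlinarith [mul_nonneg (Real.sqrt_nonneg f) (show 0 ≤ (1 - v) - 7 / 20 by linarith),
    mul_nonneg (Real.sqrt_nonneg c) (show 0 ≤ v - 7 / 20 by linarith)]

end

end Vale.Agent.P232
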