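import Vale.Agent.P232.CertSound
import Vale.Agent.P232.Corner
import Vale.Agent.P232.Ball
import Vale.Agent.P232.CertTube
import Vale.Agent.P232.CertSlab

/-! # P232: what the certificates prove -/

namespace Vale.Agent.P232

noncomputable section

open Real

lemma sqrt_pi_bounds : (17724538 : ℝ) / 10000000 ≤ √π ∧ √π ≤ 17724539 / 10000000 := by
  constructor
  · exact Real.le_sqrt_of_sq_le (by linarith [Real.pi_gt_d20])
  · exact Real.sqrt_le_iff.2 ⟨by norm_num, by linarith [Real.pi_lt_d20]⟩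

/-- What the end inequality of a tube leaf gives. -/
lemma tubeOk_sound {H C ulo f0 S : ℤ} {uhi : ℤ} (h : tubeOk H C ulo uhi f0 S = true) {v : ℝ}
    (hv0 : 0 ≤ v) (hf : sc f0 ≤ v) (hu : v ≤ sc uhi ^ 2) (hhi : 0 ≤ uhi)
    (hw : 4 * π / 81 ≤ sc uhi ^ 2) :
    min (ballF v) √(π * v) ≤ sc H * v + sc C + (S : ℝ) / (2 * 10000000 ^ 2) := by
  replace h := of_decide_eq_true h
  simp only [scale] at h
  obtain ⟨h0, h1, h2, h3⟩ := h
  obtain ⟨slo, shi⟩ := sqrt_pi_bounds
  set K := sc C + (S : ℝ) / (2 * 10000000 ^ 2) with hK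
  suffices min (ballF v) √(π * v) ≤ sc H * v + K by linarith
  have hH3 : sc H ≤ 3 := by
    rw [sc, div_le_iff₀ (by norm_num)]
    exact_mod_cast h2
  have hulo : 0 ≤ sc ulo := div_nonneg (Int.cast_nonneg h0) (by norm_num)
  have hsp : 0 ≤ √π := Real.sqrt_nonneg _
  -- the tube inequality above `ulo`
  have tube : ∀ w : ℝ, sc ulo ^ 2 ≤ w → w ≤ sc uhi ^ 2 → √(π * w) ≤ sc H * w + K := by
    intro w w1 w2
    have hw : 0 ≤ w := (sq_nonneg _).trans w1
    set u := √w with hu'
    have hwu : w = u ^ 2 := (Real.sq_sqrt hw).symm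
    have u1 : sc ulo ≤ u := Real.le_sqrt_of_sq_le w1
    have u2 : u ≤ sc uhi :=
      Real.sqrt_le_iff.2 ⟨div_nonneg (Int.cast_nonneg hhi) (by norm_num), w2⟩
    rw [Real.sqrt_mul Real.pi_pos.le, ← hu', hwu]
    have hu0 : 0 ≤ u := Real.sqrt_nonneg _
    rcases h3 with ⟨p1, p2⟩ | ⟨p1, p2, p3⟩
    · have q1 : 0 < sc H := div_pos (Int.cast_pos.2 p1) (by norm_num)
      have q2 : (2 * 10000000 ^ 2 * 31415927 : ℝ) ≤
          4 * (H : ℝ) * (2 * C * 10000000 + S) := by exact_mod_cast p2
      have q3 : π ≤ 4 * sc H * K := by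
        have e : 4 * sc H * K = 4 * (H : ℝ) * (2 * C * 10000000 + S) / (2 * 10000000 ^ 3) := by
          rw [hK, sc, sc]; ring
        rw [e, le_div_iff₀ (by norm_num)]
        nlinarith [Real.pi_lt_d20]
      nlinarith [sq_nonneg (2 * sc H * u - √π), Real.sq_sqrt Real.pi_pos.le]
    · have e1 : ∀ U : ℤ, (2 * 17724539 * U * 10000000 : ℤ) ≤
          2 * H * U ^ 2 + 2 * C * 10000000 ^ 2 + S * 10000000 → 0 ≤ sc U →
          √π * sc U ≤ sc H * sc U ^ 2 + K := by
        intro U hU hU0
        have hU' : (2 * 17724539 * (U : ℝ) * 10000000) ≤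
            2 * H * (U : ℝ) ^ 2 + 2 * C * 10000000 ^ 2 + S * 10000000 := by exact_mod_cast hU
        refine (mul_le_mul_of_nonneg_right shi hU0).trans ?_
        have e : sc H * sc U ^ 2 + K =
            (2 * H * (U : ℝ) ^ 2 + 2 * C * 10000000 ^ 2 + S * 10000000) / (2 * 10000000 ^ 3) := by
          rw [hK, sc, sc, sc]; ring
        rw [e, show (17724539 : ℝ) / 10000000 * sc U
          = (2 * 17724539 * (U : ℝ) * 10000000) / (2 * 10000000 ^ 3) by rw [sc]; ring]
        exact div_le_div_of_nonneg_right hU' (by norm_num)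
      have b1 := e1 ulo p1 hulo
      have b2 := e1 uhi p2 (hulo.trans (u1.trans u2))
      rcases p3 with p3 | p3 | p3
      · have : sc H ≤ 0 := div_nonpos_of_nonpos_of_nonneg (Int.cast_nonpos.2 p3) (by norm_num)
        rcases (u1.trans u2).eq_or_lt with heq | hlt
        · have : u = sc ulo := le_antisymm (u2.trans heq.ge) u1
          rw [this]; exact b1
        · have key : 0 ≤ (sc H * u ^ 2 + K - √π * u) * (sc uhi - sc ulo) := by
            have e : (sc H * u ^ 2 + K - √π * u) * (sc uhi - sc ulo) =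
                (sc H * sc ulo ^ 2 + K - √π * sc ulo) * (sc uhi - u) +
                (sc H * sc uhi ^ 2 + K - √π * sc uhi) * (u - sc ulo) +
                (-sc H) * ((u - sc ulo) * (sc uhi - u) * (sc uhi - sc ulo)) := by ring
            rw [e]
            exact add_nonneg (add_nonneg (mul_nonneg (by linarith) (by linarith))
              (mul_nonneg (by linarith) (by linarith)))
              (mul_nonneg (by linarith)
                (mul_nonneg (mul_nonneg (by linarith) (by linarith)) (by linarith)))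
          nlinarith [(mul_nonneg_iff_of_pos_right (sub_pos.2 hlt)).1 key]
      · have q : √π ≤ 2 * sc H * sc ulo := by
          refine shi.trans ?_
          have : (17724539 * 10000000 : ℝ) ≤ 2 * H * ulo := by exact_mod_cast p3
          rw [sc, sc]; linarith
        have hpos : 0 < sc H := by
          by_contra hn
          nlinarith [mul_nonpos_of_nonpos_of_nonneg (not_lt.1 hn) hulo]
        have key : √π ≤ sc H * (u + sc ulo) := by nlinarith
        nlinarith [mul_le_mul_of_nonneg_right key (sub_nonneg.2 u1)]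
      · have q : 2 * sc H * sc uhi ≤ √π := by
          refine le_trans ?_ slo
          have : (2 * H * uhi : ℝ) ≤ 17724538 * 10000000 := by exact_mod_cast p3
          rw [sc, sc]; linarith
        rcases le_or_gt (sc H) 0 with hn | hn
        · have key : sc H * (u + sc uhi) ≤ √π :=
            (mul_nonpos_of_nonpos_of_nonneg hn (by linarith)).trans hsp
          nlinarith [mul_le_mul_of_nonneg_right key (sub_nonneg.2 u2)]
        · have key : sc H * (u + sc uhi) ≤ √π := by nlinarith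
          nlinarith [mul_le_mul_of_nonneg_right key (sub_nonneg.2 u2)]
  have hm : (ulo : ℝ) ^ 2 ≤ max 1551403 (f0 : ℝ) * 10000000 := by exact_mod_cast h1
  have hulo2 : sc ulo ^ 2 ≤ max (1551403 / 10000000) (sc f0) := by
    rw [sc, sc, div_pow, max_div_div_right (by norm_num : (0 : ℝ) ≤ 10000000),
      div_le_div_iff₀ (by norm_num) (by norm_num)]
    nlinarith
  have hvs : (1551403 : ℝ) / 10000000 ≤ 4 * π / 81 := by linarith [Real.pi_gt_d20]
  rcases le_or_gt (4 * π / 81) v with c | c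
  · exact (min_le_right _ _).trans
      (tube v (hulo2.trans (max_le (hvs.trans c) hf)) hu)
  · -- below the transition the ball is cheaper and the line is flatter
    have h := tube (4 * π / 81) (hulo2.trans (max_le hvs (hf.trans c.le))) hw
    have e : √(π * (4 * π / 81)) = 2 * π / 9 := by
      rw [show π * (4 * π / 81) = (2 * π / 9) ^ 2 by ring, Real.sqrt_sq (by positivity)]
    rw [e] at h
    refine (min_le_left _ _).trans ((ballF_le_line hv0).trans ?_)
    nlinarith [mul_le_mul_of_nonneg_right hH3 (sub_nonneg.2 c.le)]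

/-- What a checked tree proves for tubes. -/
lemma tube_tree {uhi : ℤ} (hhi : 0 ≤ uhi) {v f a P : ℝ} (hfv : f ≤ v) (hva : v ≤ a) (hf0 : 0 ≤ f)
    (hu : v ≤ sc uhi ^ 2) (hw : 4 * π / 81 ≤ sc uhi ^ 2) (hP : Low gfun v f a P) :
    ∀ (T : Tree) (f0 f1 a0 a1 : ℤ), T.check false uhi f0 f1 a0 a1 = true →
      sc f0 ≤ f → f ≤ sc f1 → sc a0 ≤ a → a ≤ sc a1 → min (ballF v) √(π * v) ≤ P
  | .leaf H C ulo ns, f0, f1, a0, a1, h, hf, hf', ha, ha' => by
    simp only [Tree.check, cond_false, Bool.and_eq_true, decide_eq_true_eq] at h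
    obtain ⟨⟨⟨hd, hs⟩, hc⟩, he⟩ := h
    exact (tubeOk_sound he (hf0.trans hfv) (hf.trans hfv) hu hhi hw).trans
      (leaf_calib hd hs hc hf hf' ha ha' (hfv.trans hva) hP)
  | .cutF m l r, f0, f1, a0, a1, h, hf, hf', ha, ha' => by
    simp only [Tree.check, Bool.and_eq_true] at h
    rcases le_total f (sc m) with c | c
    · exact tube_tree hhi hfv hva hf0 hu hw hP l _ _ _ _ h.1 hf c ha ha'
    · exact tube_tree hhi hfv hva hf0 hu hw hP r _ _ _ _ h.2 c hf' ha ha'
  | .cutA m l r, f0, f1, a0, a1, h, hf, hf', ha, ha' => by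
    simp only [Tree.check, Bool.and_eq_true] at h
    rcases le_total a (sc m) with c | c
    · exact tube_tree hhi hfv hva hf0 hu hw hP l _ _ _ _ h.1 hf hf' ha c
    · exact tube_tree hhi hfv hva hf0 hu hw hP r _ _ _ _ h.2 hf hf' c ha'
  | .corner, f0, f1, a0, a1, h, _, _, _, _ => by simp [Tree.check] at h

/-- What a checked tree proves for slabs. -/
lemma slab_tree {v f a P : ℝ} (hfv : f ≤ v) (hva : v ≤ a) (h1 : 35995 / 100000 ≤ v)
    (h2 : v ≤ 1 / 2) (hP : Low gfun v f a P) :
    ∀ (T : Tree) (f0 f1 a0 a1 : ℤ), T.check true 0 f0 f1 a0 a1 = true →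
      sc f0 ≤ f → f ≤ sc f1 → sc a0 ≤ a → a ≤ sc a1 → 1 ≤ P
  | .leaf H C ulo ns, f0, f1, a0, a1, h, hf, hf', ha, ha' => by
    simp only [Tree.check, cond_true, slabOk, Bool.and_eq_true, decide_eq_true_eq] at h
    obtain ⟨⟨⟨hd, hs⟩, hc⟩, he⟩ := h
    simp only [scale] at he
    obtain ⟨he1, he2⟩ := he
    refine le_trans ?_ (leaf_calib hd hs hc hf hf' ha ha' (hfv.trans hva) hP)
    have r1 : (2 * 10000000 ^ 2 : ℝ) ≤ 2 * H * 3599500 + 2 * C * 10000000 + trap2 ns := by
      exact_mod_cast he1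
    have r2 : (2 * 10000000 ^ 2 : ℝ) ≤ 2 * H * 5000000 + 2 * C * 10000000 + trap2 ns := by
      exact_mod_cast he2
    simp only [sc]
    rcases le_total (0 : ℝ) H with c | c
    · nlinarith [mul_le_mul_of_nonneg_left h1 c]
    · nlinarith [mul_le_mul_of_nonpos_left h2 c]
  | .cutF m l r, f0, f1, a0, a1, h, hf, hf', ha, ha' => by
    simp only [Tree.check, Bool.and_eq_true] at h
    rcases le_total f (sc m) with c | c
    · exact slab_tree hfv hva h1 h2 hP l _ _ _ _ h.1 hf c ha ha'
    · exact slab_tree hfv hva h1 h2 hP r _ _ _ _ h.2 c hf' ha ha'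
  | .cutA m l r, f0, f1, a0, a1, h, hf, hf', ha, ha' => by
    simp only [Tree.check, Bool.and_eq_true] at h
    rcases le_total a (sc m) with c | c
    · exact slab_tree hfv hva h1 h2 hP l _ _ _ _ h.1 hf hf' ha c
    · exact slab_tree hfv hva h1 h2 hP r _ _ _ _ h.2 hf hf' c ha'
  | .corner, f0, f1, a0, a1, h, hf, hf', ha, ha' => by
    simp only [Tree.check, Bool.and_eq_true, decide_eq_true_eq] at h
    simp only [scale] at h
    obtain ⟨-, h0, h3, h4, h5⟩ := h
    have r0 : (0 : ℝ) ≤ sc f0 := div_nonneg (Int.cast_nonneg h0) (by norm_num)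
    have r3 : sc f1 ≤ 1 / 20000 := by
      have : (f1 : ℝ) ≤ 500 := by exact_mod_cast h3
      rw [sc]; linarith
    have r4 : 1 - 1 / 20000 ≤ sc a0 := by
      have : (9999500 : ℝ) ≤ a0 := by exact_mod_cast h4
      rw [sc]; linarith
    have r5 : sc a1 ≤ 1 := by
      have : (a1 : ℝ) ≤ 10000000 := by exact_mod_cast h5
      rw [sc]; linarith
    exact corner_bound (r0.trans hf) (hf'.trans r3) (r4.trans ha) (ha'.trans r5) h1 h2 hP

/-- The certified tube and ball range. -/
theorem tube_cert {v f a P : ℝ} (hf : 59171 / 10000000 ≤ f) (hfv : f ≤ v) (hva : v ≤ a)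
    (hv : v ≤ 264 / 1000) (ha : 1 / π ≤ a) (ha' : a ≤ 1) (hP : Low gfun v f a P) :
    min (ballF v) √(π * v) ≤ P := by
  refine tube_tree (by norm_num) hfv hva (by linarith) ?_ ?_ hP tubeTree 59171 2640000 3183098
    10000000 tubeTree_ok ?_ ?_ ?_ ?_
  · rw [sc]; norm_num; linarith
  · rw [sc]; norm_num; linarith [Real.pi_lt_d20]
  · rw [sc]; norm_num; linarith
  · rw [sc]; norm_num; linarith
  · refine le_trans ?_ ha
    rw [sc, le_div_iff₀ Real.pi_pos]
    push_cast
    nlinarith [Real.pi_lt_d20]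
  · rw [sc]; norm_num; linarith

/-- The certified slab range. -/
theorem slab_cert {v f a P : ℝ} (hf : 0 ≤ f) (hfv : f ≤ v) (hva : v ≤ a)
    (h1 : 35995 / 100000 ≤ v) (h2 : v ≤ 1 / 2) (ha' : a ≤ 1) (hP : Low gfun v f a P) : 1 ≤ P := by
  rcases le_total f (sc 3183099) with c | c
  · exact slab_tree hfv hva h1 h2 hP slabLow _ _ _ _ slabLow_ok (by simpa [sc] using hf) c
      (by rw [sc]; norm_num; linarith) (by rw [sc]; norm_num; linarith)
  rcases le_total a (sc 6816901) with d | d
  · exact slab_tree hfv hva h1 h2 hP slabMid _ _ _ _ slabMid_ok c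
      (by rw [sc]; norm_num; linarith) (by rw [sc]; norm_num; linarith) d
  · exact slab_tree hfv hva h1 h2 hP slabHigh _ _ _ _ slabHigh_ok c
      (by rw [sc]; norm_num; linarith) d (by rw [sc]; norm_num; linarith)

end

end Vale.Agent.P232
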