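import Vale.Agent.P232.Interp

/-! # P232: piecewise linear calibrations from node lists -/

namespace Vale.Agent.P232

noncomputable section

open Real MeasureTheory

/-- The piecewise linear interpolant through the scaled nodes. -/
def pl : List (ℤ × ℤ) → ℝ → ℝ
  | [], _ => 0
  | [p], _ => sc p.2
  | p :: q :: r, x =>
      if x ≤ sc q.1 then sc p.2 + (x - sc p.1) * ((sc q.2 - sc p.2) / (sc q.1 - sc p.1))
      else pl (q :: r) x

lemma sc_lt {x y : ℤ} (h : x < y) : sc x < sc y :=
  div_lt_div_of_pos_right (Int.cast_lt.2 h) (by norm_num)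

lemma sc_le {x y : ℤ} (h : x ≤ y) : sc x ≤ sc y :=
  div_le_div_of_nonneg_right (Int.cast_le.2 h) (by norm_num)

lemma pl_head {H C : ℤ} {p : ℤ × ℤ} {r : List (ℤ × ℤ)} (h : chainOk H C (p :: r) = true) :
    pl (p :: r) (sc p.1) = sc p.2 := by
  cases r with
  | nil => rfl
  | cons q r =>
    simp only [chainOk, Bool.and_eq_true, decide_eq_true_eq] at h
    rw [pl, if_pos (sc_le h.1.2.le)]
    simp

lemma pl_cons {H C : ℤ} {p q : ℤ × ℤ} {r : List (ℤ × ℤ)} (h : chainOk H C (q :: r) = true)
    (hpq : p.1 < q.1) {x : ℝ} (hx : sc q.1 ≤ x) : pl (p :: q :: r) x = pl (q :: r) x := by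
  rw [pl]
  split_ifs with c
  · have e := le_antisymm c hx
    subst e
    rw [pl_head h, mul_div_cancel₀ _ (sub_ne_zero.2 (sc_lt hpq).ne')]
    ring
  · rfl

lemma continuous_pl {H C : ℤ} : ∀ L : List (ℤ × ℤ), chainOk H C L = true → Continuous (pl L)
  | [], _ => continuous_const (y := (0 : ℝ))
  | [p], _ => continuous_const (y := sc p.2)
  | p :: q :: r, h => by
    simp only [chainOk, Bool.and_eq_true, decide_eq_true_eq] at h
    refine Continuous.congr ?_ fun x => by rw [pl]
    refine Continuous.if_le (by fun_prop) (continuous_pl (q :: r) h.2) continuous_id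
      continuous_const fun x hx => ?_
    subst hx
    rw [pl_head h.2, mul_div_cancel₀ _ (sub_ne_zero.2 (sc_lt h.1.2).ne')]
    ring

lemma lastX_ge {H C : ℤ} : ∀ (p : ℤ × ℤ) (r : List (ℤ × ℤ)), chainOk H C (p :: r) = true →
    p.1 ≤ lastX p r
  | p, [], _ => le_refl _
  | p, q :: r, h => by
    simp only [chainOk, Bool.and_eq_true, decide_eq_true_eq] at h
    exact le_trans h.1.2.le (lastX_ge q r h.2)

lemma lastX_append : ∀ (p : ℤ × ℤ) (r : List (ℤ × ℤ)) (z : ℤ × ℤ), lastX p (r ++ [z]) = z.1
  | _, [], _ => rfl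
  | _, q :: r, z => lastX_append q r z

/-- Every value of the interpolant is admissible. -/
lemma adm_pl {H C : ℤ} : ∀ (p : ℤ × ℤ) (r : List (ℤ × ℤ)), chainOk H C (p :: r) = true →
    0 ≤ p.1 → lastX p r ≤ 10000000 → ∀ x, sc p.1 ≤ x → x ≤ sc (lastX p r) →
    Adm (sc H) (sc C) x (pl (p :: r) x)
  | p, [], h, _, _, x, hx, hx' => by
    have e : x = sc p.1 := le_antisymm hx' hx
    subst e
    exact adm_of_nodeOk h
  | p, q :: r, h, h0, h1, x, hx, hx' => by
    simp only [chainOk, Bool.and_eq_true, decide_eq_true_eq] at h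
    rcases le_total x (sc q.1) with c | c
    · rw [pl, if_pos c]
      have hq : nodeOk H C q.1 q.2 = true := by
        cases r with
        | nil => exact h.2
        | cons z r =>
          have h2 := h.2
          simp only [chainOk, Bool.and_eq_true] at h2
          exact h2.1.1
      refine (adm_of_nodeOk h.1.1).interp (adm_of_nodeOk hq) ?_ ?_ hx c (sc_lt h.1.2)
      · exact div_nonneg (Int.cast_nonneg h0) (by norm_num)
      · rw [sc, div_le_one (by norm_num)]
        exact_mod_cast le_trans (lastX_ge q r h.2) h1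
    · rw [pl_cons h.2 h.1.2 c]
      exact adm_pl q r h.2 (h0.trans h.1.2.le) h1 x c hx'

lemma pl_append {H C : ℤ} : ∀ (p : ℤ × ℤ) (r : List (ℤ × ℤ)) (z : ℤ × ℤ),
    chainOk H C (p :: (r ++ [z])) = true → ∀ x, sc p.1 ≤ x → x ≤ sc (lastX p r) →
    pl (p :: (r ++ [z])) x = pl (p :: r) x
  | p, [], z, h, x, hx, hx' => by
    have e : x = sc p.1 := le_antisymm hx' hx
    subst e
    exact pl_head h
  | p, q :: r, z, h, x, hx, hx' => by
    rw [List.cons_append] at h ⊢
    simp only [chainOk, Bool.and_eq_true, decide_eq_true_eq] at h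
    rw [pl, pl]
    split_ifs with c
    · rfl
    · exact pl_append q r z h.2 x (le_of_lt (not_le.1 c)) hx'

lemma chainOk_left {H C : ℤ} : ∀ (r : List (ℤ × ℤ)) (z : ℤ × ℤ),
    chainOk H C (r ++ [z]) = true → chainOk H C r = true
  | [], _, _ => rfl
  | [p], z, h => by
    simp only [List.cons_append, List.nil_append, chainOk, Bool.and_eq_true] at h
    exact h.1.1
  | p :: q :: r, z, h => by
    rw [List.cons_append, List.cons_append] at h
    simp only [chainOk, Bool.and_eq_true, decide_eq_true_eq] at h ⊢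
    exact ⟨h.1, chainOk_left (q :: r) z (by rw [List.cons_append]; exact h.2)⟩

/-- The integral of the interpolant is the trapezoidal sum. -/
lemma integral_pl {H C : ℤ} : ∀ (p : ℤ × ℤ) (r : List (ℤ × ℤ)), chainOk H C (p :: r) = true →
    (∫ x in sc p.1..sc (lastX p r), pl (p :: r) x) = (trap2 (p :: r) : ℝ) / (2 * 10000000 ^ 2)
  | p, [], _ => by simp [lastX, trap2]
  | p, q :: r, h => by
    have hc := continuous_pl (p :: q :: r) h
    simp only [chainOk, Bool.and_eq_true, decide_eq_true_eq] at h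
    rw [lastX, ← intervalIntegral.integral_add_adjacent_intervals (b := sc q.1)
      (hc.intervalIntegrable _ _) (hc.intervalIntegrable _ _)]
    have e1 : (∫ x in sc p.1..sc q.1, pl (p :: q :: r) x) =
        ∫ x in sc p.1..sc q.1,
          (sc p.2 + (x - sc p.1) * ((sc q.2 - sc p.2) / (sc q.1 - sc p.1))) := by
      refine intervalIntegral.integral_congr fun x hx => ?_
      rw [Set.uIcc_of_le (sc_le h.1.2.le)] at hx
      simp only [pl, if_pos hx.2]
    have e2 : (∫ x in sc q.1..sc (lastX q r), pl (p :: q :: r) x) =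
        ∫ x in sc q.1..sc (lastX q r), pl (q :: r) x := by
      refine intervalIntegral.integral_congr fun x hx => ?_
      rw [Set.uIcc_of_le (sc_le (lastX_ge q r h.2))] at hx
      exact pl_cons h.2 h.1.2 hx.1
    rw [e1, e2, integral_pl q r h.2]
    have hne : sc q.1 - sc p.1 ≠ 0 := sub_ne_zero.2 (sc_lt h.1.2).ne'
    rw [intervalIntegral.integral_add intervalIntegrable_const
      (by apply Continuous.intervalIntegrable; fun_prop), intervalIntegral.integral_const,
      intervalIntegral.integral_mul_const, intervalIntegral.integral_sub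
      (by apply Continuous.intervalIntegrable; fun_prop) intervalIntegrable_const,
      integral_id, intervalIntegral.integral_const]
    simp only [trap2, smul_eq_mul, Int.cast_add, Int.cast_mul, Int.cast_sub]
    field_simp
    simp only [sc]
    ring

/-- A leaf provides a calibration. -/
lemma leaf_calib {H C f0 f1 a0 a1 : ℤ} {ns : List (ℤ × ℤ)}
    (hd : 0 ≤ f0 ∧ f0 < f1 ∧ a0 < a1 ∧ a1 ≤ scale ∧ f0 < a1) (hs : spanOk f1 a0 ns = true)
    (hc : chainOk H C ((f0, 0) :: (ns ++ [(a1, 0)])) = true) {v f a P : ℝ}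
    (hf : sc f0 ≤ f) (hf' : f ≤ sc f1) (ha : sc a0 ≤ a) (ha' : a ≤ sc a1) (hfa : f ≤ a)
    (hP : Low gfun v f a P) :
    sc H * v + sc C + (trap2 ns : ℝ) / (2 * 10000000 ^ 2) ≤ P := by
  set L := (f0, (0 : ℤ)) :: (ns ++ [(a1, 0)]) with hL
  have hlast : lastX ((f0, 0) : ℤ × ℤ) (ns ++ [(a1, 0)]) = a1 := lastX_append _ _ _
  have hadm : ∀ x ∈ Set.Icc f a, Adm (sc H) (sc C) x (pl L x) := fun x hx =>
    adm_pl _ _ hc hd.1 (by rw [hlast]; exact hd.2.2.2.1) x (hf.trans hx.1)
      (by rw [hlast]; exact hx.2.trans ha')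
  have hcont := continuous_pl L hc
  have hf00 : 0 ≤ f := le_trans (div_nonneg (Int.cast_nonneg hd.1) (by norm_num)) hf
  have ha1 : a ≤ 1 := ha'.trans (by
    rw [sc, div_le_one (by norm_num)]; exact_mod_cast hd.2.2.2.1)
  have main := hP (sc H) (sc C) (pl L) hcont.continuousOn fun x hx =>
    ⟨(hadm x hx).1, (hadm x hx).gfun (hf00.trans hx.1) (hx.2.trans ha1), (hadm x hx).2.1⟩
  refine le_trans (add_le_add_right ?_ _) main
  have hpos : 0 ≤ ∫ x in f..a, pl L x :=
    intervalIntegral.integral_nonneg hfa fun x hx => (hadm x hx).1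
  cases ns with
  | nil => simpa [trap2] using hpos
  | cons p r =>
    simp only [spanOk, decide_eq_true_eq] at hs
    rw [hL, List.cons_append] at hc
    simp only [chainOk, Bool.and_eq_true, decide_eq_true_eq] at hc
    have hc' : chainOk H C (p :: r) = true :=
      chainOk_left (p :: r) (a1, 0) (by rw [List.cons_append]; exact hc.2)
    have hle : f1 ≤ a0 := by rw [← hs.1, ← hs.2]; exact lastX_ge p r hc'
    have e : (∫ x in sc f1..sc a0, pl L x) = (trap2 (p :: r) : ℝ) / (2 * 10000000 ^ 2) := by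
      rw [← integral_pl p r hc', hs.1, hs.2]
      refine intervalIntegral.integral_congr fun x hx => ?_
      rw [Set.uIcc_of_le (sc_le hle)] at hx
      rw [hL, List.cons_append, pl_cons hc.2 hc.1.2 (by rw [hs.1]; exact hx.1)]
      exact pl_append p r (a1, 0) hc.2 x (by rw [hs.1]; exact hx.1) (by rw [hs.2]; exact hx.2)
    rw [← e]
    refine intervalIntegral.integral_mono_interval hf' (sc_le hle) ha ?_
      (hcont.intervalIntegrable _ _)
    filter_upwards [ae_restrict_mem measurableSet_Ioc] with x hx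
    exact (hadm x ⟨hx.1.le, hx.2⟩).1

end

end Vale.Agent.P232
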