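import Vale.Agent.P232.Compl
import Vale.Agent.P232.Competitors.Level

/-! # P232: balls, tubes and slabs -/

namespace Vale.Agent.P232

noncomputable section

open MeasureTheory Set

/-- The periodic set whose trace on the cube is a level set. -/
def levelSet (a s : ℝ) : Set (ℝ × ℝ × ℝ) :=
  {p | quad a (Int.fract p.1, Int.fract p.2.1, Int.fract p.2.2) < s}

lemma perSet_levelSet (a s : ℝ) : PerSet (levelSet a s) := fun p => by
  simp [levelSet, e₁, e₂, e₃, Int.fract_add_one]

lemma measurableSet_levelSet (a s : ℝ) : MeasurableSet (levelSet a s) :=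
  measurableSet_lt ((continuous_quad a).measurable.comp ((measurable_fract.comp measurable_fst).prodMk
    ((measurable_fract.comp (measurable_fst.comp measurable_snd)).prodMk
      (measurable_fract.comp (measurable_snd.comp measurable_snd))))) measurable_const

lemma levelSet_inter_cube (a s : ℝ) : levelSet a s ∩ cube = {p | quad a p < s} ∩ cube := by
  ext ⟨x, y, z⟩
  simp only [levelSet, cube, mem_inter_iff, mem_ofPred_eq, mem_prod]
  refine and_congr_left fun h => ?_
  rw [Int.fract_eq_self.2 ⟨h.1.1, h.1.2⟩, Int.fract_eq_self.2 ⟨h.2.1.1, h.2.1.2⟩,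
    Int.fract_eq_self.2 ⟨h.2.2.1, h.2.2.2⟩]

lemma vol_levelSet (a s : ℝ) : vol (levelSet a s) = vol {p | quad a p < s} := by
  simp only [vol, levelSet_inter_cube]

lemma perim_le {E : Set (ℝ × ℝ × ℝ)} {b : ℝ}
    (h : ∀ φ, Field φ → ∫ p in E ∩ cube, divg φ p ≤ b) : perim E ≤ ENNReal.ofReal b :=
  iSup₂_le fun φ hφ => ENNReal.ofReal_le_ofReal (h φ hφ)

lemma exists_tube {v : ℝ} (hv : 0 ≤ v) (h : 2 * Real.sqrt (Real.pi * v) ≤ 2) :
    ∃ E : Set (ℝ × ℝ × ℝ), MeasurableSet E ∧ PerSet E ∧ vol E = v ∧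
      perim E ≤ ENNReal.ofReal (2 * Real.sqrt (Real.pi * v)) := by
  have hπ := Real.pi_gt_three
  have hπ0 := Real.pi_pos
  set s := v / Real.pi with hsdef
  have hs : 0 ≤ s := by positivity
  have hvs : Real.pi * s = v := by rw [hsdef]; field_simp
  have hs4 : s < 1 / 4 := by
    have h1 : Real.pi * v ≤ 1 := by
      nlinarith [Real.sq_sqrt (show 0 ≤ Real.pi * v by positivity),
        Real.sqrt_nonneg (Real.pi * v)]
    rw [← hvs] at h1
    nlinarith
  refine ⟨levelSet 0 s, measurableSet_levelSet 0 s, perSet_levelSet 0 s, ?_, perim_le fun φ hφ => ?_⟩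
  · rw [vol_levelSet, vol_level_tube hs hs4, hvs]
  rw [levelSet_inter_cube]
  refine (flux_le hφ (Or.inl rfl) (W := Real.pi) hs4 ?_).trans (le_of_eq ?_)
  · refine (((hasDerivAt_id s).const_mul Real.pi).congr_deriv (mul_one _)).hasDerivWithinAt
      |>.congr_of_eventuallyEq ?_ (vol_level_tube hs hs4)
    filter_upwards [Ioo_mem_nhdsGT hs4] with u hu
    exact vol_level_tube (hs.trans hu.1.le) hu.2
  · rw [mul_assoc, ← hvs, ← mul_assoc Real.pi, Real.sqrt_mul (by positivity),
      Real.sqrt_mul_self hπ0.le]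
    ring

lemma exists_ball {v : ℝ} (hv : 0 ≤ v)
    (h : (36 * Real.pi) ^ (1 / 3 : ℝ) * v ^ (2 / 3 : ℝ) ≤ 2) :
    ∃ E : Set (ℝ × ℝ × ℝ), MeasurableSet E ∧ PerSet E ∧ vol E = v ∧
      perim E ≤ ENNReal.ofReal ((36 * Real.pi) ^ (1 / 3 : ℝ) * v ^ (2 / 3 : ℝ)) := by
  have hπ := Real.pi_gt_three
  have hπ0 := Real.pi_pos
  set k := 3 / (4 * Real.pi) with hkdef
  have hk : 0 < k := by positivity
  set R := (k * v) ^ (1 / 3 : ℝ)
  have hR : 0 ≤ R := by positivity
  have hR3 : R ^ 3 = k * v := by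
    rw [← Real.rpow_natCast, ← Real.rpow_mul (by positivity)]
    norm_num
  have hball : (36 * Real.pi) ^ (1 / 3 : ℝ) * v ^ (2 / 3 : ℝ) = 4 * Real.pi * R ^ 2 := by
    have h1 : 36 * Real.pi = (4 * Real.pi) ^ 3 * k ^ 2 := by rw [hkdef]; field_simp; ring
    have h2 : R ^ 2 = k ^ (2 / 3 : ℝ) * v ^ (2 / 3 : ℝ) := by
      rw [← Real.rpow_natCast, ← Real.rpow_mul (by positivity), ← Real.mul_rpow hk.le hv]
      norm_num
    have h3 : (36 * Real.pi) ^ (1 / 3 : ℝ) = 4 * Real.pi * k ^ (2 / 3 : ℝ) := by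
      rw [h1, Real.mul_rpow (by positivity) (by positivity), ← Real.rpow_natCast _ 3,
        ← Real.rpow_natCast k 2, ← Real.rpow_mul (by positivity), ← Real.rpow_mul hk.le]
      norm_num
    rw [h2, h3]
    ring
  rw [hball] at h ⊢
  set s := R ^ 2 with hsdef
  have hs : 0 ≤ s := sq_nonneg R
  have hs4 : s < 1 / 4 := by nlinarith
  have hsq : Real.sqrt s = R := Real.sqrt_sq hR
  have hval : 4 / 3 * Real.pi * (s * Real.sqrt s) = v := by
    rw [hsq, hsdef, show R ^ 2 * R = R ^ 3 by ring, hR3, hkdef]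
    field_simp
  refine ⟨levelSet 1 s, measurableSet_levelSet 1 s, perSet_levelSet 1 s, ?_, perim_le fun φ hφ => ?_⟩
  · rw [vol_levelSet, vol_level_ball hs hs4, hval]
  rw [levelSet_inter_cube]
  refine (flux_le hφ (Or.inr rfl) (W := 2 * Real.pi * R) hs4 ?_).trans (le_of_eq ?_)
  · have hd : HasDerivAt (fun t : ℝ => 4 / 3 * Real.pi * t ^ (3 / 2 : ℝ)) (2 * Real.pi * R) s := by
      refine ((Real.hasDerivAt_rpow_const (x := s) (p := (3 / 2 : ℝ))
        (Or.inr (by norm_num))).const_mul (4 / 3 * Real.pi)).congr_deriv ?_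
      rw [show (3 / 2 : ℝ) - 1 = 1 / 2 by norm_num, ← Real.sqrt_eq_rpow, hsq]
      ring
    have e : ∀ t : ℝ, 0 ≤ t → t ^ (3 / 2 : ℝ) = t * Real.sqrt t := fun t ht => by
      rw [Real.sqrt_eq_rpow, show (3 / 2 : ℝ) = 1 + 1 / 2 by norm_num,
        Real.rpow_add_of_nonneg ht zero_le_one (by norm_num), Real.rpow_one]
    refine hd.hasDerivWithinAt.congr_of_eventuallyEq ?_ (by rw [vol_level_ball hs hs4, e s hs])
    filter_upwards [Ioo_mem_nhdsGT hs4] with u hu
    rw [vol_level_ball (hs.trans hu.1.le) hu.2, e u (hs.trans hu.1.le)]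
  · rw [hsq, hsdef]
    ring

lemma exists_slab {v : ℝ} (hv : 0 ≤ v) (hv1 : v ≤ 1) :
    ∃ E : Set (ℝ × ℝ × ℝ), MeasurableSet E ∧ PerSet E ∧ vol E = v ∧
      perim E ≤ ENNReal.ofReal 2 := by
  set E : Set (ℝ × ℝ × ℝ) := {p | Int.fract p.1 < v}
  set S : Set (ℝ × ℝ × ℝ) := {p | p.1 < v}
  have hS : MeasurableSet S := measurableSet_lt measurable_fst measurable_const
  have e : E ∩ cube = S ∩ cube := by
    ext p
    simp only [E, S, cube, mem_inter_iff, mem_ofPred_eq, mem_prod]
    refine and_congr_left fun h => ?_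
    rw [Int.fract_eq_self.2 ⟨h.1.1, h.1.2⟩]
  refine ⟨E, measurableSet_lt (measurable_fract.comp measurable_fst) measurable_const,
    fun p => by simp [E, e₁, e₂, e₃, Int.fract_add_one], ?_, perim_le fun φ hφ => ?_⟩
  · have e' : S ∩ cube = Ico (0 : ℝ) v ×ˢ (Ico (0 : ℝ) 1 ×ˢ Ico (0 : ℝ) 1) := by
      ext p
      simp only [S, cube, mem_inter_iff, mem_ofPred_eq, mem_prod, mem_Ico]
      exact ⟨fun h => ⟨⟨h.2.1.1, h.1⟩, h.2.2⟩, fun h => ⟨h.1.2, ⟨h.1.1, h.1.2.trans_le hv1⟩, h.2⟩⟩
    rw [vol, e, e', Measure.volume_eq_prod, Measure.prod_prod, Measure.volume_eq_prod,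
      Measure.prod_prod]
    simp [Real.volume_Ico, hv]
  rw [e]
  have hind : ∀ {F : ℝ × ℝ × ℝ → ℝ}, Continuous F →
      IntegrableOn (S.indicator F) cube ∧ IntegrableOn F (S ∩ cube) := fun hF =>
    ⟨(integrableOn_cube_of_continuous hF).indicator hS,
      (integrableOn_cube_of_continuous hF).mono_set inter_subset_right⟩
  have d1 := (hφ.continuous_apply e₁).fst
  have d2 := (hφ.continuous_apply e₂).snd.fst
  have d3 := (hφ.continuous_apply e₃).snd.snd
  have conv : ∀ F : ℝ × ℝ × ℝ → ℝ, ∫ p in S ∩ cube, F p = ∫ p in cube, S.indicator F p := fun F => by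
    rw [← Measure.restrict_restrict hS, integral_indicator hS]
  have h1 : ∫ p in S ∩ cube, (fderiv ℝ φ p e₁).1 ≤ 2 := by
    rw [conv, setIntegral_cube_x (hind d1).1]
    refine (le_abs_self _).trans ?_
    rw [← Real.norm_eq_abs]
    refine (norm_integral_le_of_norm_le_const (C := 2) (Filter.Eventually.of_forall fun q => ?_)).trans
      (le_of_eq (by simp))
    have hi : ∫ x, S.indicator (fun p => (fderiv ℝ φ p e₁).1) (x, q) ∂unitVol =
        (φ (v, q)).1 - (φ (0, q)).1 := by
      rw [← integral_line (hφ.line_x q) (d1.comp (continuous_id.prodMk continuous_const)) 0 v,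
        intervalIntegral.integral_of_le hv, integral_Ioc_eq_integral_Ioo,
        ← integral_Ico_eq_integral_Ioo, unitVol,
        show Ico (0 : ℝ) v = Iio v ∩ Ico (0 : ℝ) 1 from Set.ext fun x =>
          ⟨fun h => ⟨h.2, h.1, h.2.trans_le hv1⟩, fun h => ⟨h.2.1, h.1⟩⟩,
        ← Measure.restrict_restrict measurableSet_Iio, ← integral_indicator measurableSet_Iio]
      rfl
    rw [hi, Real.norm_eq_abs]
    have hb : ∀ p, |(φ p).1| ≤ 1 := fun p => abs_le_of_sq_le_sq
      (by nlinarith [hφ.bound p, sq_nonneg (φ p).2.1, sq_nonneg (φ p).2.2]) zero_le_one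
    exact (abs_sub _ _).trans (by linarith [hb (v, q), hb (0, q)])
  have h2 : ∫ p in S ∩ cube, (fderiv ℝ φ p e₂).2.1 = 0 := by
    rw [conv, setIntegral_cube_y (hind d2).1]
    refine integral_eq_zero_of_ae (Filter.Eventually.of_forall fun x => ?_)
    refine integral_eq_zero_of_ae (Filter.Eventually.of_forall fun z => ?_)
    show ∫ y, S.indicator (fun p => (fderiv ℝ φ p e₂).2.1) (x, y, z) ∂unitVol = 0
    by_cases hx : x < v
    · simp only [Set.indicator_apply, S, mem_ofPred_eq, hx, if_true]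
      rw [integral_unitVol, integral_line (hφ.line_y x z)
        (d2.comp (continuous_const.prodMk (continuous_id.prodMk continuous_const))), hφ.per_y,
        sub_self]
    · simp [S, hx]
  have h3 : ∫ p in S ∩ cube, (fderiv ℝ φ p e₃).2.2 = 0 := by
    rw [conv, setIntegral_cube_z (hind d3).1]
    refine integral_eq_zero_of_ae (Filter.Eventually.of_forall fun x => ?_)
    refine integral_eq_zero_of_ae (Filter.Eventually.of_forall fun y => ?_)
    show ∫ z, S.indicator (fun p => (fderiv ℝ φ p e₃).2.2) (x, y, z) ∂unitVol = 0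
    by_cases hx : x < v
    · simp only [Set.indicator_apply, S, mem_ofPred_eq, hx, if_true]
      rw [integral_unitVol, integral_line (hφ.line_z x y)
        (d3.comp (continuous_const.prodMk (continuous_const.prodMk continuous_id))), hφ.per_z,
        sub_self]
    · simp [S, hx]
  have i12 : IntegrableOn (fun p => (fderiv ℝ φ p e₁).1 + (fderiv ℝ φ p e₂).2.1) (S ∩ cube) :=
    (hind d1).2.add (hind d2).2
  unfold divg
  rw [integral_add i12 (hind d3).2, integral_add (hind d1).2 (hind d2).2, h2, h3]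
  linarith

/-- Some competitor of volume `v` has perimeter at most the least of the three values. -/
lemma exists_competitor {v : ℝ} (hv : 0 ≤ v) (hv1 : v ≤ 1) :
    ∃ E : Set (ℝ × ℝ × ℝ), MeasurableSet E ∧ PerSet E ∧ vol E = v ∧
      perim E ≤ ENNReal.ofReal (min (min ((36 * Real.pi) ^ (1 / 3 : ℝ) * v ^ (2 / 3 : ℝ))
        (2 * Real.sqrt (Real.pi * v))) 2) := by
  set b := (36 * Real.pi) ^ (1 / 3 : ℝ) * v ^ (2 / 3 : ℝ)
  set c := 2 * Real.sqrt (Real.pi * v)
  rcases le_total (min b c) 2 with h | h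
  · rw [min_eq_left h]
    rcases le_total b c with h' | h'
    · rw [min_eq_left h'] at h ⊢
      exact exists_ball hv h
    · rw [min_eq_right h'] at h ⊢
      exact exists_tube hv h
  · rw [min_eq_right h]
    exact exists_slab hv hv1

/-- In every volume some competitor (ball, tube, slab or complement) has perimeter at most `J`. -/
theorem profile_le {V : ℝ} (h0 : 0 ≤ V) (h1 : V ≤ 1) : profile V ≤ ENNReal.ofReal (J V) := by
  obtain ⟨E, hm, hp, hv, hP⟩ := exists_competitor (v := min V (1 - V)) (le_min h0 (sub_nonneg.2 h1))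
    ((min_le_left _ _).trans h1)
  rcases le_total V (1 - V) with h | h
  · exact iInf₂_le_of_le E ⟨hm, hp, hv.trans (min_eq_left h)⟩ hP
  · refine iInf₂_le_of_le Eᶜ ⟨hm.compl, perSet_compl hp, ?_⟩ ((perim_compl hm).trans_le hP)
    rw [vol_compl hm, hv, min_eq_right h, sub_sub_cancel]

end

end Vale.Agent.P232
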