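import Vale.Agent.P232.Compl.Slice

/-! # P232: complements -/

namespace Vale.Agent.P232

noncomputable section

open MeasureTheory

theorem perSet_compl {E : Set (ℝ × ℝ × ℝ)} (hE : PerSet E) : PerSet Eᶜ := fun p =>
  ⟨not_congr (hE p).1, not_congr (hE p).2.1, not_congr (hE p).2.2⟩

theorem vol_compl {E : Set (ℝ × ℝ × ℝ)} (hm : MeasurableSet E) : vol Eᶜ = 1 - vol E := by
  have h := measure_inter_add_sdiff (μ := (volume : Measure (ℝ × ℝ × ℝ))) cube hm
  rw [volume_cube, Set.sdiff_eq, Set.inter_comm cube E, Set.inter_comm cube Eᶜ] at h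
  have hne : volume (E ∩ cube) ≠ ⊤ ∧ volume (Eᶜ ∩ cube) ≠ ⊤ :=
    ENNReal.add_ne_top.1 (by rw [h]; exact ENNReal.one_ne_top)
  have := congrArg ENNReal.toReal h
  rw [ENNReal.toReal_add hne.1 hne.2, ENNReal.toReal_one] at this
  simp only [vol]
  linarith

lemma setIntegral_compl_divg {E : Set (ℝ × ℝ × ℝ)} (hm : MeasurableSet E)
    {φ : ℝ × ℝ × ℝ → ℝ × ℝ × ℝ} (h : Field φ) :
    ∫ p in Eᶜ ∩ cube, divg φ p = ∫ p in E ∩ cube, divg (-φ) p := by
  have hs := integral_add_compl (μ := (volume : Measure (ℝ × ℝ × ℝ)).restrict cube) hm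
    (integrableOn_cube_of_continuous h.continuous_divg)
  rw [h.integral_divg, Measure.restrict_restrict hm, Measure.restrict_restrict hm.compl] at hs
  simp only [divg_neg, integral_neg]
  linarith

theorem perim_compl {E : Set (ℝ × ℝ × ℝ)} (hm : MeasurableSet E) :
    perim Eᶜ = perim E := by
  refine le_antisymm (iSup₂_le fun φ h => ?_) (iSup₂_le fun φ h => ?_)
  · rw [setIntegral_compl_divg hm h]
    exact le_iSup₂ (f := fun (ψ : ℝ × ℝ × ℝ → ℝ × ℝ × ℝ) (_ : Field ψ) =>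
      ENNReal.ofReal (∫ p in E ∩ cube, divg ψ p)) (-φ) h.neg
  · have e := setIntegral_compl_divg hm h.neg
    rw [neg_neg] at e
    rw [← e]
    exact le_iSup₂ (f := fun (ψ : ℝ × ℝ × ℝ → ℝ × ℝ × ℝ) (_ : Field ψ) =>
      ENNReal.ofReal (∫ p in Eᶜ ∩ cube, divg ψ p)) (-φ) h.neg

end

end Vale.Agent.P232
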