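import Vale.Agent.P232.RadialInt
import Vale.Agent.P232.Ball

/-! # P232: round slices give a ball or a tube -/

namespace Vale.Agent.P232

noncomputable section

open Real MeasureTheory

lemma poly_ball {s p q : ℝ} (hs : 0 < s) (hq : 0 ≤ q) (hqp : q ≤ p) (hS : p + q ≤ s / 3)
    (hs3 : 3 ≤ s ^ 2) :
    2 / 3 * (p + q) ^ 3 ≤ s * (p * q) + (2 / 3 * (p - q) ^ 3 + s ^ 2 / 2 * (p - q) ^ 2 * q) := by
  nlinarith [mul_nonneg (mul_nonneg (hq.trans hqp) hq) (show 0 ≤ s / 4 - 2 / 3 * (p + q) by linarith),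
    mul_nonneg (mul_nonneg (sq_nonneg (p - q)) hq) (show 0 ≤ s ^ 2 / 2 - 4 / 3 by linarith)]

lemma poly_ball' {s p q : ℝ} (hq : 0 ≤ q) (hqp : q ≤ p) (hS : p + q ≤ s / 3) (hq' : q ≤ 1 / 13)
    (hs : 177245 / 100000 ≤ s) (hs' : s ≤ 177246 / 100000) :
    2 / 3 * (p + q) ^ 3 + 2 * q ^ 2 * (p + q) ≤
      s * (p * q) + (2 / 3 * (p - q) ^ 3 + s ^ 2 / 2 * (p - q) ^ 2 * q) := by
  have hp := hq.trans hqp
  have key : 0 ≤ 4 * p * (s / 4 - 2 / 3 * (p + q)) + 2 / 10 * (p - q) ^ 2 - 2 * q * (p + q) := by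
    nlinarith [mul_nonneg (show 0 ≤ p - q by linarith) (show 0 ≤ 1 / 13 - q by linarith),
      mul_nonneg hp (show 0 ≤ s / 3 - (p + q) by linarith),
      mul_nonneg hq (show 0 ≤ 1 / 13 - q by linarith), sq_nonneg (p - q)]
  nlinarith [mul_nonneg hq key, mul_nonneg (mul_nonneg (sq_nonneg (p - q)) hq)
    (show 0 ≤ s ^ 2 / 2 - 4 / 3 - 2 / 10 by nlinarith)]

lemma poly_tube {s p q u : ℝ} (hs : 0 < s) (hs3 : 3 ≤ s ^ 2) (hs4 : s ≤ 16 / 9) (hq : 0 ≤ q)
    (hqp : q ≤ p) (hu : 2 * s / 9 ≤ u) :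
    s * u * (p + q) ≤
      s * (u ^ 2 + p * q) + (2 / 3 * (p - q) ^ 3 + s ^ 2 / 2 * (p - q) ^ 2 * q) := by
  have hq1 := mul_nonneg (mul_nonneg (sq_nonneg (p - q)) hq)
    (show 0 ≤ s ^ 2 / 2 - 4 / 3 by linarith)
  rcases le_or_gt (s / 4) (2 / 3 * (p + q)) with c | c
  · nlinarith [mul_nonneg (sq_nonneg (p - q)) (sub_nonneg.2 c),
      mul_nonneg hs.le (sq_nonneg (u - (p + q) / 2))]
  · have h1 : 0 ≤ 2 * s / 9 - (p + q) / 2 := by linarith
    have h2 : (p - q) ^ 2 ≤ (p + q) ^ 2 := by nlinarith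
    nlinarith [mul_le_mul_of_nonneg_right h2 (show 0 ≤ s / 4 - 2 / 3 * (p + q) by linarith),
      mul_le_mul_of_nonneg_left (mul_self_le_mul_self h1 (show 2 * s / 9 - (p + q) / 2 ≤
        u - (p + q) / 2 by linarith)) hs.le,
      mul_nonneg (sq_nonneg (p + q - s / 3)) (show 0 ≤ p + q + 2 * s / 3 by linarith)]

lemma poly_tube' {s p q u : ℝ} (hs : 177245 / 100000 ≤ s) (hs' : s ≤ 177246 / 100000) (hq : 0 ≤ q)
    (hqp : q ≤ p) (hq' : q ≤ 1 / 13) (hS : s / 3 ≤ p + q) (hu : 2 * s / 9 ≤ u) :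
    s * u * (p + q) + 2 * q ^ 2 * (p + q) ≤
      s * (u ^ 2 + p * q) + (2 / 3 * (p - q) ^ 3 + s ^ 2 / 2 * (p - q) ^ 2 * q) := by
  have hs0 : 0 < s := by linarith
  have hc : 0 ≤ s ^ 2 / 2 - 4 / 3 - 237 / 1000 := by nlinarith
  have hq1 := mul_nonneg (mul_nonneg (sq_nonneg (p - q)) hq) hc
  set S := p + q with hSdef
  have hD : p - q = S - 2 * q := by ring
  have hD0 : 0 ≤ p - q := sub_nonneg.2 hqp
  rcases le_or_gt (70 / 100) S with c | c
  · have h3 : 546 / 1000 ≤ p - q := by linarith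
    have h4 : 2 * q ^ 2 * S ≤ (p - q) ^ 2 * (2 / 3 * S - s / 4 + 237 / 1000 * q) := by
      nlinarith [mul_le_mul h3 h3 (by norm_num) hD0, mul_nonneg hq (sub_nonneg.2 hq'),
        mul_nonneg (mul_nonneg hq (sub_nonneg.2 hq')) (sub_nonneg.2 c),
        mul_nonneg (sub_nonneg.2 c) (sub_nonneg.2 hq')]
    nlinarith [mul_nonneg hs0.le (sq_nonneg (u - S / 2))]
  · have h1 : 0 ≤ 2 * s / 9 - S / 2 := by linarith
    have h5 : 2 * q ^ 2 * S ≤ s * (2 * s / 9 - S / 2) ^ 2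
        + (p - q) ^ 2 * (2 / 3 * S - s / 4 + 237 / 1000 * q) := by
      rw [hD]
      nlinarith [mul_nonneg (mul_nonneg hq hq) (sub_nonneg.2 hS), mul_nonneg hq (sub_nonneg.2 hq'),
        mul_nonneg (sq_nonneg (S - s / 3)) (show 0 ≤ S + 2 * s / 3 by linarith),
        mul_nonneg (mul_nonneg hq (sub_nonneg.2 hq')) (show 0 ≤ 70 / 100 - S by linarith),
        sq_nonneg (S - s / 3 - q), sq_nonneg (S - s / 3 - 2 * q), mul_nonneg hq (sub_nonneg.2 hS)]
    nlinarith [mul_le_mul_of_nonneg_left (mul_self_le_mul_self h1 (show 2 * s / 9 - S / 2 ≤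
        u - S / 2 by linarith)) hs0.le]

/-- The common part of the two radial lemmas. -/
lemma radial_main {v f a P k : ℝ} (hf : 0 ≤ f) (hfv : f ≤ v) (hva : v ≤ a) (hpos : 0 < √a + √f)
    (hball : √a + √f ≤ √π / 3 → 2 / 3 * (√a + √f) ^ 3 + k * (√a + √f) ≤
      √π * (√a * √f) + (2 / 3 * (√a - √f) ^ 3 + √π ^ 2 / 2 * (√a - √f) ^ 2 * √f))
    (htube : √π / 3 ≤ √a + √f → ∀ u, 2 * √π / 9 ≤ u → √π * u * (√a + √f) + k * (√a + √f) ≤
      √π * (u ^ 2 + √a * √f) + (2 / 3 * (√a - √f) ^ 3 + √π ^ 2 / 2 * (√a - √f) ^ 2 * √f))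
    (hP : Low (fun x => √(π * x)) v f a P) : min (ballF v) √(π * v) + k ≤ P := by
  have ha : 0 ≤ a := (hf.trans hfv).trans hva
  have hv : 0 ≤ v := hf.trans hfv
  set p := √a with hp
  set q := √f with hq
  have hp2 : p ^ 2 = a := Real.sq_sqrt ha
  have hq2 : q ^ 2 = f := Real.sq_sqrt hf
  have hqp : q ≤ p := Real.sqrt_le_sqrt (hfv.trans hva)
  have main := hP (√π / (p + q)) (√π * p * q / (p + q)) (rbeta p q)
    (by rw [← hp2, ← hq2]; exact rbeta_cont (Real.sqrt_nonneg _))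
    fun x hx => rbeta_adm (Real.sqrt_nonneg _) hpos (by rw [hq2]; exact hx.1)
      (by rw [hp2]; exact hx.2) (Real.sqrt_nonneg _)
  have hI := integral_rbeta_ge (Real.sqrt_nonneg _) hqp hpos
  rw [hp2, hq2] at hI
  have hpi : √π ^ 2 = π := Real.sq_sqrt Real.pi_pos.le
  set S := p + q
  set I := 2 / 3 * (p - q) ^ 3 + π / 2 * (p - q) ^ 2 * q with hIdef
  have hB : (√π * (v + p * q) + I) / S ≤ P := by
    refine le_trans ?_ ((add_le_add_right hI _).trans main)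
    exact le_of_eq (by ring)
  refine le_trans ?_ hB
  rw [le_div_iff₀ hpos, add_mul]
  rw [hpi] at hball htube
  rcases le_or_gt S (√π / 3) with c | c
  · have := mul_le_mul_of_nonneg_right ((min_le_left (ballF v) √(π * v)).trans
      (ballF_le hpos hv)) hpos.le
    rw [div_mul_cancel₀ _ hpos.ne'] at this
    linarith [hball c]
  rcases le_or_gt (4 * π / 81) v with cv | cv
  · have hu : 2 * √π / 9 ≤ √v := Real.le_sqrt_of_sq_le (by rw [div_pow, mul_pow, hpi]; linarith)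
    have h := htube c.le _ hu
    rw [Real.sq_sqrt hv] at h
    have := mul_le_mul_of_nonneg_right (min_le_right (ballF v) √(π * v)) hpos.le
    rw [Real.sqrt_mul Real.pi_pos.le] at this ⊢
    linarith
  · have h := htube c.le _ le_rfl
    have := mul_le_mul_of_nonneg_right ((min_le_left (ballF v) √(π * v)).trans
      (ballF_le_line hv)) hpos.le
    have e : √π * (2 * √π / 9) = 2 * π / 9 := by linear_combination 2 / 9 * hpi
    have e2 : (2 * √π / 9) ^ 2 = 4 * π / 81 := by linear_combination 4 / 81 * hpi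
    rw [e, e2] at h
    nlinarith [mul_nonneg (show 0 ≤ 3 * S - √π by linarith) (sub_nonneg.2 cv.le)]

lemma sqrt_pi_five : 177245 / 100000 ≤ √π ∧ √π ≤ 177246 / 100000 :=
  ⟨Real.le_sqrt_of_sq_le (by linarith [Real.pi_gt_d20]),
    Real.sqrt_le_iff.2 ⟨by norm_num, by linarith [Real.pi_lt_d20]⟩⟩

lemma low_nonneg {h : ℝ → ℝ} {v f a P : ℝ} (hP : Low h v f a P) : 0 ≤ P := by
  simpa using hP 0 0 (fun _ => 0) continuousOn_const fun x _ => by
    simpa using sq_nonneg (h x)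

lemma min_zero_case {v a : ℝ} (hv : 0 ≤ v) (hva : v ≤ a) (ha : √a ≤ 0) : v = 0 := by
  have : a ≤ 0 := Real.sqrt_eq_zero'.1 (le_antisymm ha (Real.sqrt_nonneg a))
  linarith

/-- Round slices give at least the smaller of ball and tube. -/
theorem radial_bound {v f a P : ℝ} (hf : 0 ≤ f) (hfv : f ≤ v) (hva : v ≤ a)
    (hP : Low (fun x => √(π * x)) v f a P) : min (ballF v) √(π * v) ≤ P := by
  rcases le_or_gt (√a + √f) 0 with h | h
  · obtain rfl := min_zero_case (hf.trans hfv) hva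
      (by linarith [Real.sqrt_nonneg f])
    exact (min_le_right _ _).trans (by simpa using low_nonneg hP)
  · obtain ⟨hs, hs'⟩ := sqrt_pi_five
    have h3 : 3 ≤ √π ^ 2 := by rw [Real.sq_sqrt Real.pi_pos.le]; linarith [Real.pi_gt_three]
    have hqp : √f ≤ √a := Real.sqrt_le_sqrt (hfv.trans hva)
    simpa using radial_main (k := 0) hf hfv hva h
      (fun c => by simpa using poly_ball (by linarith) (Real.sqrt_nonneg f) hqp c h3)
      (fun _ u hu => by
        simpa using poly_tube (by linarith) h3 (by linarith) (Real.sqrt_nonneg f) hqp hu) hP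

/-- With small least slice there is room for two cuts. -/
theorem radial_bound_cut {v f a P : ℝ} (hf : 0 ≤ f) (hfv : f ≤ v) (hva : v ≤ a)
    (hf' : f ≤ 1 / 169) (hP : Low (fun x => √(π * x)) v f a P) :
    min (ballF v) √(π * v) + 2 * f ≤ P := by
  rcases le_or_gt (√a + √f) 0 with h | h
  · obtain rfl := min_zero_case (hf.trans hfv) hva
      (by linarith [Real.sqrt_nonneg f])
    obtain rfl : f = 0 := le_antisymm hfv hf
    simpa using (min_le_right _ _).trans (by simpa using low_nonneg hP)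
  · obtain ⟨hs, hs'⟩ := sqrt_pi_five
    have hqp : √f ≤ √a := Real.sqrt_le_sqrt (hfv.trans hva)
    have hq' : √f ≤ 1 / 13 := Real.sqrt_le_iff.2 ⟨by norm_num, by linarith⟩
    have e : √f ^ 2 = f := Real.sq_sqrt hf
    refine radial_main (k := 2 * f) hf hfv hva h (fun c => ?_) (fun c u hu => ?_) hP
    · simpa only [e] using poly_ball' (Real.sqrt_nonneg f) hqp c hq' hs hs'
    · simpa only [e] using poly_tube' hs hs' (Real.sqrt_nonneg f) hqp hq' c hu

end

end Vale.Agent.P232
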