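import Vale.Agent.P232.Axis
import Vale.Agent.P232.CertFinal
import Vale.Agent.P232.Radial

/-! # P232: the lower bound for smooth densities -/

namespace Vale.Agent.P232

noncomputable section

open Real MeasureTheory

lemma low_round_of_gfun {v f a P : ℝ} (hf : 0 ≤ f) (ha : a ≤ 1 / π) (hP : Low gfun v f a P) :
    Low (fun x => √(π * x)) v f a P := by
  intro H C β hc h
  refine hP H C β hc fun x hx => ?_
  have h1 : π * x ≤ 1 := by
    have := mul_le_mul_of_nonneg_left (hx.2.trans ha) Real.pi_pos.le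
    rwa [mul_one_div, div_self Real.pi_ne_zero] at this
  have h2 : π * x ≤ π * (1 - x) := by nlinarith [Real.pi_gt_three, hf.trans hx.1]
  have e : gfun x = √(π * x) := by
    rw [gfun, min_eq_left (a := √(π * x)) (b := (1 : ℝ)) (Real.sqrt_le_one.2 h1),
      min_eq_left (Real.sqrt_le_sqrt h2)]
  rw [e]
  exact h x hx

/-- The data of the three axes give the bound for balls and tubes. -/
theorem tube_core {v P : ℝ} {f a : Fin 3 → ℝ} (hv : v ≤ 264 / 1000)
    (h : ∀ i, 0 ≤ f i ∧ f i ≤ v ∧ v ≤ a i ∧ a i ≤ 1 ∧ Low gfun v (f i) (a i) P ∧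
      Low (fun x => √(π * x)) v (f i) (a i) (P + ((∑ j, f j) - f i))) :
    min (ballF v) √(π * v) ≤ P := by
  obtain ⟨i, -, hi⟩ := Finset.exists_max_image Finset.univ f Finset.univ_nonempty
  obtain ⟨h0, h1, h2, h3, hg, hr⟩ := h i
  rcases le_or_gt (f i) (59171 / 10000000) with c | c
  · have hb := radial_bound_cut h0 h1 h2 (c.trans (by norm_num)) hr
    have hs : (∑ j, f j) ≤ 3 * f i := by
      refine (Finset.sum_le_sum fun j hj => hi j hj).trans_eq ?_
      simp
    linarith
  · rcases le_or_gt (a i) (1 / π) with ca | ca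
    · exact radial_bound h0 h1 h2 (low_round_of_gfun h0 ca hg)
    · exact tube_cert c.le h1 h2 hv ca.le h3 hg

/-- Lower bound for smooth densities below the tube threshold. -/
theorem dens_tube {δ : ℝ} (hδ : 0 < δ) : ∃ K : ℝ, 0 ≤ K ∧ ∀ w, Dens w →
    int3 w ≤ 264 / 1000 → min (ballF (int3 w)) √(π * int3 w) ≤
      int3 (gnorm w) / 2 + δ + K * int3 (fun p => w p * (1 - w p)) := by
  obtain ⟨K, hK, h⟩ := axis_bounds hδ
  refine ⟨K, hK, fun w hw hv => ?_⟩
  obtain ⟨f, a, hfa⟩ := h w hw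
  exact tube_core hv hfa

lemma int3_one_sub {w : ℝ × ℝ × ℝ → ℝ} (hw : Dens w) :
    int3 (fun p => 1 - w p) = 1 - int3 w := by
  have hc : Continuous w := hw.smooth.continuous
  have c1 : ∀ t : ℝ, Continuous fun y => ∫ z in (0 : ℝ)..1, w (t, y, z) := fun t =>
    intervalIntegral.continuous_parametric_intervalIntegral_of_continuous' (by fun_prop) 0 1
  have c2 : Continuous fun t => ∫ y in (0 : ℝ)..1, ∫ z in (0 : ℝ)..1, w (t, y, z) := by
    refine intervalIntegral.continuous_parametric_intervalIntegral_of_continuous' ?_ 0 1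
    exact intervalIntegral.continuous_parametric_intervalIntegral_of_continuous'
      (f := fun q : ℝ × ℝ => fun z => w (q.1, q.2, z)) (by fun_prop) 0 1
  unfold int3
  have e : ∀ t y : ℝ, (∫ z in (0 : ℝ)..1, 1 - w (t, y, z)) =
      1 - ∫ z in (0 : ℝ)..1, w (t, y, z) := fun t y => by
    rw [intervalIntegral.integral_sub intervalIntegrable_const
      (by apply Continuous.intervalIntegrable; fun_prop)]
    simp
  simp_rw [e]
  have e2 : ∀ t : ℝ, (∫ y in (0 : ℝ)..1, 1 - ∫ z in (0 : ℝ)..1, w (t, y, z)) =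
      1 - ∫ y in (0 : ℝ)..1, ∫ z in (0 : ℝ)..1, w (t, y, z) := fun t => by
    rw [intervalIntegral.integral_sub intervalIntegrable_const ((c1 t).intervalIntegrable _ _)]
    simp
  simp_rw [e2]
  rw [intervalIntegral.integral_sub intervalIntegrable_const (c2.intervalIntegrable _ _)]
  simp

lemma Dens.one_sub {w : ℝ × ℝ × ℝ → ℝ} (hw : Dens w) : Dens fun p => 1 - w p where
  smooth := contDiff_const.sub hw.smooth
  per p := by simp [(hw.per p).1, (hw.per p).2.1, (hw.per p).2.2]
  mem p := ⟨by linarith [(hw.mem p).2], by linarith [(hw.mem p).1]⟩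

lemma gnorm_one_sub (w : ℝ × ℝ × ℝ → ℝ) : gnorm (fun p => 1 - w p) = gnorm w := by
  funext p
  simp [gnorm, fderiv_const_sub]

/-- Lower bound for smooth densities in the slab range. -/
theorem dens_slab {δ : ℝ} (hδ : 0 < δ) : ∃ K : ℝ, 0 ≤ K ∧ ∀ w, Dens w →
    35995 / 100000 ≤ int3 w → int3 w ≤ 64005 / 100000 →
      1 ≤ int3 (gnorm w) / 2 + δ + K * int3 (fun p => w p * (1 - w p)) := by
  obtain ⟨K, hK, h⟩ := axis_bounds hδ
  refine ⟨K, hK, fun w hw h1 h2 => ?_⟩
  rcases le_or_gt (int3 w) (1 / 2) with c | c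
  · obtain ⟨f, a, hfa⟩ := h w hw
    obtain ⟨g0, g1, g2, g3, hg, -⟩ := hfa 0
    exact slab_cert g0 g1 g2 h1 c g3 hg
  · obtain ⟨f, a, hfa⟩ := h _ hw.one_sub
    obtain ⟨g0, g1, g2, g3, hg, -⟩ := hfa 0
    have e := int3_one_sub hw
    have := slab_cert g0 g1 g2 (by linarith) (by linarith) g3 hg
    simpa only [gnorm_one_sub, sub_sub_cancel, mul_comm] using this

end

end Vale.Agent.P232
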