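import Vale.Agent.P232.Corner

/-! # P232: almost constant slices of a slab, down to the volume `0.263` -/

namespace Vale.Agent.P232

noncomputable section

open Real MeasureTheory

lemma integral_div_le_window {c b : ℝ} (hc : 0 ≤ c) (hc' : c ≤ 1 / 2000) (hcb : c ≤ b)
    (hb : b ≤ 1) : c + (∫ x in c..b, c / x) ≤ 21 / 100 * √c := by
  rcases hc.eq_or_lt with rfl | hc0
  · simp
  have hb0 : 0 < b := hc0.trans_le hcb
  have e : (∫ x in c..b, c / x) = c * Real.log (b / c) := by
    simp_rw [div_eq_mul_inv c]
    rw [intervalIntegral.integral_const_mul, integral_inv_of_pos hc0 hb0]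
  rw [e]
  set s := √c
  have hs0 : 0 < s := Real.sqrt_pos.2 hc0
  have hs2 : s ^ 2 = c := Real.sq_sqrt hc
  have hs1 : s ≤ 9 / 400 := Real.sqrt_le_iff.2 ⟨by norm_num, by linarith⟩
  have h1 : Real.log (b / c) ≤ 2 * (Real.log (400 / 9) + (9 / 400 / s - 1)) := by
    have i1 : Real.log (b / c) ≤ Real.log (1 / c) :=
      Real.log_le_log (div_pos hb0 hc0) (div_le_div_of_nonneg_right hb hc)
    have i2 : Real.log (1 / c) = 2 * (Real.log (400 / 9) + Real.log (9 / 400 / s)) := by
      rw [← Real.log_mul (by norm_num) (by positivity), ← hs2,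
        show (1 : ℝ) / s ^ 2 = (400 / 9 * (9 / 400 / s)) ^ 2 by field_simp, Real.log_pow]
      norm_num
    linarith [Real.log_le_sub_one_of_pos (show 0 < 9 / 400 / s by positivity)]
  have h2 : Real.log (400 / 9) ≤ 4159 / 1000 := by
    have := Real.log_le_log (by norm_num) (show (400 : ℝ) / 9 ≤ 2 ^ 6 by norm_num)
    rw [Real.log_pow] at this
    push_cast at this
    linarith [Real.log_two_lt_d9]
  have h3 : c * Real.log (b / c) ≤ c * (2 * (4159 / 1000 + (9 / 400 / s - 1))) :=
    mul_le_mul_of_nonneg_left (by linarith) hc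
  have e3 : c * (9 / 400 / s) = 9 / 400 * s := by rw [← hs2]; field_simp
  nlinarith [mul_le_mul_of_nonneg_left hs1 hs0.le]

/-- The calibration near the slab on the window, with the slack. -/
theorem corner_window {v f a P : ℝ} (hf : 0 ≤ f) (hf' : f ≤ 1 / 2000) (ha : 1 - 1 / 2000 ≤ a)
    (ha' : a ≤ 1) (hv : 263 / 1000 ≤ v) (hv' : v ≤ 1 / 2) (hP : Low gfun v f a P) :
    1 + (√f + √(1 - a)) / 20 ≤ P := by
  set c := 1 - a with hcdef
  have hc : 0 ≤ c := by linarith
  have hc' : c ≤ 1 / 2000 := by linarith
  have hfa : f ≤ a := by linarith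
  have hcon1 : ContinuousOn (fun x : ℝ => f / x) (Set.Icc f a) := by
    rcases hf.eq_or_lt with rfl | h
    · simp [continuousOn_const]
    · exact continuousOn_const.div continuousOn_id fun x hx => (h.trans_le hx.1).ne'
  have hcon2 : ContinuousOn (fun x : ℝ => c / (1 - x)) (Set.Icc f a) := by
    rcases hc.eq_or_lt with h | h
    · simp [← h, continuousOn_const]
    · exact continuousOn_const.div (continuousOn_const.sub continuousOn_id) fun x hx => by
        rw [Set.mem_Icc] at hx
        linarith
  have hcon : ContinuousOn (fun x : ℝ => max 0 (1 - (f / x + c / (1 - x)))) (Set.Icc f a) :=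
    continuousOn_const.sup (continuousOn_const.sub (hcon1.add hcon2))
  have main := hP (√c - √f) √f _ hcon fun x hx =>
    corner_pt hf hc hx.1 (by linarith [hx.2])
  have hi : a - f - ((∫ x in f..a, f / x) + ∫ x in f..a, c / (1 - x)) ≤
      ∫ x in f..a, max 0 (1 - (f / x + c / (1 - x))) := by
    have i1 := hcon1.intervalIntegrable_of_Icc hfa (μ := volume)
    have i2 := hcon2.intervalIntegrable_of_Icc hfa (μ := volume)
    rw [← intervalIntegral.integral_add i1 i2]
    calc a - f - (∫ x in f..a, (f / x + c / (1 - x)))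
        = ∫ x in f..a, (1 - (f / x + c / (1 - x))) := by
          rw [intervalIntegral.integral_sub intervalIntegrable_const (i1.add i2)]
          simp
      _ ≤ _ := intervalIntegral.integral_mono_on hfa
          (intervalIntegrable_const.sub (i1.add i2)) (hcon.intervalIntegrable_of_Icc hfa)
          fun x _ => le_max_right _ _
  have e2 : (∫ x in f..a, c / (1 - x)) = ∫ x in c..(1 - f), c / x :=
    intervalIntegral.integral_comp_sub_left (fun x => c / x) 1
  have l1 := integral_div_le_window hf hf' hfa ha'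
  have l2 := integral_div_le_window hc hc' (show c ≤ 1 - f by linarith) (by linarith)
  rw [e2] at hi
  linarith [mul_nonneg (Real.sqrt_nonneg f) (show 0 ≤ (1 - v) - 21 / 100 - 1 / 20 by linarith),
    mul_nonneg (Real.sqrt_nonneg c) (show 0 ≤ v - 21 / 100 - 1 / 20 by linarith)]

end

end Vale.Agent.P232
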