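import Vale.Agent.P232.BandAxis

/-!
# P232: the linear coupling of the three axes

With `s` the square of the cosine between the gradient and an axis, the three numbers `s` sum to
one. If `q² (1 - s + ρ² s) ≤ (lam - s)²` then the calibrated bound of an axis, with the variation of
the slice area weighted by `ρ`, is paid by `lam` times the perimeter less the share `S` of the axis.
-/

namespace Vale.Agent.P232

noncomputable section

open MeasureTheory Set

/-- `Q` dominates every calibrated lower bound with profile `h` and the weight `ρ` on the variation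
of the slice area. -/
def LowR (h : ℝ → ℝ) (ρ v f a Q : ℝ) : Prop :=
  ∀ (H C : ℝ) (β : ℝ → ℝ), ContinuousOn β (Icc f a) →
    (∀ x ∈ Icc f a, 0 ≤ β x ∧ (H * x + C) ^ 2 + h x ^ 2 * β x ^ 2 ≤ h x ^ 2 ∧ β x ≤ 1) →
    H * v + C + ρ * (∫ x in f..a, β x) ≤ Q

/-- The envelope form of `LowR`: for every envelope `(α, β)` of the coupling with the weight `lam`,
whose `α` is at most `M`, the calibrated lower bound is at most `Q + M * X`. -/
def LowE (h : ℝ → ℝ) (lam v f a Q X : ℝ) : Prop :=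
  ∀ (H C M : ℝ) (α β : ℝ → ℝ), ContinuousOn β (Icc f a) →
    (∀ x ∈ Icc f a, 0 ≤ α x ∧ α x ≤ M ∧ 0 ≤ β x ∧ H * x + C ≤ α x * h x ∧
      ∀ s ∈ Icc (0 : ℝ) 1, α x * √(1 - s) + β x * √s ≤ lam - s) →
    H * v + C + (∫ x in f..a, β x) ≤ Q + M * X

/-- The squared derivative in direction `e`, divided by the regularised gradient length. -/
def share (ε : ℝ) (w : ℝ × ℝ × ℝ → ℝ) (e p : ℝ × ℝ × ℝ) : ℝ :=
  fderiv ℝ w p e ^ 2 / (gnorm w p + ε)

namespace Axis

variable {w : (ℝ × ℝ × ℝ) → ℝ}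

lemma continuous_gnorm (hw : Dens w) : Continuous (gnorm w) :=
  ((((continuous_dir hw e₁).pow 2).add ((continuous_dir hw e₂).pow 2)).add
    ((continuous_dir hw e₃).pow 2)).sqrt

lemma continuous_share (hw : Dens w) {ε : ℝ} (hε : 0 < ε) (e : ℝ × ℝ × ℝ) :
    Continuous (share ε w e) :=
  ((continuous_dir hw e).pow 2).div ((continuous_gnorm hw).add continuous_const) fun p => by
    have := Real.sqrt_nonneg
      (fderiv ℝ w p e₁ ^ 2 + fderiv ℝ w p e₂ ^ 2 + fderiv ℝ w p e₃ ^ 2)
    show gnorm w p + ε ≠ 0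
    unfold gnorm
    linarith

/-- A periodic circuit from the least slice area to the greatest and back. -/
lemma circuit (hw : Dens w) {b : ℝ → ℝ} (hbc : Continuous b) {t₀ t₁ : ℝ}
    (hb0 : ∀ t, 0 ≤ b (secA w t)) :
    2 * (∫ x in secA w t₀..secA w t₁, b x) ≤ ∫ t in (0 : ℝ)..1, b (secA w t) * |secD w t| := by
  set A := secA w
  set D := secD w
  have hA := continuous_secA hw
  have hD := continuous_secD hw
  have hab : Continuous fun t => b (A t) * |D t| := (hbc.comp hA).mul hD.abs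
  -- the circuit from the least area to the greatest and back
  have hper : Function.Periodic A 1 := secA_periodic hw
  set s := t₀ + Int.fract (t₁ - t₀)
  have hs : A s = A t₁ := by
    have e := hper.sub_int_mul_eq (x := t₁) ⌊t₁ - t₀⌋
    rw [mul_one] at e
    rw [← e]
    congr 1
    simp only [s, Int.fract]
    ring
  have hs0 : t₀ ≤ s := le_add_of_nonneg_right (Int.fract_nonneg _)
  have hs1 : s ≤ t₀ + 1 := by
    linarith [Int.fract_lt_one (t₁ - t₀), show s = t₀ + Int.fract (t₁ - t₀) from rfl]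
  have hDp : Function.Periodic D 1 := fun t =>
    (hasDerivAt_secA hw (t + 1)).unique (by
      have h := (hasDerivAt_secA hw t)
      have h' : HasDerivAt (fun u => A (u - 1)) (D t) (t + 1) := by
        refine HasDerivAt.comp_sub_const (t + 1) 1 ?_
        rwa [add_sub_cancel_right]
      simpa [A, funext fun u => hper.sub_eq u] using h')
  have hgp : Function.Periodic (fun t => b (A t) * |D t|) 1 := fun t => by
    simp only [hper t, hDp t]
  have hshift : ∫ t in (0 : ℝ)..1, b (A t) * |D t| = ∫ t in t₀..t₀ + 1, b (A t) * |D t| := by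
    simpa using (hgp.intervalIntegral_add_eq t₀ 0).symm
  have hcv : ∀ p q, ∫ t in p..q, b (A t) * D t = ∫ x in A p..A q, b x := fun p q =>
    intervalIntegral.integral_comp_mul_deriv (fun t _ => hasDerivAt_secA hw t) hD.continuousOn hbc
  have hcD : Continuous fun t => b (A t) * D t := (hbc.comp hA).mul hD
  have hup := intervalIntegral.integral_mono_on (μ := volume) hs0
    (hcD.intervalIntegrable t₀ s) (hab.intervalIntegrable t₀ s) fun t _ =>
      mul_le_mul_of_nonneg_left (le_abs_self _) (hb0 t)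
  have hdown := intervalIntegral.integral_mono_on (μ := volume) hs1
    ((hcD.neg : Continuous fun t => -(b (A t) * D t)).intervalIntegrable s (t₀ + 1)) (hab.intervalIntegrable s (t₀ + 1)) fun t _ => by
      change -(b (A t) * D t) ≤ _
      rw [← mul_neg]
      exact mul_le_mul_of_nonneg_left (neg_le_abs _) (hb0 t)
  rw [hcv, hs] at hup
  change (∫ t in s..t₀ + 1, -(b (A t) * D t)) ≤ _ at hdown
  rw [intervalIntegral.integral_neg, hcv, hs, hper t₀, intervalIntegral.integral_symm, neg_neg]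
    at hdown
  have hadd := intervalIntegral.integral_add_adjacent_intervals (μ := volume)
    (hab.intervalIntegrable t₀ s) (hab.intervalIntegrable s (t₀ + 1))
  linarith

lemma couple_pt {q ρ lam G d ε : ℝ} (hε : 0 < ε) (hlam : 1 ≤ lam)
    (h : ∀ s ∈ Icc (0 : ℝ) 1, q ^ 2 * ((1 - s) + ρ ^ 2 * s) ≤ (lam - s) ^ 2) :
    q * √(G ^ 2 + (ρ * d) ^ 2) + d ^ 2 / (√(G ^ 2 + d ^ 2) + ε) ≤ lam * √(G ^ 2 + d ^ 2) := by
  set g := √(G ^ 2 + d ^ 2) with hg
  have hg2 : g ^ 2 = G ^ 2 + d ^ 2 := Real.sq_sqrt (by positivity)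
  rcases (Real.sqrt_nonneg (G ^ 2 + d ^ 2)).eq_or_lt with h0 | h0
  · rw [← hg] at h0
    obtain ⟨rfl, rfl⟩ : G = 0 ∧ d = 0 := by
      constructor <;> nlinarith [sq_nonneg G, sq_nonneg d]
    simp [← h0]
  rw [← hg] at h0
  have hdiv : d ^ 2 / (g + ε) ≤ d ^ 2 / g :=
    div_le_div_of_nonneg_left (sq_nonneg d) h0 (by linarith)
  set s := d ^ 2 / g ^ 2 with hs
  have hs1 : s ≤ 1 := by
    rw [hs, div_le_one (by positivity), hg2]
    linarith [sq_nonneg G]
  have hp := h s ⟨by positivity, hs1⟩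
  have e : (q * √(G ^ 2 + (ρ * d) ^ 2)) ^ 2 = g ^ 2 * (q ^ 2 * ((1 - s) + ρ ^ 2 * s)) := by
    rw [mul_pow, Real.sq_sqrt (by positivity), hs]
    field_simp
    rw [hg2]
    ring
  have key : q * √(G ^ 2 + (ρ * d) ^ 2) ≤ g * (lam - s) := by
    refine le_of_abs_le ((sq_le_sq.1 ?_).trans_eq (abs_of_nonneg (mul_nonneg h0.le (by linarith))))
    rw [e, mul_pow]
    exact mul_le_mul_of_nonneg_left hp (sq_nonneg _)
  have e2 : g * s = d ^ 2 / g := by rw [hs]; field_simp
  linarith

lemma int3_lam_sub {G F : ℝ × ℝ × ℝ → ℝ} (hgn : Continuous G) (hqc : Continuous F) {lam : ℝ} :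
    int3 (fun p => lam * G p - F p) = lam * int3 G - int3 F := by
  have c1 := continuous_sec hgn
  have c2 := continuous_sec hqc
  simp only [int3_eq]
  rw [← intervalIntegral.integral_const_mul, ← intervalIntegral.integral_sub
    (f := fun t => lam * area2 fun q => G (t, q))
    ((continuous_const.mul c1).intervalIntegrable _ _) (c2.intervalIntegrable _ _)]
  refine intervalIntegral.integral_congr fun t _ => ?_
  have hc : Continuous fun z : ℝ × ℝ => G (t, z) :=
    hgn.comp (continuous_const.prodMk continuous_id)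
  have hc' : Continuous fun z : ℝ × ℝ => F (t, z) :=
    hqc.comp (continuous_const.prodMk continuous_id)
  have := area2_add (F := fun z => lam * G (t, z) - F (t, z))
    (G := fun z => F (t, z)) ((continuous_const.mul hc).sub hc') hc'
  simp only [sub_add_cancel, area2_const_mul] at this
  linarith

lemma env_pt {α β lam G d ε : ℝ} (hε : 0 < ε) (hG : 0 ≤ G)
    (h : ∀ s ∈ Icc (0 : ℝ) 1, α * √(1 - s) + β * √s ≤ lam - s) :
    α * G + β * |d| + d ^ 2 / (√(G ^ 2 + d ^ 2) + ε) ≤ lam * √(G ^ 2 + d ^ 2) := by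
  set g := √(G ^ 2 + d ^ 2) with hg
  have hg2 : g ^ 2 = G ^ 2 + d ^ 2 := Real.sq_sqrt (by positivity)
  rcases (Real.sqrt_nonneg (G ^ 2 + d ^ 2)).eq_or_lt with h0 | h0
  · rw [← hg] at h0
    obtain ⟨rfl, rfl⟩ : G = 0 ∧ d = 0 := by
      constructor <;> nlinarith [sq_nonneg G, sq_nonneg d]
    simp [← h0]
  rw [← hg] at h0
  have hdiv : d ^ 2 / (g + ε) ≤ d ^ 2 / g :=
    div_le_div_of_nonneg_left (sq_nonneg d) h0 (by linarith)
  set s := d ^ 2 / g ^ 2 with hs
  have hs1 : s ≤ 1 := by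
    rw [hs, div_le_one (by positivity), hg2]
    linarith [sq_nonneg G]
  have hp := h s ⟨by positivity, hs1⟩
  have e1 : √s = |d| / g := by
    rw [hs, show d ^ 2 / g ^ 2 = (|d| / g) ^ 2 by rw [div_pow, sq_abs],
      Real.sqrt_sq (by positivity)]
  have e2 : √(1 - s) = G / g := by
    rw [show 1 - s = (G / g) ^ 2 by rw [hs, div_pow]; field_simp; linarith,
      Real.sqrt_sq (by positivity)]
  rw [e1, e2, hs] at hp
  have := mul_le_mul_of_nonneg_left hp h0.le
  have e3 : g * (α * (G / g) + β * (|d| / g)) = α * G + β * |d| := by field_simp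
  have e4 : g * (lam - d ^ 2 / g ^ 2) = lam * g - d ^ 2 / g := by field_simp
  linarith

/-- The envelope bound along the first axis. -/
lemma lowE_of_slices (hw : Dens w) {ε : ℝ} (hε : 0 < ε) {h X Y : ℝ → ℝ}
    (hX : Continuous X) (hY : Continuous Y) (hX0 : ∀ t, 0 ≤ X t) (hY0 : ∀ t, 0 ≤ Y t)
    (hb : ∀ t, 2 * h (secA w t) ≤ tv2 (sec w t) + 2 * (X t + Y t)) {t₀ t₁ : ℝ}
    (h0 : ∀ t, secA w t₀ ≤ secA w t) (h1 : ∀ t, secA w t ≤ secA w t₁) {lam : ℝ} :
    LowE h lam (int3 w) (secA w t₀) (secA w t₁)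
      ((lam * int3 (gnorm w) - int3 (share ε w e₁)) / 2 + lam * ∫ t in (0 : ℝ)..1, X t)
      (∫ t in (0 : ℝ)..1, Y t) := by
  intro H C M α β hβc hβ
  set A := secA w
  set D := secD w
  set b := Set.IccExtend (h0 t₁) ((Icc (A t₀) (A t₁)).domRestrict β)
  have hbc : Continuous b := (continuousOn_iff_continuous_domRestrict.1 hβc).Icc_extend'
  have hbA : ∀ t, b (A t) = β (A t) := fun t => Set.IccExtend_of_mem _ _ ⟨h0 t, h1 t⟩
  have hA := continuous_secA hw
  have hD := continuous_secD hw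
  have hgn := continuous_gnorm hw
  have hqc := continuous_share hw hε e₁
  have hrc : Continuous fun p => lam * gnorm w p - share ε w e₁ p :=
    (continuous_const.mul hgn).sub hqc
  have hpt : ∀ t, H * A t + C + b (A t) * |D t| / 2 ≤
      area2 (fun z => lam * gnorm w (t, z) - share ε w e₁ (t, z)) / 2 + (lam * X t + M * Y t) := by
    intro t
    obtain ⟨α0, αM, b0, hl, henv⟩ := hβ (A t) ⟨h0 t, h1 t⟩
    have αl : α (A t) ≤ lam := by
      have := henv 0 ⟨le_rfl, zero_le_one⟩
      simpa using this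
    have hg2 := continuous_grad2 (dens2_sec hw t).smooth
    have hd : Continuous fun z : ℝ × ℝ => fderiv ℝ w (t, z) e₁ :=
      (continuous_dir hw e₁).comp (continuous_const.prodMk continuous_id)
    have hDabs : |D t| ≤ area2 fun z => |fderiv ℝ w (t, z) e₁| := by
      refine abs_le.2 ⟨?_, area2_mono hd hd.abs fun z => le_abs_self _⟩
      have h1 := area2_mono (continuous_const.mul hd) hd.abs
        (F := fun z => (-1) * fderiv ℝ w (t, z) e₁) fun z => by
          rw [neg_one_mul]; exact neg_le_abs _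
      rw [area2_const_mul, neg_one_mul] at h1
      have : D t = area2 fun z => fderiv ℝ w (t, z) e₁ := rfl
      linarith
    have hI : α (A t) * tv2 (sec w t) + β (A t) * |D t| ≤
        area2 fun z => lam * gnorm w (t, z) - share ε w e₁ (t, z) := by
      refine (add_le_add le_rfl (mul_le_mul_of_nonneg_left hDabs b0)).trans ?_
      rw [show tv2 (sec w t) = area2 (grad2 (sec w t)) from rfl, ← area2_const_mul,
        ← area2_const_mul, ← area2_add
          (F := fun q => α (A t) * grad2 (sec w t) q)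
          (G := fun q => β (A t) * |fderiv ℝ w (t, q) e₁|)
          (continuous_const.mul hg2) (continuous_const.mul hd.abs)]
      refine area2_mono ((continuous_const.mul hg2).add (continuous_const.mul hd.abs))
        (hrc.comp (continuous_const.prodMk continuous_id)) fun z => ?_
      have hf : HasFDerivAt (sec w t)
          ((fderiv ℝ w (t, z)).comp (ContinuousLinearMap.inr ℝ ℝ (ℝ × ℝ))) z :=
        (hw.smooth.differentiable two_ne_zero (t, z)).hasFDerivAt.comp z
          ((hasFDerivAt_const t z).prodMk (hasFDerivAt_id z))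
      have eg : gnorm w (t, z) =
          √(grad2 (sec w t) z ^ 2 + fderiv ℝ w (t, z) e₁ ^ 2) := by
        rw [grad2, hf.fderiv, Real.sq_sqrt (by positivity), gnorm]
        simp only [ContinuousLinearMap.coe_comp, Function.comp_apply,
          ContinuousLinearMap.inr_apply, e₁, e₂, e₃]
        ring_nf
      have := env_pt (d := fderiv ℝ w (t, z) e₁) (G := grad2 (sec w t) z) hε (Real.sqrt_nonneg _)
        henv
      rw [share, eg]
      linarith
    rw [hbA]
    have h2 := mul_le_mul_of_nonneg_left (hb t) α0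
    have h3 := mul_le_mul_of_nonneg_right αl (hX0 t)
    have h4 := mul_le_mul_of_nonneg_right αM (hY0 t)
    linarith
  have hab : Continuous fun t => b (A t) * |D t| := (hbc.comp hA).mul hD.abs
  have hAC : Continuous fun t => H * A t + C := (continuous_const.mul hA).add continuous_const
  have hR := (continuous_sec hrc).div_const 2
  have hXY : Continuous fun t => lam * X t + M * Y t :=
    (continuous_const.mul hX).add (continuous_const.mul hY)
  have hI := intervalIntegral.integral_mono_on (μ := volume) zero_le_one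
    ((hAC.add (hab.div_const 2)).intervalIntegrable 0 1)
    ((hR.add hXY).intervalIntegrable 0 1) fun t _ => hpt t
  simp only [Pi.add_apply] at hI
  rw [intervalIntegral.integral_add (hAC.intervalIntegrable _ _)
      ((hab.div_const 2).intervalIntegrable _ _),
    intervalIntegral.integral_add (f := fun t => H * A t)
      ((continuous_const.mul hA).intervalIntegrable _ _) intervalIntegrable_const,
    intervalIntegral.integral_add (hR.intervalIntegrable _ _) (hXY.intervalIntegrable _ _),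
    intervalIntegral.integral_add (f := fun t => lam * X t) (g := fun t => M * Y t)
      ((continuous_const.mul hX).intervalIntegrable _ _)
      ((continuous_const.mul hY).intervalIntegrable _ _),
    intervalIntegral.integral_div, intervalIntegral.integral_div,
    intervalIntegral.integral_const_mul, intervalIntegral.integral_const_mul,
    intervalIntegral.integral_const_mul,
    ← int3_eq (fun p => lam * gnorm w p - share ε w e₁ p),
    intervalIntegral.integral_const, sub_zero, one_smul] at hI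
  have hV : ∫ t in (0 : ℝ)..1, A t = int3 w := rfl
  rw [hV, int3_lam_sub hgn hqc] at hI
  have hc := circuit hw hbc (t₀ := t₀) (t₁ := t₁)
    (fun t => by rw [hbA]; exact (hβ _ ⟨h0 t, h1 t⟩).2.2.1)
  have hbeq : ∫ x in A t₀..A t₁, b x = ∫ x in A t₀..A t₁, β x :=
    intervalIntegral.integral_congr fun x hx => by
      rw [Set.uIcc_of_le (h0 t₁)] at hx
      exact Set.IccExtend_of_mem _ _ hx
  linarith

/-- The coupled bound along the first axis. -/
lemma lowR_of_slices (hw : Dens w) {ε : ℝ} (hε : 0 < ε) {h X : ℝ → ℝ} (hh : ∀ x, 0 ≤ h x)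
    (hX : Continuous X) (hX0 : ∀ t, 0 ≤ X t)
    (hb : ∀ t, 2 * h (secA w t) ≤ tv2 (sec w t) + 2 * X t) {t₀ t₁ : ℝ}
    (h0 : ∀ t, secA w t₀ ≤ secA w t) (h1 : ∀ t, secA w t ≤ secA w t₁) {lam q ρ : ℝ} (hq : 0 < q)
    (hρ : 0 ≤ ρ) (hlam : 1 ≤ lam)
    (hs : ∀ s ∈ Icc (0 : ℝ) 1, q ^ 2 * ((1 - s) + ρ ^ 2 * s) ≤ (lam - s) ^ 2) :
    LowR h ρ (int3 w) (secA w t₀) (secA w t₁)
      ((lam * int3 (gnorm w) - int3 (share ε w e₁)) / 2 / q + ∫ t in (0 : ℝ)..1, X t) := by
  intro H C β hβc hβ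
  set A := secA w
  set D := secD w
  set b := Set.IccExtend (h0 t₁) ((Icc (A t₀) (A t₁)).domRestrict β)
  have hbc : Continuous b := (continuousOn_iff_continuous_domRestrict.1 hβc).Icc_extend'
  have hbA : ∀ t, b (A t) = β (A t) := fun t => Set.IccExtend_of_mem _ _ ⟨h0 t, h1 t⟩
  have hA := continuous_secA hw
  have hD := continuous_secD hw
  have hgn := continuous_gnorm hw
  have hqc := continuous_share hw hε e₁
  have hrc : Continuous fun p => lam * gnorm w p - share ε w e₁ p :=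
    (continuous_const.mul hgn).sub hqc
  have hpt : ∀ t, H * A t + C + ρ * (b (A t) * |D t| / 2) ≤
      area2 (fun z => lam * gnorm w (t, z) - share ε w e₁ (t, z)) / 2 / q + X t := by
    intro t
    obtain ⟨b0, b1, b2⟩ := hβ (A t) ⟨h0 t, h1 t⟩
    have hg2 := continuous_grad2 (dens2_sec hw t).smooth
    have hd : Continuous fun z : ℝ × ℝ => fderiv ℝ w (t, z) e₁ :=
      (continuous_dir hw e₁).comp (continuous_const.prodMk continuous_id)
    have hr : Continuous fun z : ℝ × ℝ => √(grad2 (sec w t) z ^ 2 +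
        (ρ * fderiv ℝ w (t, z) e₁) ^ 2) := ((hg2.pow 2).add ((continuous_const.mul hd).pow 2)).sqrt
    set T := tv2 (sec w t)
    have hT : 0 ≤ T := intervalIntegral.integral_nonneg zero_le_one fun y _ =>
      intervalIntegral.integral_nonneg zero_le_one fun z _ => Real.sqrt_nonneg _
    have hI : q * √(T ^ 2 + (ρ * D t) ^ 2) ≤
        area2 fun z => lam * gnorm w (t, z) - share ε w e₁ (t, z) := by
      have h1 := sqrt_le_area2 (h := fun z => ρ * fderiv ℝ w (t, z) e₁) hg2
        (continuous_const.mul hd)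
      rw [area2_const_mul] at h1
      refine (mul_le_mul_of_nonneg_left h1 hq.le).trans ?_
      rw [← area2_const_mul]
      refine area2_mono (continuous_const.mul hr)
        (hrc.comp (continuous_const.prodMk continuous_id)) fun z => ?_
      have hf : HasFDerivAt (sec w t)
          ((fderiv ℝ w (t, z)).comp (ContinuousLinearMap.inr ℝ ℝ (ℝ × ℝ))) z :=
        (hw.smooth.differentiable two_ne_zero (t, z)).hasFDerivAt.comp z
          ((hasFDerivAt_const t z).prodMk (hasFDerivAt_id z))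
      have eg : gnorm w (t, z) =
          √(grad2 (sec w t) z ^ 2 + fderiv ℝ w (t, z) e₁ ^ 2) := by
        rw [grad2, hf.fderiv, Real.sq_sqrt (by positivity), gnorm]
        simp only [ContinuousLinearMap.coe_comp, Function.comp_apply,
          ContinuousLinearMap.inr_apply, e₁, e₂, e₃]
        ring_nf
      have := couple_pt (d := fderiv ℝ w (t, z) e₁) (G := grad2 (sec w t) z) hε hlam hs
      rw [share, eg]
      linarith
    have hc := calib_pt (d := ρ * |D t| / 2) (hh (A t)) (show β (A t) ^ 2 ≤ 1 by nlinarith) b1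
    have hs2 : 2 * √(h (A t) ^ 2 + (ρ * |D t| / 2) ^ 2) ≤
        √(T ^ 2 + (ρ * D t) ^ 2) + 2 * X t := by
      have hqq : √(T ^ 2 + (ρ * D t) ^ 2) ^ 2 = T ^ 2 + (ρ * D t) ^ 2 :=
        Real.sq_sqrt (by positivity)
      have hTle : T ≤ √(T ^ 2 + (ρ * D t) ^ 2) := Real.le_sqrt_of_sq_le (by nlinarith)
      have hr : √(h (A t) ^ 2 + (ρ * |D t| / 2) ^ 2) ≤
          (√(T ^ 2 + (ρ * D t) ^ 2) + 2 * X t) / 2 := by
        rw [Real.sqrt_le_left (by linarith [hX0 t, Real.sqrt_nonneg (T ^ 2 + (ρ * D t) ^ 2)]),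
          div_pow, mul_pow, sq_abs]
        nlinarith [mul_self_le_mul_self (mul_nonneg zero_le_two (hh (A t))) (hb t),
          mul_le_mul_of_nonneg_right hTle (hX0 t)]
      linarith
    rw [hbA, ← sub_le_iff_le_add, le_div_iff₀ hq, le_div_iff₀ two_pos]
    nlinarith [mul_le_mul_of_nonneg_left hc hq.le, mul_le_mul_of_nonneg_left hs2 hq.le]
  have hab : Continuous fun t => b (A t) * |D t| := (hbc.comp hA).mul hD.abs
  have hAC : Continuous fun t => H * A t + C := (continuous_const.mul hA).add continuous_const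
  have hR := ((continuous_sec hrc).div_const 2).div_const q
  have hI := intervalIntegral.integral_mono_on (μ := volume) zero_le_one
    ((hAC.add (continuous_const.mul (hab.div_const 2))).intervalIntegrable 0 1)
    ((hR.add hX).intervalIntegrable 0 1) fun t _ => hpt t
  simp only [Pi.add_apply, Pi.mul_apply] at hI
  rw [intervalIntegral.integral_add (g := fun u => ρ * (b (A u) * |D u| / 2))
      (hAC.intervalIntegrable _ _)
      ((continuous_const.mul (hab.div_const 2)).intervalIntegrable _ _),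
    intervalIntegral.integral_add (f := fun t => H * A t)
      ((continuous_const.mul hA).intervalIntegrable _ _) intervalIntegrable_const,
    intervalIntegral.integral_add (hR.intervalIntegrable _ _) (hX.intervalIntegrable _ _),
    intervalIntegral.integral_div, intervalIntegral.integral_div,
    intervalIntegral.integral_const_mul, intervalIntegral.integral_const_mul,
    intervalIntegral.integral_div,
    ← int3_eq (fun p => lam * gnorm w p - share ε w e₁ p),
    intervalIntegral.integral_const, sub_zero, one_smul] at hI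
  have hV : ∫ t in (0 : ℝ)..1, A t = int3 w := rfl
  rw [hV, int3_lam_sub hgn hqc] at hI
  have hc := circuit hw hbc (t₀ := t₀) (t₁ := t₁)
    (fun t => by rw [hbA]; exact (hβ _ ⟨h0 t, h1 t⟩).1)
  have hbeq : ∫ x in A t₀..A t₁, b x = ∫ x in A t₀..A t₁, β x :=
    intervalIntegral.integral_congr fun x hx => by
      rw [Set.uIcc_of_le (h0 t₁)] at hx
      exact Set.IccExtend_of_mem _ _ hx
  nlinarith [mul_le_mul_of_nonneg_left hc hρ]


lemma max_zero_kfun {k l x : ℝ} (hk : 0 ≤ k) (hl : 0 ≤ l) (hx : 0 ≤ x) :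
    max 0 (kfun k l x) = kfun k l x := max_eq_right (kfun_nonneg hk hl hx)

/-- All the bounds along the first axis. -/
lemma axisC_one {δ K₁ K₂ K₀ : ℝ} (hδ : 0 < δ) (hK₁ : 0 ≤ K₁) (hK₂ : 0 ≤ K₂) (hK₀ : 0 ≤ K₀)
    (h₁ : ∀ f, Dens2 f → 2 * gfun (area2 f) ≤ tv2 f + δ + K₁ * area2 (fun p => f p * (1 - f p)))
    (h₂ : ∀ f, Dens2 f → ∀ y₀ z₀ : ℝ, 2 * Real.sqrt (Real.pi * area2 f) ≤
      tv2 f + 2 * (∫ z in (0 : ℝ)..1, f (y₀, z)) + 2 * (∫ y in (0 : ℝ)..1, f (y, z₀)) + δ +
        K₂ * area2 (fun p => f p * (1 - f p)))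
    (hT : ∀ k l : ℝ, k ∈ Icc (0 : ℝ) 1 → l ∈ Icc (0 : ℝ) 1 → ∀ f, Dens2 f → ∀ y₀ z₀ : ℝ,
      2 * kfun k l (area2 f) ≤ tv2 f + 2 * k * (∫ z in (0 : ℝ)..1, f (y₀, z))
        + 2 * l * (∫ y in (0 : ℝ)..1, f (y, z₀)) + δ + K₀ * area2 (fun p => f p * (1 - f p)))
    (hw : Dens w) {t₀ t₁ : ℝ} (h0 : ∀ t, secA w t₀ ≤ secA w t) (h1 : ∀ t, secA w t ≤ secA w t₁)
    (y₀ z₀ : ℝ) {Φ E v m n S : ℝ} (hv : int3 w = v) (hΦ : int3 (gnorm w) / 2 = Φ)
    (hE : int3 (fun p => w p * (1 - w p)) = E) (hS : int3 (share δ w e₁) / 2 = S)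
    (hm : (∫ t in (0 : ℝ)..1, ∫ z in (0 : ℝ)..1, w (t, y₀, z)) = m)
    (hn : (∫ t in (0 : ℝ)..1, ∫ y in (0 : ℝ)..1, w (t, y, z₀)) = n) :
    0 ≤ secA w t₀ ∧ secA w t₀ ≤ v ∧ v ≤ secA w t₁ ∧ secA w t₁ ≤ 1 ∧
      Low gfun v (secA w t₀) (secA w t₁) (Φ + δ + (K₁ + K₂ + K₀) * E) ∧
      Low (fun x => Real.sqrt (Real.pi * x)) v (secA w t₀) (secA w t₁)
        (Φ + δ + (K₁ + K₂ + K₀) * E + (m + n)) ∧
      ∀ k l : ℝ, k ∈ Icc (0 : ℝ) 1 → l ∈ Icc (0 : ℝ) 1 →
        Low (kfun k l) v (secA w t₀) (secA w t₁)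
          (Φ + δ + (K₁ + K₂ + K₀) * E + (k * m + l * n)) ∧
        (∀ lam q ρ : ℝ, 0 < q → 0 ≤ ρ → 1 ≤ lam →
          (∀ s ∈ Icc (0 : ℝ) 1, q ^ 2 * ((1 - s) + ρ ^ 2 * s) ≤ (lam - s) ^ 2) →
          LowR (kfun k l) ρ v (secA w t₀) (secA w t₁)
            ((lam * (Φ + δ + (K₁ + K₂ + K₀) * E) - S) / q + (k * m + l * n))) ∧
        ∀ lam : ℝ, 1 ≤ lam → LowE (kfun k l) lam v (secA w t₀) (secA w t₁)
          (lam * (Φ + δ + (K₁ + K₂ + K₀) * E) - S) (k * m + l * n) := by
  obtain ⟨g0, g1, g2, g3, hg, hr⟩ := axis_one hδ hK₁ hK₂ h₁ h₂ hw h0 h1 y₀ z₀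
  obtain ⟨-, -, -, -, hk⟩ := axisK_one hδ hK₀ hT hw h0 h1 y₀ z₀
  have hF : Continuous fun p => w p * (1 - w p) :=
    hw.smooth.continuous.mul (continuous_const.sub hw.smooth.continuous)
  have hE0 : ∀ t, 0 ≤ area2 fun z => w (t, z) * (1 - w (t, z)) := fun t =>
    intervalIntegral.integral_nonneg zero_le_one fun y _ =>
      intervalIntegral.integral_nonneg zero_le_one fun z _ =>
        mul_nonneg (hw.mem _).1 (sub_nonneg.2 (hw.mem _).2)
  have hEn : 0 ≤ E := hE ▸ intervalIntegral.integral_nonneg zero_le_one fun t _ => hE0 t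
  have mono : ∀ {h : ℝ → ℝ} {P Q : ℝ}, Low h v (secA w t₀) (secA w t₁) P → P ≤ Q →
      Low h v (secA w t₀) (secA w t₁) Q := fun hP hPQ H C β hc hb => (hP H C β hc hb).trans hPQ
  rw [hv, hΦ, hE] at hg
  rw [hv, hΦ, hE, hm, hn] at hr
  simp only [hv, hΦ, hE, hm, hn] at hk
  refine ⟨g0, hv ▸ g1, hv ▸ g2, g3, mono hg (by nlinarith), mono hr (by nlinarith),
    fun k l hk' hl' => ⟨mono (hk k l hk' hl') (by nlinarith), fun lam q ρ hq hρ hlam hs => ?_,
      fun lam hlam => ?_⟩⟩
  rotate_left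
  · have hy : Continuous fun t => ∫ z in (0 : ℝ)..1, w (t, y₀, z) :=
      continuous_inner (F := fun p => w (p.1, y₀, p.2)) (hw.smooth.continuous.comp (by fun_prop))
    have hz : Continuous fun t => ∫ y in (0 : ℝ)..1, w (t, y, z₀) :=
      continuous_inner (F := fun p => w (p.1, p.2, z₀)) (hw.smooth.continuous.comp (by fun_prop))
    have hlow := lowE_of_slices hw hδ (h := kfun k l) (lam := lam)
      (X := fun t => δ / 2 + K₀ / 2 * area2 fun z => w (t, z) * (1 - w (t, z)))
      (Y := fun t => k * (∫ z in (0 : ℝ)..1, w (t, y₀, z))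
        + l * ∫ y in (0 : ℝ)..1, w (t, y, z₀))
      (continuous_const.add (continuous_const.mul (continuous_sec hF)))
      ((continuous_const.mul hy).add (continuous_const.mul hz))
      (fun t => add_nonneg (by linarith) (mul_nonneg (by linarith) (hE0 t)))
      (fun t => add_nonneg
        (mul_nonneg hk'.1 (intervalIntegral.integral_nonneg zero_le_one fun z _ => (hw.mem _).1))
        (mul_nonneg hl'.1 (intervalIntegral.integral_nonneg zero_le_one fun y _ => (hw.mem _).1)))
      (fun t => (hT k l hk' hl' _ (dens2_sec hw t) y₀ z₀).trans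
        (le_of_eq (by simp only [sec]; ring)))
      h0 h1
    intro H C M α β hβc hβ
    have hres := hlow H C M α β hβc hβ
    rw [intervalIntegral.integral_add (f := fun t => k * ∫ z in (0 : ℝ)..1, w (t, y₀, z))
        (g := fun t => l * ∫ y in (0 : ℝ)..1, w (t, y, z₀))
        ((continuous_const.mul hy).intervalIntegrable _ _)
        ((continuous_const.mul hz).intervalIntegrable _ _),
      intervalIntegral.integral_const_mul, intervalIntegral.integral_const_mul,
      int3_add_const hF, hv, hE, hm, hn] at hres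
    have herr : lam * (δ / 2 + K₀ / 2 * E) ≤ lam * (δ + (K₁ + K₂ + K₀) * E) :=
      mul_le_mul_of_nonneg_left
        (by nlinarith [mul_nonneg hK₁ hEn, mul_nonneg hK₂ hEn, mul_nonneg hK₀ hEn])
        (by linarith)
    have e : (lam * int3 (gnorm w) - int3 (share δ w e₁)) / 2 = lam * Φ - S := by
      rw [← hΦ, ← hS]; ring
    linarith
  have hy : Continuous fun t => ∫ z in (0 : ℝ)..1, w (t, y₀, z) :=
    continuous_inner (F := fun p => w (p.1, y₀, p.2)) (hw.smooth.continuous.comp (by fun_prop))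
  have hz : Continuous fun t => ∫ y in (0 : ℝ)..1, w (t, y, z₀) :=
    continuous_inner (F := fun p => w (p.1, p.2, z₀)) (hw.smooth.continuous.comp (by fun_prop))
  have hXc : Continuous fun t => δ / 2 + K₀ / 2 * area2 fun z => w (t, z) * (1 - w (t, z)) :=
    continuous_const.add (continuous_const.mul (continuous_sec hF))
  have hLc : Continuous fun t => k * (∫ z in (0 : ℝ)..1, w (t, y₀, z))
      + l * ∫ y in (0 : ℝ)..1, w (t, y, z₀) :=
    (continuous_const.mul hy).add (continuous_const.mul hz)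
  have hlow := lowR_of_slices hw hδ (h := fun x => max 0 (kfun k l x))
    (X := fun t => (δ / 2 + K₀ / 2 * area2 fun z => w (t, z) * (1 - w (t, z)))
      + (k * (∫ z in (0 : ℝ)..1, w (t, y₀, z)) + l * ∫ y in (0 : ℝ)..1, w (t, y, z₀)))
    (fun x => le_max_left _ _) (hXc.add hLc)
    (fun t => add_nonneg (add_nonneg (by linarith) (mul_nonneg (by linarith) (hE0 t)))
      (add_nonneg
        (mul_nonneg hk'.1 (intervalIntegral.integral_nonneg zero_le_one fun z _ => (hw.mem _).1))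
        (mul_nonneg hl'.1 (intervalIntegral.integral_nonneg zero_le_one fun y _ => (hw.mem _).1))))
    (fun t => by
      rw [max_zero_kfun hk'.1 hl'.1 (secA_mem hw t).1]
      exact (hT k l hk' hl' _ (dens2_sec hw t) y₀ z₀).trans (le_of_eq (by simp only [sec]; ring)))
    h0 h1 hq hρ hlam hs
  intro H C β hβc hβ
  have hres := hlow H C β hβc fun x hx => by
    simp only [max_zero_kfun hk'.1 hl'.1 (g0.trans hx.1)]
    exact hβ x hx
  rw [intervalIntegral.integral_add (hXc.intervalIntegrable _ _) (hLc.intervalIntegrable _ _),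
    intervalIntegral.integral_add (f := fun t => k * ∫ z in (0 : ℝ)..1, w (t, y₀, z))
      (g := fun t => l * ∫ y in (0 : ℝ)..1, w (t, y, z₀))
      ((continuous_const.mul hy).intervalIntegrable _ _)
      ((continuous_const.mul hz).intervalIntegrable _ _),
    intervalIntegral.integral_const_mul, intervalIntegral.integral_const_mul,
    int3_add_const hF, hv, hE, hm, hn] at hres
  have hql : q ≤ lam := by
    have := hs 0 ⟨le_rfl, zero_le_one⟩
    nlinarith
  have herr : δ / 2 + K₀ / 2 * E ≤ lam * (δ + (K₁ + K₂ + K₀) * E) / q := by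
    rw [le_div_iff₀ hq]
    have hX : δ / 2 + K₀ / 2 * E ≤ δ + (K₁ + K₂ + K₀) * E := by
      nlinarith [mul_nonneg hK₁ hEn, mul_nonneg hK₂ hEn, mul_nonneg hK₀ hEn]
    calc (δ / 2 + K₀ / 2 * E) * q ≤ (δ + (K₁ + K₂ + K₀) * E) * q :=
          mul_le_mul_of_nonneg_right hX hq.le
      _ ≤ (δ + (K₁ + K₂ + K₀) * E) * lam :=
          mul_le_mul_of_nonneg_left hql (by positivity)
      _ = lam * (δ + (K₁ + K₂ + K₀) * E) := mul_comm _ _
  have e : (lam * int3 (gnorm w) - int3 (share δ w e₁)) / 2 / q =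
      (lam * Φ - S) / q := by
    rw [← hΦ, ← hS]; ring
  have e2 : (lam * (Φ + δ + (K₁ + K₂ + K₀) * E) - S) / q =
      (lam * Φ - S) / q + lam * (δ + (K₁ + K₂ + K₀) * E) / q := by ring
  linarith

end Axis

open Axis in
/-- All bounds of the three axes at any choice of least and greatest slices, and the shares `S` of
the axes in the perimeter. -/
theorem axisC_at {δ : ℝ} (hδ : 0 < δ) : ∃ K : ℝ, 0 ≤ K ∧ ∀ w, Dens w → ∀ a₁ b₁ a₂ b₂ a₃ b₃ : ℝ,
    (∀ t, secA w a₁ ≤ secA w t) → (∀ t, secA w t ≤ secA w b₁) →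
    (∀ t, secA (fun p => w (swap₂ p)) a₂ ≤ secA (fun p => w (swap₂ p)) t) →
    (∀ t, secA (fun p => w (swap₂ p)) t ≤ secA (fun p => w (swap₂ p)) b₂) →
    (∀ t, secA (fun p => w (cyc₃ p)) a₃ ≤ secA (fun p => w (cyc₃ p)) t) →
    (∀ t, secA (fun p => w (cyc₃ p)) t ≤ secA (fun p => w (cyc₃ p)) b₃) →
    ∀ f a : Fin 3 → ℝ,
      f = ![secA w a₁, secA (fun p => w (swap₂ p)) a₂, secA (fun p => w (cyc₃ p)) a₃] →
      a = ![secA w b₁, secA (fun p => w (swap₂ p)) b₂, secA (fun p => w (cyc₃ p)) b₃] →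
    ∃ S : Fin 3 → ℝ,
      (∀ i, 0 ≤ S i) ∧ int3 (gnorm w) / 2 - δ ≤ ∑ i, S i ∧
      ∀ i, 0 ≤ f i ∧ f i ≤ int3 w ∧ int3 w ≤ a i ∧ a i ≤ 1 ∧
        Low gfun (int3 w) (f i) (a i)
          (int3 (gnorm w) / 2 + δ + K * int3 (fun p => w p * (1 - w p))) ∧
        Low (fun x => Real.sqrt (Real.pi * x)) (int3 w) (f i) (a i)
          (int3 (gnorm w) / 2 + δ + K * int3 (fun p => w p * (1 - w p)) + (f (i + 1) + f (i + 2))) ∧
        ∀ k l : ℝ, k ∈ Icc (0 : ℝ) 1 → l ∈ Icc (0 : ℝ) 1 →
          Low (kfun k l) (int3 w) (f i) (a i)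
            (int3 (gnorm w) / 2 + δ + K * int3 (fun p => w p * (1 - w p))
              + (k * f (i + 1) + l * f (i + 2))) ∧
          (∀ lam q ρ : ℝ, 0 < q → 0 ≤ ρ → 1 ≤ lam →
            (∀ s ∈ Icc (0 : ℝ) 1, q ^ 2 * ((1 - s) + ρ ^ 2 * s) ≤ (lam - s) ^ 2) →
            LowR (kfun k l) ρ (int3 w) (f i) (a i)
              ((lam * (int3 (gnorm w) / 2 + δ + K * int3 (fun p => w p * (1 - w p))) - S i) / q
                + (k * f (i + 1) + l * f (i + 2)))) ∧
          ∀ lam : ℝ, 1 ≤ lam → LowE (kfun k l) lam (int3 w) (f i) (a i)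
            (lam * (int3 (gnorm w) / 2 + δ + K * int3 (fun p => w p * (1 - w p))) - S i)
            (k * f (i + 1) + l * f (i + 2)) := by
  obtain ⟨K₁, hK₁, h₁⟩ := torus2_lower hδ
  obtain ⟨K₂, hK₂, h₂⟩ := cut2_lower hδ
  obtain ⟨K₀, hK₀, hT⟩ := torusK_lower hδ
  refine ⟨K₁ + K₂ + K₀, by positivity, fun w hw a₁ b₁ a₂ b₂ a₃ b₃ hm₁ hM₁ hm₂ hM₂ hm₃ hM₃ f a hf ha => ?_⟩
  subst hf ha
  set u := fun p => w (swap₂ p) with hu
  set v := fun p => w (cyc₃ p) with hv
  have hud : Dens u := dens_comp hw _ fun e he => by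
    rcases he with rfl | rfl | rfl <;> simp [swap₂_apply, e₁, e₂, e₃]
  have hvd : Dens v := dens_comp hw _ fun e he => by
    rcases he with rfl | rfl | rfl <;> simp [cyc₃_apply, e₁, e₂, e₃]
  have hw0 := hw.smooth.continuous
  have hF : Continuous fun p => w p * (1 - w p) := hw0.mul (continuous_const.sub hw0)
  have hg : Continuous (gnorm w) :=
    ((((continuous_dir hw e₁).pow 2).add ((continuous_dir hw e₂).pow 2)).add
      ((continuous_dir hw e₃).pow 2)).sqrt
  have gu : ∀ p, gnorm u p = gnorm w (swap₂ p) := fun p => by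
    rw [gnorm_comp hw, gnorm]
    simp only [swap₂_apply, e₁, e₂, e₃]
    ring_nf
  have gv : ∀ p, gnorm v p = gnorm w (cyc₃ p) := fun p => by
    rw [gnorm_comp hw, gnorm]
    simp only [cyc₃_apply, e₁, e₂, e₃]
    ring_nf
  have c12 : ∫ t in (0 : ℝ)..1, ∫ y in (0 : ℝ)..1, u (t, y, a₃) = secA v a₃ :=
    integral_swap (G := fun p : ℝ × ℝ => w (p.2, p.1, a₃))
      (hw0.comp (continuous_snd.prodMk (continuous_fst.prodMk continuous_const))) 0 1 zero_le_one
  have c31 : ∫ t in (0 : ℝ)..1, ∫ z in (0 : ℝ)..1, v (t, a₁, z) = secA w a₁ :=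
    integral_swap (G := fun p : ℝ × ℝ => w (a₁, p.2, p.1))
      (hw0.comp (continuous_const.prodMk (continuous_snd.prodMk continuous_fst))) 0 1 zero_le_one
  have c32 : ∫ t in (0 : ℝ)..1, ∫ y in (0 : ℝ)..1, v (t, y, a₂) = secA u a₂ :=
    integral_swap (G := fun p : ℝ × ℝ => w (p.2, a₂, p.1))
      (hw0.comp (continuous_snd.prodMk (continuous_const.prodMk continuous_fst))) 0 1 zero_le_one
  have hΦu : int3 (gnorm u) = int3 (gnorm w) := by
    rw [show gnorm u = _ from funext gu]; exact int3_swap₂ hg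
  have hΦv : int3 (gnorm v) = int3 (gnorm w) := by
    rw [show gnorm v = _ from funext gv]; exact int3_cyc₃ hg
  have du : ∀ p, share δ u e₁ p = share δ w e₂ (swap₂ p) := fun p => by
    have h : HasFDerivAt u ((fderiv ℝ w (swap₂ p)).comp swap₂) p :=
      (hw.smooth.differentiable two_ne_zero (swap₂ p)).hasFDerivAt.comp p swap₂.hasFDerivAt
    rw [share, share, h.fderiv, gu, ContinuousLinearMap.comp_apply]
    simp [swap₂_apply, e₁, e₂]
  have dv : ∀ p, share δ v e₁ p = share δ w e₃ (cyc₃ p) := fun p => by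
    have h : HasFDerivAt v ((fderiv ℝ w (cyc₃ p)).comp cyc₃) p :=
      (hw.smooth.differentiable two_ne_zero (cyc₃ p)).hasFDerivAt.comp p cyc₃.hasFDerivAt
    rw [share, share, h.fderiv, gv, ContinuousLinearMap.comp_apply]
    simp [cyc₃_apply, e₁, e₃]
  have hSu : int3 (share δ u e₁) = int3 (share δ w e₂) := by
    rw [show share δ u e₁ = _ from funext du]; exact int3_swap₂ (continuous_share hw hδ _)
  have hSv : int3 (share δ v e₁) = int3 (share δ w e₃) := by
    rw [show share δ v e₁ = _ from funext dv]; exact int3_cyc₃ (continuous_share hw hδ _)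
  obtain ⟨p₁, p₂, p₃, p₄, p₅, p₆, r₁⟩ := axisC_one hδ hK₁ hK₂ hK₀ h₁ h₂ hT hw hm₁ hM₁ a₂ a₃
    rfl rfl rfl rfl (m := secA u a₂) (n := secA v a₃) rfl rfl
  obtain ⟨q₁, q₂, q₃, q₄, q₅, q₆, r₂⟩ := axisC_one hδ hK₁ hK₂ hK₀ h₁ h₂ hT hud hm₂ hM₂ a₁ a₃
    (int3_swap₂ hw0) (congrArg (· / 2) hΦu) (int3_swap₂ hF) (congrArg (· / 2) hSu)
    (m := secA w a₁) (n := secA v a₃) rfl c12
  obtain ⟨s₁, s₂, s₃, s₄, s₅, s₆, r₃⟩ := axisC_one hδ hK₁ hK₂ hK₀ h₁ h₂ hT hvd hm₃ hM₃ a₁ a₂
    (int3_cyc₃ hw0) (congrArg (· / 2) hΦv) (int3_cyc₃ hF) (congrArg (· / 2) hSv)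
    (m := secA w a₁) (n := secA u a₂) c31 c32
  have hq0 : ∀ e p, 0 ≤ share δ w e p := fun e p =>
    div_nonneg (sq_nonneg _) (add_nonneg (Real.sqrt_nonneg _) hδ.le)
  have hI0 : ∀ e, 0 ≤ int3 (share δ w e) := fun e =>
    intervalIntegral.integral_nonneg zero_le_one fun t _ =>
      intervalIntegral.integral_nonneg zero_le_one fun y _ =>
        intervalIntegral.integral_nonneg zero_le_one fun z _ => hq0 e _
  refine ⟨![int3 (share δ w e₁) / 2, int3 (share δ w e₂) / 2, int3 (share δ w e₃) / 2], fun i => ?_, ?_,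
    fun i => ?_⟩
  · fin_cases i <;> exact div_nonneg (hI0 _) two_pos.le
  · have hc := fun e => continuous_share hw hδ e
    have hcs : Continuous fun p => share δ w e₁ p + share δ w e₂ p + share δ w e₃ p :=
      ((hc _).add (hc _)).add (hc _)
    have hpt : ∀ p, gnorm w p - δ ≤ share δ w e₁ p + share δ w e₂ p + share δ w e₃ p := fun p => by
      have h0 : 0 ≤ gnorm w p := Real.sqrt_nonneg _
      have h2 : gnorm w p ^ 2 =
          fderiv ℝ w p e₁ ^ 2 + fderiv ℝ w p e₂ ^ 2 + fderiv ℝ w p e₃ ^ 2 :=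
        Real.sq_sqrt (by positivity)
      simp only [share, ← add_div, ← h2]
      rw [le_div_iff₀ (by linarith)]
      nlinarith
    have key : int3 (gnorm w) - δ ≤
        int3 (share δ w e₁) + int3 (share δ w e₂) + int3 (share δ w e₃) := by
      simp only [int3_eq]
      have k := fun e => (continuous_sec (hc e)).intervalIntegrable (μ := volume) 0 1
      rw [← intervalIntegral.integral_add (k e₁) (k e₂),
        ← intervalIntegral.integral_add ((k e₁).add (k e₂)) (k e₃),
        show (∫ t in (0 : ℝ)..1, area2 fun q => gnorm w (t, q)) - δ =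
            ∫ t in (0 : ℝ)..1, ((area2 fun q => gnorm w (t, q)) - δ) by
          rw [intervalIntegral.integral_sub ((continuous_sec hg).intervalIntegrable _ _)
            intervalIntegrable_const]
          simp]
      refine intervalIntegral.integral_mono_on zero_le_one
        (((continuous_sec hg).sub continuous_const).intervalIntegrable _ _)
        (((k e₁).add (k e₂)).add (k e₃)) fun t _ => ?_
      have cq : ∀ F : ℝ × ℝ × ℝ → ℝ, Continuous F → Continuous fun q : ℝ × ℝ => F (t, q) :=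
        fun F hF => hF.comp (continuous_const.prodMk continuous_id)
      rw [← area2_add (cq _ (hc e₁)) (cq _ (hc e₂)),
        ← area2_add ((cq _ (hc e₁)).fun_add (cq _ (hc e₂))) (cq _ (hc e₃))]
      have := area2_mono ((cq _ hg).sub continuous_const) (cq _ hcs) fun q => hpt (t, q)
      have e := area2_add (F := fun q => gnorm w (t, q) - δ) (G := fun _ => δ)
        ((cq _ hg).sub continuous_const) continuous_const
      simp only [sub_add_cancel, area2_const] at e
      simp only [Pi.sub_def] at this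
      linarith
    simp only [Fin.sum_univ_three]
    show int3 (gnorm w) / 2 - δ ≤
      int3 (share δ w e₁) / 2 + int3 (share δ w e₂) / 2 + int3 (share δ w e₃) / 2
    linarith
  fin_cases i
  · exact ⟨p₁, p₂, p₃, p₄, p₅, p₆, r₁⟩
  · refine ⟨q₁, q₂, q₃, q₄, q₅, by simpa [add_comm] using q₆, fun k l hk hl => ?_⟩
    have e : kfun k l = kfun l k := funext fun x => by simp only [kfun]; ac_rfl
    obtain ⟨h1, h2, h3⟩ := r₂ l k hl hk
    refine ⟨by simpa [e, add_comm] using h1, fun lam q ρ hq hρ hlam hs => ?_, fun lam hlam => ?_⟩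
    · simpa [e, add_comm] using h2 lam q ρ hq hρ hlam hs
    · simpa [e, add_comm] using h3 lam hlam
  · exact ⟨s₁, s₂, s₃, s₄, s₅, s₆, r₃⟩

open Axis in
/-- All bounds of the three axes with common least and greatest slice areas, and the shares `S` of
the axes in the perimeter. -/
theorem axisC_bounds {δ : ℝ} (hδ : 0 < δ) : ∃ K : ℝ, 0 ≤ K ∧ ∀ w, Dens w →
    ∃ f a S : Fin 3 → ℝ,
      (∀ i, 0 ≤ S i) ∧ int3 (gnorm w) / 2 - δ ≤ ∑ i, S i ∧
      ∀ i, 0 ≤ f i ∧ f i ≤ int3 w ∧ int3 w ≤ a i ∧ a i ≤ 1 ∧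
        Low gfun (int3 w) (f i) (a i)
          (int3 (gnorm w) / 2 + δ + K * int3 (fun p => w p * (1 - w p))) ∧
        Low (fun x => Real.sqrt (Real.pi * x)) (int3 w) (f i) (a i)
          (int3 (gnorm w) / 2 + δ + K * int3 (fun p => w p * (1 - w p)) + (f (i + 1) + f (i + 2))) ∧
        ∀ k l : ℝ, k ∈ Icc (0 : ℝ) 1 → l ∈ Icc (0 : ℝ) 1 →
          Low (kfun k l) (int3 w) (f i) (a i)
            (int3 (gnorm w) / 2 + δ + K * int3 (fun p => w p * (1 - w p))
              + (k * f (i + 1) + l * f (i + 2))) ∧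
          (∀ lam q ρ : ℝ, 0 < q → 0 ≤ ρ → 1 ≤ lam →
            (∀ s ∈ Icc (0 : ℝ) 1, q ^ 2 * ((1 - s) + ρ ^ 2 * s) ≤ (lam - s) ^ 2) →
            LowR (kfun k l) ρ (int3 w) (f i) (a i)
              ((lam * (int3 (gnorm w) / 2 + δ + K * int3 (fun p => w p * (1 - w p))) - S i) / q
                + (k * f (i + 1) + l * f (i + 2)))) ∧
          ∀ lam : ℝ, 1 ≤ lam → LowE (kfun k l) lam (int3 w) (f i) (a i)
            (lam * (int3 (gnorm w) / 2 + δ + K * int3 (fun p => w p * (1 - w p))) - S i)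
            (k * f (i + 1) + l * f (i + 2)) := by
  obtain ⟨K, hK, h⟩ := axisC_at hδ
  refine ⟨K, hK, fun w hw => ?_⟩
  have hud : Dens (fun p => w (swap₂ p)) := dens_comp hw _ fun e he => by
    rcases he with rfl | rfl | rfl <;> simp [swap₂_apply, e₁, e₂, e₃]
  have hvd : Dens (fun p => w (cyc₃ p)) := dens_comp hw _ fun e he => by
    rcases he with rfl | rfl | rfl <;> simp [cyc₃_apply, e₁, e₂, e₃]
  obtain ⟨a₁, hm₁⟩ := exists_min hw
  obtain ⟨b₁, hM₁⟩ := exists_max hw
  obtain ⟨a₂, hm₂⟩ := exists_min hud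
  obtain ⟨b₂, hM₂⟩ := exists_max hud
  obtain ⟨a₃, hm₃⟩ := exists_min hvd
  obtain ⟨b₃, hM₃⟩ := exists_max hvd
  exact ⟨_, _, h w hw a₁ b₁ a₂ b₂ a₃ b₃ hm₁ hM₁ hm₂ hM₂ hm₃ hM₃ _ _ rfl rfl⟩

/-- The shares add up: three coupled bounds of one axis each give a bound on the perimeter. -/
theorem coupled_sum {h : Fin 3 → ℝ → ℝ} {lam q ρ x f a S H C : Fin 3 → ℝ} {β : Fin 3 → ℝ → ℝ}
    {v Φ P δ : ℝ} (hS : Φ - δ ≤ ∑ i, S i) (hq : ∀ i, 0 < q i)
    (hL : ∀ i, LowR (h i) (ρ i) v (f i) (a i) ((lam i * P - S i) / q i + x i))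
    (hc : ∀ i, ContinuousOn (β i) (Icc (f i) (a i)))
    (hb : ∀ i, ∀ y ∈ Icc (f i) (a i), 0 ≤ β i y ∧
      (H i * y + C i) ^ 2 + h i y ^ 2 * β i y ^ 2 ≤ h i y ^ 2 ∧ β i y ≤ 1) :
    ∑ i, q i * (H i * v + C i + ρ i * (∫ y in (f i)..(a i), β i y) - x i) ≤
      (∑ i, lam i) * P - Φ + δ := by
  have hi : ∀ i, q i * (H i * v + C i + ρ i * (∫ y in (f i)..(a i), β i y) - x i) ≤
      lam i * P - S i := fun i => by
    have h1 := hL i (H i) (C i) (β i) (hc i) (hb i)
    rw [← sub_le_iff_le_add, le_div_iff₀ (hq i)] at h1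
    linarith
  refine (Finset.sum_le_sum fun i _ => hi i).trans ?_
  rw [Finset.sum_sub_distrib, Finset.sum_mul]
  linarith

/-- The shares add up: three envelope bounds of one axis each give a bound on the perimeter. -/
theorem env_sum {h : Fin 3 → ℝ → ℝ} {lam x f a S H C M : Fin 3 → ℝ} {α β : Fin 3 → ℝ → ℝ}
    {v Φ P δ : ℝ} (hS : Φ - δ ≤ ∑ i, S i)
    (hL : ∀ i, LowE (h i) (lam i) v (f i) (a i) (lam i * P - S i) (x i))
    (hc : ∀ i, ContinuousOn (β i) (Icc (f i) (a i)))
    (hb : ∀ i, ∀ y ∈ Icc (f i) (a i), 0 ≤ α i y ∧ α i y ≤ M i ∧ 0 ≤ β i y ∧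
      H i * y + C i ≤ α i y * h i y ∧
      ∀ s ∈ Icc (0 : ℝ) 1, α i y * √(1 - s) + β i y * √s ≤ lam i - s) :
    ∑ i, (H i * v + C i + (∫ y in (f i)..(a i), β i y) - M i * x i) ≤
      (∑ i, lam i) * P - Φ + δ := by
  have hi : ∀ i, H i * v + C i + (∫ y in (f i)..(a i), β i y) - M i * x i ≤ lam i * P - S i :=
    fun i => by
      have h1 := hL i (H i) (C i) (M i) (α i) (β i) (hc i) (hb i)
      linarith
  refine (Finset.sum_le_sum fun i _ => hi i).trans ?_
  rw [Finset.sum_sub_distrib, Finset.sum_mul]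
  linarith

end

end Vale.Agent.P232
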