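import Mathlib

/-!
# P232: perimeter and isoperimetric profile of the cubic three-torus

A subset of the torus is a subset of `ℝ × ℝ × ℝ` invariant under the three unit translations.
-/

namespace Vale.Agent.P232

noncomputable section

open MeasureTheory

/-- The coordinate unit vectors of `ℝ × ℝ × ℝ`. -/
def e₁ : ℝ × ℝ × ℝ := (1, 0, 0)
/-- Second coordinate unit vector. -/
def e₂ : ℝ × ℝ × ℝ := (0, 1, 0)
/-- Third coordinate unit vector. -/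
def e₃ : ℝ × ℝ × ℝ := (0, 0, 1)

/-- Invariance of a function under the three unit translations. -/
def Per {β : Type*} (F : ℝ × ℝ × ℝ → β) : Prop :=
  ∀ p, F (p + e₁) = F p ∧ F (p + e₂) = F p ∧ F (p + e₃) = F p

/-- A subset of the torus, seen as a periodic subset of `ℝ × ℝ × ℝ`. -/
def PerSet (E : Set (ℝ × ℝ × ℝ)) : Prop :=
  ∀ p, (p + e₁ ∈ E ↔ p ∈ E) ∧ (p + e₂ ∈ E ↔ p ∈ E) ∧ (p + e₃ ∈ E ↔ p ∈ E)

/-- The fundamental cube `[0,1)^3`. -/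
def cube : Set (ℝ × ℝ × ℝ) :=
  Set.Ico (0 : ℝ) 1 ×ˢ (Set.Ico (0 : ℝ) 1 ×ˢ Set.Ico (0 : ℝ) 1)

/-- The divergence of a vector field. -/
def divg (φ : ℝ × ℝ × ℝ → ℝ × ℝ × ℝ) (p : ℝ × ℝ × ℝ) : ℝ :=
  (fderiv ℝ φ p e₁).1 + (fderiv ℝ φ p e₂).2.1 + (fderiv ℝ φ p e₃).2.2

/-- Test fields: periodic, `C¹`, of Euclidean length at most one. -/
structure Field (φ : ℝ × ℝ × ℝ → ℝ × ℝ × ℝ) : Prop where
  smooth : ContDiff ℝ 1 φ
  per : Per φ
  bound : ∀ p, (φ p).1 ^ 2 + (φ p).2.1 ^ 2 + (φ p).2.2 ^ 2 ≤ 1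

/-- Volume of a subset of the torus. -/
def vol (E : Set (ℝ × ℝ × ℝ)) : ℝ := (volume (E ∩ cube)).toReal

/-- De Giorgi perimeter of a subset of the torus. -/
def perim (E : Set (ℝ × ℝ × ℝ)) : ENNReal :=
  ⨆ (φ : ℝ × ℝ × ℝ → ℝ × ℝ × ℝ) (_ : Field φ),
    ENNReal.ofReal (∫ p in E ∩ cube, divg φ p)

/-- The isoperimetric profile of the torus. -/
def profile (V : ℝ) : ENNReal :=
  ⨅ (E : Set (ℝ × ℝ × ℝ)) (_ : MeasurableSet E ∧ PerSet E ∧ vol E = V), perim E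

/-- The least perimeter among a ball, a tube about a shortest geodesic and a slab. -/
def J (V : ℝ) : ℝ :=
  min (min ((36 * Real.pi) ^ (1 / 3 : ℝ) * min V (1 - V) ^ (2 / 3 : ℝ))
    (2 * Real.sqrt (Real.pi * min V (1 - V)))) 2

end

end Vale.Agent.P232
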