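import Vale.Agent.P232.Band
import Vale.Agent.P209.ParamInt

/-!
# P232: sharper slice profiles for nested level sets

A level set that meets a full line in both directions leaves a hole whose sections are at most `W₁`;
a level set nested in it that only crosses one direction has a seam of content at most `1 - W₀`.
-/

namespace Vale.Agent.P232

noncomputable section

open MeasureTheory Set Real

/-- The least half perimeter of a hole of area `h` all of whose sections are at most `W`. -/
def stad (W h : ℝ) : ℝ := if π * W ^ 2 ≤ 4 * h then h / W + π * W / 4 else √(π * h)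

/-- The half perimeter of a band with a seam of content at most `1 - W`. -/
def bandW (W A : ℝ) : ℝ := 1 + 6 / 5 * min (max (A - (1 - W)) 0) (1 / 4) ^ 2

/-- The slice profile of nested levels with hole sections between `W₀` and `W₁`. -/
def gW (W₀ W₁ A : ℝ) : ℝ := min (min √(π * A) (bandW W₀ A)) (stad W₁ (1 - A))

lemma gW_le_planar (W₀ W₁ A : ℝ) : gW W₀ W₁ A ≤ √(π * A) :=
  (min_le_left _ _).trans (min_le_left _ _)

lemma gW_le_band (W₀ W₁ A : ℝ) : gW W₀ W₁ A ≤ bandW W₀ A :=
  (min_le_left _ _).trans (min_le_right _ _)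

lemma gW_le_stad (W₀ W₁ A : ℝ) : gW W₀ W₁ A ≤ stad W₁ (1 - A) := min_le_right _ _

lemma bandW_le_two (W A : ℝ) : bandW W A ≤ 2 := by
  have h1 : min (max (A - (1 - W)) 0) (1 / 4) ≤ 1 / 4 := min_le_right _ _
  have h0 : 0 ≤ min (max (A - (1 - W)) 0) (1 / 4) := le_min (le_max_right _ _) (by norm_num)
  unfold bandW
  nlinarith

/-- A polynomial lower bound for the calibrated band length. -/
lemma bandC_ge {k : ℝ} (hk : k ∈ Icc (0 : ℝ) 1) : 1 - k ^ 2 / 6 - k ^ 4 / 10 ≤ bandC k := by
  have e : ∫ t in (0 : ℝ)..1,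
      (1 - (2 * k * (t - 1 / 2)) ^ 2 / 2 - (2 * k * (t - 1 / 2)) ^ 4 / 2) =
        1 - k ^ 2 / 6 - k ^ 4 / 10 := by
    have a2 : ∫ t in (0 : ℝ)..1, (t - 1 / 2) ^ 2 = 1 / 12 := by
      rw [intervalIntegral.integral_comp_sub_right (fun t => t ^ 2) (1 / 2), integral_pow]
      norm_num
    have a4 : ∫ t in (0 : ℝ)..1, (t - 1 / 2) ^ 4 = 1 / 80 := by
      rw [intervalIntegral.integral_comp_sub_right (fun t => t ^ 4) (1 / 2), integral_pow]
      norm_num
    have r : (fun t : ℝ => 1 - (2 * k * (t - 1 / 2)) ^ 2 / 2 - (2 * k * (t - 1 / 2)) ^ 4 / 2) =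
        fun t => 1 - 2 * k ^ 2 * (t - 1 / 2) ^ 2 - 8 * k ^ 4 * (t - 1 / 2) ^ 4 := by
      funext t; ring
    rw [r, intervalIntegral.integral_sub, intervalIntegral.integral_sub,
      intervalIntegral.integral_const_mul, intervalIntegral.integral_const_mul, a2, a4]
    · simp; ring
    all_goals apply Continuous.intervalIntegrable; fun_prop
  rw [bandC, ← e]
  refine intervalIntegral.integral_mono_on zero_le_one
    (by apply Continuous.intervalIntegrable; fun_prop)
    (by apply Continuous.intervalIntegrable; fun_prop) fun t ht => ?_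
  have h1 := sq_tilt_le hk ht
  set q := (2 * k * (t - 1 / 2)) ^ 2 with hq
  have h0 : 0 ≤ q := sq_nonneg _
  have e4 : (2 * k * (t - 1 / 2)) ^ 4 = q ^ 2 := by rw [hq]; ring
  rw [e4]
  rcases le_or_gt (1 - q / 2 - q ^ 2 / 2) 0 with c | c
  · exact c.trans (Real.sqrt_nonneg _)
  · refine Real.le_sqrt_of_sq_le ?_
    nlinarith [mul_nonneg h0 h0, mul_nonneg (mul_nonneg h0 h0) (sub_nonneg.2 h1)]

/-- A level set crossed by every line of one direction. -/
lemma band_type {u : ℝ × ℝ → ℝ} (hu : Dens2 u) {W : ℝ} (hlo : ∀ y, ∃ z, u (y, z) ≤ 0)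
    (hhi : ∀ y, ∃ z, 1 ≤ u (y, z)) {y₀ : ℝ} (hs : ∫ z in (0 : ℝ)..1, u (y₀, z) ≤ 1 - W) :
    bandW W (area2 u) ≤ tv2 u / 2 := by
  set e := min (max (area2 u - (1 - W)) 0) (1 / 4) with he
  have e0 : 0 ≤ e := le_min (le_max_right _ _) (by norm_num)
  have e1 : e ≤ 1 / 4 := min_le_right _ _
  have hk : 5 / 2 * e ∈ Icc (0 : ℝ) 1 := ⟨by positivity, by linarith⟩
  have h := band_cal hu.smooth hu.per (φ := fun x => x) (φ' := fun _ => 1) (fun x => hasDerivAt_id x)
    continuous_const (fun _ => zero_le_one) hk hlo hhi y₀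
  simp only [one_mul, sub_zero] at h
  change _ ≤ tv2 u at h
  have hc := bandC_ge hk
  have hke : e * e ≤ e * (area2 u - (1 - W)) := by
    rcases le_total (area2 u - (1 - W)) 0 with c | c
    · have : e = 0 := le_antisymm ((min_le_left _ _).trans_eq (max_eq_right c)) e0
      simp [this]
    · exact mul_le_mul_of_nonneg_left ((min_le_left _ _).trans_eq (max_eq_left c)) e0
  have hsk := mul_le_mul_of_nonneg_left hs hk.1
  show 1 + 6 / 5 * e ^ 2 ≤ _
  have hq : 0 ≤ e ^ 2 * (1 / 16 - e ^ 2) := mul_nonneg (sq_nonneg _) (by nlinarith)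
  nlinarith

/-- A level set with full lines in both directions and hole sections at most `W`. -/
lemma ellipse_cal {u : ℝ × ℝ → ℝ} (hu : Dens2 u) {ya za y₁ R : ℝ} (hR : 0 < R)
    (hy : ∀ z, u (ya, z) = 1) (hz : ∀ y, u (y, za) = 1)
    (hmax : ∀ y, ∫ z in (0 : ℝ)..1, (1 - u (y, z)) ≤ R)
    (h₁ : R = ∫ z in (0 : ℝ)..1, (1 - u (y₁, z))) :
    (1 - area2 u) / R + π * R / 4 ≤ tv2 u / 2 + area2 (fun p => u p * (1 - u p)) / R := by
  set ℓ : ℝ → ℝ := fun y => ∫ z in (0 : ℝ)..1, (1 - u (y, z)) with hℓ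
  set d : ℝ → ℝ := fun y => ∫ z in (0 : ℝ)..1, -fderiv ℝ u (y, z) (1, 0) with hdd
  have hc := hu.smooth.continuous
  have hD : ∀ v, Continuous fun p => fderiv ℝ u p v := fun v =>
    (hu.smooth.continuous_fderiv one_ne_zero).clm_apply continuous_const
  have hℓc : Continuous ℓ := cont_inner (F := fun p => 1 - u p) (continuous_const.sub hc)
  have hdc : Continuous d := cont_inner (F := fun p => -fderiv ℝ u p (1, 0)) (hD (1, 0)).neg
  have hder : ∀ y, HasDerivAt ℓ (d y) y := fun y => by
    have h := (P209.hasFDerivAt_int01 (F := fun p => 1 - u p)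
      (contDiff_const.sub hu.smooth) y).hasDerivAt
    refine h.congr_deriv ?_
    have hci : Continuous fun t => (fderiv ℝ (fun p => 1 - u p) (y, t)).comp
        (ContinuousLinearMap.inl ℝ ℝ ℝ) :=
      (((contDiff_const.sub hu.smooth).continuous_fderiv one_ne_zero).comp
        (continuous_const.prodMk continuous_id)).clm_comp continuous_const
    rw [ContinuousLinearMap.intervalIntegral_apply (hci.intervalIntegrable 0 1)]
    simp [hdd, fderiv_const_sub]
  have hℓ0 : ∀ y, 0 ≤ ℓ y := fun y =>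
    intervalIntegral.integral_nonneg zero_le_one fun z _ => by linarith [(hu.mem (y, z)).2]
  have hℓp : Function.Periodic ℓ 1 := fun y => by simp only [hℓ, (hu.per y _).1]
  have hℓa : ℓ ya = 0 := by simp [hℓ, hy]
  set γ : ℝ → ℝ := fun x => √(1 - (x / R) ^ 2) with hγ
  have hγc : Continuous γ := by fun_prop
  have hgr := continuous_grad2 hu.smooth
  -- one line
  have hline : ∀ y, 2 / R * (ℓ y - ∫ z in (0 : ℝ)..1, u (y, z) * (1 - u (y, z))) + γ (ℓ y) * |d y|
      ≤ ∫ z in (0 : ℝ)..1, grad2 u (y, z) := fun y => by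
    set V := ∫ z in (0 : ℝ)..1, |fderiv ℝ u (y, z) (0, 1)| with hV
    have hg : ∀ z, HasDerivAt (fun z => u (y, z)) (fderiv ℝ u (y, z) (0, 1)) z := fun z =>
      (hu.smooth.differentiable one_ne_zero (y, z)).hasFDerivAt.comp_hasDerivAt z
        ((hasDerivAt_const z y).prodMk (hasDerivAt_id z))
    have hosc : ∀ z, 2 * (1 - u (y, z)) ≤ V := fun z => by
      have h := line_osc (g := fun z => u (y, z))
        (hu.smooth.comp (contDiff_const.prodMk contDiff_id)) (fun z => (hu.per y z).2) z za
      simp only [fun z => (hg z).deriv, hz] at h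
      exact h
    have hcy : Continuous fun z => u (y, z) := hc.comp (by fun_prop)
    have hV2 : 2 * (ℓ y - ∫ z in (0 : ℝ)..1, u (y, z) * (1 - u (y, z))) ≤ ℓ y * V := by
      have cA : Continuous fun z => 2 * ((1 - u (y, z)) - u (y, z) * (1 - u (y, z))) := by fun_prop
      have cB : Continuous fun z => (1 - u (y, z)) * V := by fun_prop
      have h := intervalIntegral.integral_mono_on (μ := volume) zero_le_one
        (cA.intervalIntegrable 0 1) (cB.intervalIntegrable 0 1)
        fun z _ => by nlinarith [hosc z, (hu.mem (y, z)).2]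
      rw [intervalIntegral.integral_const_mul, intervalIntegral.integral_mul_const,
        intervalIntegral.integral_sub (f := fun z => 1 - u (y, z))
          (g := fun z => u (y, z) * (1 - u (y, z)))
          ((continuous_const.sub hcy).intervalIntegrable _ _)
          ((hcy.mul (continuous_const.sub hcy)).intervalIntegrable _ _)] at h
      exact h
    set α := ℓ y / R with hα
    have α0 : 0 ≤ α := div_nonneg (hℓ0 y) hR.le
    have α1 : α ≤ 1 := (div_le_one hR).2 (hmax y)
    have g0 : 0 ≤ γ (ℓ y) := Real.sqrt_nonneg _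
    have g2 : γ (ℓ y) ^ 2 = 1 - α ^ 2 := Real.sq_sqrt (by nlinarith)
    have hpt : ∀ z, α * |fderiv ℝ u (y, z) (0, 1)| + γ (ℓ y) * |fderiv ℝ u (y, z) (1, 0)| ≤
        grad2 u (y, z) := fun z => by
      refine Real.le_sqrt_of_sq_le ?_
      rw [← sq_abs (fderiv ℝ u (y, z) (1, 0)), ← sq_abs (fderiv ℝ u (y, z) (0, 1))]
      nlinarith [sq_nonneg (α * |fderiv ℝ u (y, z) (1, 0)| -
        γ (ℓ y) * |fderiv ℝ u (y, z) (0, 1)|)]
    have c1 : Continuous fun z => |fderiv ℝ u (y, z) (0, 1)| :=
      ((hD (0, 1)).comp (by fun_prop)).abs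
    have c2 : Continuous fun z => |fderiv ℝ u (y, z) (1, 0)| :=
      ((hD (1, 0)).comp (by fun_prop)).abs
    have cA : Continuous fun z =>
        α * |fderiv ℝ u (y, z) (0, 1)| + γ (ℓ y) * |fderiv ℝ u (y, z) (1, 0)| := by fun_prop
    have cB : Continuous fun z : ℝ => grad2 u (y, z) := hgr.comp (by fun_prop)
    have h := intervalIntegral.integral_mono_on (μ := volume) zero_le_one
      (cA.intervalIntegrable 0 1) (cB.intervalIntegrable 0 1) fun z _ => hpt z
    rw [intervalIntegral.integral_add (f := fun z => α * |fderiv ℝ u (y, z) (0, 1)|)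
      (g := fun z => γ (ℓ y) * |fderiv ℝ u (y, z) (1, 0)|)
      ((continuous_const.mul c1).intervalIntegrable _ _)
      ((continuous_const.mul c2).intervalIntegrable _ _), intervalIntegral.integral_const_mul,
      intervalIntegral.integral_const_mul, ← hV] at h
    have hd1 : |d y| ≤ ∫ z in (0 : ℝ)..1, |fderiv ℝ u (y, z) (1, 0)| := by
      simpa [hdd] using intervalIntegral.abs_integral_le_integral_abs (μ := volume)
        (f := fun z => -fderiv ℝ u (y, z) (1, 0)) zero_le_one
    have hV3 := mul_le_mul_of_nonneg_left hV2 (inv_nonneg.2 hR.le)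
    have e1 : R⁻¹ * (ℓ y * V) = α * V := by rw [hα]; ring
    have := mul_le_mul_of_nonneg_left hd1 g0
    rw [e1] at hV3
    change _ ≤ ∫ z in (0 : ℝ)..1, grad2 u (y, z)
    refine le_trans ?_ h
    rw [div_mul_eq_mul_div, mul_div_assoc]
    have e2 : R⁻¹ * (2 * (ℓ y - ∫ z in (0 : ℝ)..1, u (y, z) * (1 - u (y, z)))) =
        2 * ((ℓ y - ∫ z in (0 : ℝ)..1, u (y, z) * (1 - u (y, z))) / R) := by ring
    linarith
  -- up and down along the period
  have hgd : Continuous fun y => γ (ℓ y) * |d y| := (hγc.comp hℓc).mul hdc.abs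
  have hcirc : π * R / 2 ≤ ∫ y in (0 : ℝ)..1, γ (ℓ y) * |d y| := by
    obtain ⟨w, hw, ew⟩ := hℓp.exists_mem_Ico one_pos y₁ ya
    have hlw : ℓ w = R := by rw [← ew]; exact h₁.symm
    have hγs : Continuous fun y => γ (ℓ y) * d y := (hγc.comp hℓc).mul hdc
    have hcv : ∀ p q, ∫ y in p..q, γ (ℓ y) * d y = ∫ x in ℓ p..ℓ q, γ x := fun p q =>
      intervalIntegral.integral_comp_mul_deriv (fun y _ => hder y) hdc.continuousOn hγc
    have hup := intervalIntegral.integral_mono_on (μ := volume) hw.1
      (hγs.intervalIntegrable ya w) (hgd.intervalIntegrable ya w) fun y _ =>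
        mul_le_mul_of_nonneg_left (le_abs_self _) (Real.sqrt_nonneg _)
    have hdown := intervalIntegral.integral_mono_on (μ := volume) hw.2.le
      (hγs.neg.intervalIntegrable w (ya + 1)) (hgd.intervalIntegrable w (ya + 1)) fun y _ => by
        change -(γ (ℓ y) * d y) ≤ _
        rw [← mul_neg]
        exact mul_le_mul_of_nonneg_left (neg_le_abs _) (Real.sqrt_nonneg _)
    rw [hcv, hlw, hℓa] at hup
    simp only [Pi.neg_apply] at hdown
    rw [intervalIntegral.integral_neg, hcv, hlw, hℓp ya, hℓa, intervalIntegral.integral_symm,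
      neg_neg] at hdown
    have hq : ∫ x in (0 : ℝ)..R, γ x = π * R / 4 := by
      have e := integral_sqrt_one_sub_sq
      have cs : Continuous fun x : ℝ => √(1 - x ^ 2) := by fun_prop
      have e2 := intervalIntegral.integral_comp_neg (a := (0 : ℝ)) (b := 1)
        (fun x : ℝ => √(1 - x ^ 2))
      simp only [neg_sq, neg_zero] at e2
      rw [← intervalIntegral.integral_add_adjacent_intervals (cs.intervalIntegrable (-1) 0)
        (cs.intervalIntegrable 0 1), ← e2] at e
      show ∫ x in (0 : ℝ)..R, √(1 - (x / R) ^ 2) = _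
      rw [intervalIntegral.integral_comp_div (fun x => √(1 - x ^ 2)) hR.ne', zero_div,
        div_self hR.ne', smul_eq_mul]
      linear_combination R / 2 * e
    rw [hq] at hup hdown
    have hshift : ∫ y in ya..ya + 1, γ (ℓ y) * |d y| = ∫ y in (0 : ℝ)..1, γ (ℓ y) * |d y| := by
      have hp : Function.Periodic (fun y => γ (ℓ y) * |d y|) 1 := fun y => by
        have e : d (y + 1) = d y := (hder (y + 1)).unique (by
          have h : HasDerivAt (fun t => ℓ (t - 1)) (d y) (y + 1) := by
            refine HasDerivAt.comp_sub_const (y + 1) 1 ?_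
            rw [add_sub_cancel_right]; exact hder y
          simpa [funext fun t => hℓp.sub_eq t] using h)
        simp only [hℓp y, e]
      simpa using hp.intervalIntegral_add_eq ya 0
    rw [← hshift, ← intervalIntegral.integral_add_adjacent_intervals
      (hgd.intervalIntegrable ya w) (hgd.intervalIntegrable w (ya + 1))]
    linarith
  have hr : Continuous fun p => u p * (1 - u p) := hc.mul (continuous_const.sub hc)
  have cI : Continuous fun y => ℓ y - ∫ z in (0 : ℝ)..1, u (y, z) * (1 - u (y, z)) :=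
    hℓc.sub (cont_inner hr)
  have cJ : Continuous fun y =>
      2 / R * (ℓ y - ∫ z in (0 : ℝ)..1, u (y, z) * (1 - u (y, z))) + γ (ℓ y) * |d y| :=
    (continuous_const.mul cI).add hgd
  have cG : Continuous fun y => ∫ z in (0 : ℝ)..1, grad2 u (y, z) := cont_inner hgr
  have hI := intervalIntegral.integral_mono_on (μ := volume) zero_le_one
    (cJ.intervalIntegrable 0 1) (cG.intervalIntegrable 0 1) fun y _ => hline y
  rw [intervalIntegral.integral_add (f := fun y =>
      2 / R * (ℓ y - ∫ z in (0 : ℝ)..1, u (y, z) * (1 - u (y, z))))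
    ((continuous_const.mul cI).intervalIntegrable _ _) (hgd.intervalIntegrable _ _),
    intervalIntegral.integral_const_mul,
    intervalIntegral.integral_sub (hℓc.intervalIntegrable _ _)
      ((cont_inner hr).intervalIntegrable _ _)] at hI
  have eL : ∫ y in (0 : ℝ)..1, ℓ y = 1 - area2 u := area2_one_sub hc
  rw [eL] at hI
  change _ ≤ tv2 u at hI
  change _ ≤ _ + (∫ y in (0 : ℝ)..1, ∫ z in (0 : ℝ)..1, u (y, z) * (1 - u (y, z))) / R
  have e3 : 2 / R * ((1 - area2 u) - ∫ y in (0 : ℝ)..1, ∫ z in (0 : ℝ)..1, u (y, z) * (1 - u (y, z))) =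
      2 * ((1 - area2 u) / R) -
        2 * ((∫ y in (0 : ℝ)..1, ∫ z in (0 : ℝ)..1, u (y, z) * (1 - u (y, z))) / R) := by ring
  linarith

/-- A level set meeting a full line in both directions, with hole sections at most `W`. -/
lemma stad_type {δ K : ℝ} (hδ : 0 ≤ δ) (hK : 0 ≤ K)
    (hcut : ∀ f, Dens2 f → ∀ y₀ z₀ : ℝ, 2 * √(π * area2 f) ≤
      tv2 f + 2 * (∫ z in (0 : ℝ)..1, f (y₀, z)) + 2 * (∫ y in (0 : ℝ)..1, f (y, z₀)) + δ +
        K * area2 (fun p => f p * (1 - f p)))
    {u : ℝ × ℝ → ℝ} (hu : Dens2 u) {ya za W : ℝ} (hW0 : 1 / 10 ≤ W)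
    (hy : ∀ z, u (ya, z) = 1) (hz : ∀ y, u (y, za) = 1)
    (hW : ∀ y, ∫ z in (0 : ℝ)..1, (1 - u (y, z)) ≤ W) :
    stad W (1 - area2 u) ≤ tv2 u / 2 + δ + (K + 128) * area2 (fun p => u p * (1 - u p)) := by
  have hc := hu.smooth.continuous
  set e := area2 fun p => u p * (1 - u p) with he
  have he0 : 0 ≤ e := area2_nonneg fun p => mul_nonneg (hu.mem p).1 (by linarith [(hu.mem p).2])
  unfold stad
  split_ifs with hcond
  · set ℓ : ℝ → ℝ := fun y => ∫ z in (0 : ℝ)..1, (1 - u (y, z)) with hℓ
    have hℓc : Continuous ℓ := cont_inner (F := fun p => 1 - u p) (continuous_const.sub hc)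
    obtain ⟨y₁, -, hm⟩ := isCompact_Icc.exists_isMaxOn (nonempty_Icc.2 (zero_le_one' ℝ))
      hℓc.continuousOn
    have hmax : ∀ y, ℓ y ≤ ℓ y₁ := fun y => by
      obtain ⟨y', hy', -, -, e', -⟩ := per2_reduce hu.per y 0
      calc ℓ y = ℓ y' := by simp only [hℓ, e']
        _ ≤ ℓ y₁ := hm hy'
    set R := ℓ y₁ with hR
    have hhR : 1 - area2 u ≤ R := by
      rw [← area2_one_sub hc]
      refine (intervalIntegral.integral_mono_on zero_le_one (hℓc.intervalIntegrable _ _)
        intervalIntegrable_const fun y _ => hmax y).trans_eq ?_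
      simp
    have hh : π / 400 ≤ 1 - area2 u := by
      nlinarith [mul_le_mul_of_nonneg_left (mul_self_le_mul_self (by norm_num) hW0) pi_pos.le]
    have hR0 : 1 / 128 ≤ R := by linarith [pi_gt_d4]
    have h := ellipse_cal hu (R := R) (by linarith) hy hz hmax rfl
    rw [← he] at h
    have hRW : R ≤ W := hW y₁
    have hmono : (1 - area2 u) / W + π * W / 4 ≤ (1 - area2 u) / R + π * R / 4 := by
      have hR' : (0 : ℝ) < R := by linarith
      have hW' : (0 : ℝ) < W := by linarith
      rw [← sub_nonneg]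
      have e1 : (1 - area2 u) / R + π * R / 4 - ((1 - area2 u) / W + π * W / 4) =
          (W - R) * (4 * (1 - area2 u) - π * (R * W)) / (4 * R * W) := by
        field_simp; ring
      rw [e1]
      have : π * (R * W) ≤ π * W ^ 2 :=
        mul_le_mul_of_nonneg_left (by nlinarith) pi_pos.le
      exact div_nonneg (mul_nonneg (by linarith) (by linarith)) (by positivity)
    have heR : e / R ≤ 128 * e := by
      rw [div_le_iff₀ (by linarith)]
      nlinarith
    nlinarith [mul_nonneg hK he0]
  · have hd : Dens2 fun p => 1 - u p :=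
      ⟨contDiff_const.sub hu.smooth, fun y z => by simp [(hu.per y z).1, (hu.per y z).2],
        fun p => ⟨by linarith [(hu.mem p).2], by linarith [(hu.mem p).1]⟩⟩
    have h := hcut _ hd ya za
    have etv : tv2 (fun p => 1 - u p) = tv2 u := by
      show area2 (grad2 fun p => 1 - u p) = area2 (grad2 u)
      congr 1; funext p
      simp [grad2, fderiv_const_sub]
    simp only [hy, hz, sub_self, intervalIntegral.integral_zero, mul_zero, add_zero, etv,
      area2_one_sub hc, sub_sub_cancel] at h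
    have e2 : area2 (fun p => (1 - u p) * u p) = e := by
      rw [he]; congr 1; funext p; ring
    rw [e2] at h
    nlinarith [mul_nonneg hK he0]

end

end Vale.Agent.P232
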