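import Vale.Agent.P232.Axis
import Vale.Agent.P232.GraphType

/-!
# P232: calibrated lower bound for the area of a periodic graph

The range of `m` is cut into levels of width `h`; each level is a nearly two-valued density whose
profile is `gW`, since the levels are nested.
-/

namespace Vale.Agent.P232

noncomputable section

open MeasureTheory Set Real Finset

/-- `P` dominates the calibrations of `g` of size and Lipschitz constant at most `L`. -/
def LowL (L : ℝ) (g : ℝ → ℝ) (v f a P : ℝ) : Prop :=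
  ∀ (H C : ℝ) (β : ℝ → ℝ), |H| ≤ L → |C| ≤ L →
    (∀ x ∈ Set.Icc f a, ∀ y ∈ Set.Icc f a, |β x - β y| ≤ L * |x - y|) →
    (∀ x ∈ Set.Icc f a, 0 ≤ β x ∧ (H * x + C) ^ 2 + g x ^ 2 * β x ^ 2 ≤ g x ^ 2 ∧ β x ≤ 1) →
    H * v + C + (∫ x in f..a, β x) ≤ P

/-- The slice profile of levels below the least area of the slices in the other two directions: they
meet every line, so they are crosses or bands across the whole square. -/
def gLow (W₀ W₁ A : ℝ) : ℝ := min (max (bandW W₀ A) √(1 + (1 - A) ^ 2)) (stad W₁ (1 - A))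

/-- `P` dominates the calibrations with the constant `C'` on the share `t` of the lowest levels. -/
def LowT (L : ℝ) (g g' : ℝ → ℝ) (v t a P : ℝ) : Prop :=
  ∀ (H C C' : ℝ) (β : ℝ → ℝ), |H| ≤ L → |C| ≤ L → |C'| ≤ L → C ≤ C' →
    (∀ x ∈ Set.Icc 0 a, ∀ y ∈ Set.Icc 0 a, |β x - β y| ≤ L * |x - y|) →
    (∀ x ∈ Set.Icc 0 a, 0 ≤ β x ∧ β x ≤ 1 ∧ (H * x + C) ^ 2 + g x ^ 2 * β x ^ 2 ≤ g x ^ 2 ∧
      (H * x + C') ^ 2 + g' x ^ 2 * β x ^ 2 ≤ g' x ^ 2) →
    H * v + C + t * (C' - C) + (∫ x in (0 : ℝ)..a, β x) ≤ P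

lemma gW_le_gLow (W₀ W₁ A : ℝ) : gW W₀ W₁ A ≤ gLow W₀ W₁ A :=
  le_min ((gW_le_band _ _ _).trans (le_max_left _ _)) (gW_le_stad _ _ _)

lemma gW_nonneg {W₀ W₁ A : ℝ} (hW : 0 ≤ W₁) (hA : A ≤ 1) : 0 ≤ gW W₀ W₁ A := by
  refine le_min (le_min (Real.sqrt_nonneg _) (by unfold bandW; positivity)) ?_
  unfold stad
  split_ifs
  · exact add_nonneg (div_nonneg (by linarith) hW) (by positivity)
  · exact Real.sqrt_nonneg _

/-- The truncation to the levels between `s` and `s + h`. -/
def lv (h s x : ℝ) : ℝ := (sp h (x - s) - sp h (x - (s + h))) / h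

lemma hasDerivAt_lv (h s x : ℝ) :
    HasDerivAt (lv h s) ((ramp h (x - s) - ramp h (x - (s + h))) / h) x :=
  ((deriv_sp_sub h s x).sub (deriv_sp_sub h (s + h) x)).div_const h

lemma contDiff_lv (h s : ℝ) : ContDiff ℝ 1 (lv h s) :=
  (((contDiff_sp h).comp (contDiff_id.sub contDiff_const)).sub
    ((contDiff_sp h).comp (contDiff_id.sub contDiff_const))).div_const h

lemma lv_between {h : ℝ} (hh : 0 < h) (s x : ℝ) :
    ramp h (x - (s + h)) ≤ lv h s x ∧ lv h s x ≤ ramp h (x - s) := by
  have hc := continuous_ramp h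
  have e : sp h (x - s) - sp h (x - (s + h)) = ∫ t in (x - (s + h))..(x - s), ramp h t := by
    unfold sp
    exact intervalIntegral.integral_interval_sub_left (hc.intervalIntegrable _ _)
      (hc.intervalIntegrable _ _)
  have h1 := intervalIntegral.integral_mono_on (μ := volume) (show x - (s + h) ≤ x - s by linarith)
    intervalIntegrable_const (hc.intervalIntegrable _ _) fun t ht => ramp_mono hh ht.1
  have h2 := intervalIntegral.integral_mono_on (μ := volume) (show x - (s + h) ≤ x - s by linarith)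
    (hc.intervalIntegrable _ _) intervalIntegrable_const fun t ht => ramp_mono hh ht.2
  simp only [intervalIntegral.integral_const, smul_eq_mul] at h1 h2
  rw [← e] at h1 h2
  unfold lv
  constructor
  · rw [le_div_iff₀ hh]; nlinarith
  · rw [div_le_iff₀ hh]; nlinarith

lemma ramp_eq_one {h t : ℝ} (hh : 0 < h) (ht : h ≤ t) : ramp h t = 1 := by
  show max 0 (min 1 (t / h)) = 1
  rw [min_eq_left ((one_le_div hh).2 ht), max_eq_right zero_le_one]

lemma lv_mem {h : ℝ} (hh : 0 < h) (s x : ℝ) : lv h s x ∈ Set.Icc (0 : ℝ) 1 :=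
  ⟨(ramp_nonneg _ _).trans (lv_between hh s x).1, (lv_between hh s x).2.trans (ramp_le_one _ _)⟩

lemma lv_eq_zero {h s x : ℝ} (hh : 0 < h) (hx : x ≤ s) : lv h s x = 0 :=
  le_antisymm ((lv_between hh s x).2.trans_eq (ramp_eq_zero hh (by linarith))) (lv_mem hh s x).1

lemma lv_eq_one {h s x : ℝ} (hh : 0 < h) (hx : s + 2 * h ≤ x) : lv h s x = 1 :=
  le_antisymm (lv_mem hh s x).2
    ((ramp_eq_one hh (by linarith : h ≤ x - (s + h))).ge.trans (lv_between hh s x).1)

/-- One level is paid by its area and by its boundary. -/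
lemma level_calib {L h D D' A g H C : ℝ} {β : ℝ → ℝ} (hh : 0 < h)
    (hD : D' ≤ A) (hD' : A ≤ D) (hA : |A| ≤ 1) (hg : 0 ≤ g) (hH : |H| ≤ L) (hC : |C| ≤ L)
    (hlip : ∀ x ∈ Set.Icc D' D, |β x - β A| ≤ L * |x - A|)
    (hβc : ContinuousOn β (Set.Icc D' D))
    (hβ : ∀ x ∈ Set.Icc D' D, 0 ≤ β x ∧ β x ≤ 1)
    (hadm : (H * A + C) ^ 2 + g ^ 2 * β A ^ 2 ≤ g ^ 2) :
    ∃ p q : ℝ, 0 ≤ p ∧ 0 ≤ q ∧ p ^ 2 + q ^ 2 ≤ 1 ∧
      (∫ x in D'..D, β x) + h * (H * A + C) ≤ p * (D - D') + q * (h * g) + 2 * L * √h * (D - D') := by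
  have hDD : D' ≤ D := hD.trans hD'
  have hint := hβc.intervalIntegrable_of_Icc hDD (μ := volume)
  have hL : 0 ≤ L := (abs_nonneg _).trans hH
  have hs : 0 < √h := Real.sqrt_pos.2 hh
  rcases le_or_gt √h (D - D') with c | c
  · refine ⟨1, 0, zero_le_one, le_rfl, by norm_num, ?_⟩
    have h1 := intervalIntegral.integral_mono_on hDD hint intervalIntegrable_const
      fun x hx => (hβ x hx).2
    simp only [intervalIntegral.integral_const, smul_eq_mul, mul_one] at h1
    have h2 : H * A + C ≤ 2 * L := by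
      have : |H * A| ≤ L * 1 := by rw [abs_mul]; exact mul_le_mul hH hA (abs_nonneg _) hL
      linarith [le_abs_self (H * A), le_abs_self C]
    have h3 : h ≤ √h * (D - D') := by
      nlinarith [Real.mul_self_sqrt hh.le]
    nlinarith [mul_le_mul_of_nonneg_left h2 hh.le]
  · obtain ⟨b0, b1⟩ := hβ A ⟨hD, hD'⟩
    have hq : 0 ≤ 1 - β A ^ 2 := by nlinarith
    refine ⟨β A, √(1 - β A ^ 2), b0, Real.sqrt_nonneg _, by rw [Real.sq_sqrt hq]; linarith, ?_⟩
    have h1 := intervalIntegral.integral_mono_on hDD hint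
      (intervalIntegrable_const (c := β A + L * √h)) fun x hx => by
        have := (abs_le.1 (hlip x hx)).2
        have : |x - A| ≤ √h := by rw [abs_le]; constructor <;> linarith [hx.1, hx.2]
        nlinarith [mul_le_mul_of_nonneg_left this hL]
    simp only [intervalIntegral.integral_const, smul_eq_mul] at h1
    have h2 : H * A + C ≤ √(1 - β A ^ 2) * g := by
      rw [← Real.sqrt_sq hg, ← Real.sqrt_mul hq]
      exact (le_abs_self _).trans (Real.abs_le_sqrt (by nlinarith))
    nlinarith [mul_le_mul_of_nonneg_left h2 hh.le, mul_nonneg (mul_nonneg hL hs.le) (sub_nonneg.2 hDD)]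

/-- The level indices near a number are few. -/
lemma near_count {N : ℕ} {h : ℝ} (hh : 0 < h) (c : ℝ) :
    ∑ k ∈ range N, (if |(k : ℝ) * h - c| < 3 * h then (1 : ℝ) else 0) ≤ 7 := by
  rw [← Finset.sum_filter, Finset.sum_const, nsmul_eq_mul, mul_one]
  have h7 : ((range N).filter fun k : ℕ => |(k : ℝ) * h - c| < 3 * h).card ≤
      (Finset.Icc (⌊c / h⌋ - 2) (⌊c / h⌋ + 4)).card := by
    refine Finset.card_le_card_of_injOn (fun k => (k : ℤ)) (fun k hk => ?_)
      (fun a _ b _ e => Int.ofNat_inj.1 e)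
    obtain ⟨-, hk⟩ := Finset.mem_filter.1 hk
    rw [abs_lt] at hk
    have e : c / h * h = c := div_mul_cancel₀ _ hh.ne'
    have h1 : c / h - 3 < (k : ℝ) := by
      refine lt_of_mul_lt_mul_right ?_ hh.le
      linarith
    have h2 : (k : ℝ) < c / h + 3 := by
      refine lt_of_mul_lt_mul_right ?_ hh.le
      linarith
    simp only [Finset.coe_Icc, Set.mem_Icc]
    constructor
    · have : ((⌊c / h⌋ - 3 : ℤ) : ℝ) < ((k : ℤ) : ℝ) := by
        push_cast; linarith [Int.floor_le (c / h)]
      have := Int.cast_lt.1 this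
      omega
    · have : ((k : ℤ) : ℝ) < ((⌊c / h⌋ + 4 : ℤ) : ℝ) := by
        push_cast; linarith [Int.lt_floor_add_one (c / h)]
      have := Int.cast_lt.1 this
      omega
  have e7 : (Finset.Icc (⌊c / h⌋ - 2) (⌊c / h⌋ + 4)).card = 7 := by
    rw [Int.card_Icc]; omega
  calc _ ≤ ((7 : ℕ) : ℝ) := by exact_mod_cast h7.trans_eq e7
    _ = 7 := by norm_num

lemma area2_sum {ι : Type*} (s : Finset ι) {F : ι → ℝ × ℝ → ℝ} (hF : ∀ i, Continuous (F i)) :
    area2 (fun p => ∑ i ∈ s, F i p) = ∑ i ∈ s, area2 (F i) := by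
  classical
  induction s using Finset.induction_on with
  | empty => simpa using area2_const 0
  | insert a t ha ih =>
    simp only [Finset.sum_insert ha]
    rw [area2_add (hF a) (continuous_finset_sum t fun i _ => hF i), ih]

lemma area2_swap {F : ℝ × ℝ → ℝ} (hF : Continuous F) : area2 (fun p => F p.swap) = area2 F :=
  (sq_swap hF).symm

lemma Dens2.swap {u : ℝ × ℝ → ℝ} (hu : Dens2 u) : Dens2 (u ∘ Prod.swap) :=
  ⟨hu.smooth.comp (contDiff_snd.prodMk contDiff_fst),
    fun y z => ⟨(hu.per z y).2, (hu.per z y).1⟩, fun p => hu.mem _⟩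

/-- The sum over the levels of the pointwise calibrations. -/
lemma weights_le {N : ℕ} {h x g o : ℝ} (hh : 0 < h) (hN : (N : ℝ) * h = 1) (hx : x ≤ 1)
    (hg : 0 ≤ g) (ho : ramp h x ≤ o) (ho1 : o ≤ 1) {p q : ℕ → ℝ}
    (hpq : ∀ k, p k ^ 2 + q k ^ 2 ≤ 1) :
    ∑ k ∈ range N, (ramp h (x - k * h) - ramp h (x - (k * h + h))) * (p k + q k * g)
      + (o - ramp h x) ≤ √(o ^ 2 + g ^ 2) := by
  have hS : 1 ≤ √(1 + g ^ 2) := Real.one_le_sqrt.2 (by nlinarith)
  have h1 : ∀ k, p k + q k * g ≤ √(1 + g ^ 2) := fun k => by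
    refine Real.le_sqrt_of_sq_le ?_
    nlinarith [sq_nonneg (p k * g - q k), hpq k, sq_nonneg g]
  have h2 : ∑ k ∈ range N, (ramp h (x - k * h) - ramp h (x - (k * h + h))) * (p k + q k * g) ≤
      (∑ k ∈ range N, (ramp h (x - k * h) - ramp h (x - (k * h + h)))) * √(1 + g ^ 2) := by
    rw [Finset.sum_mul]
    exact Finset.sum_le_sum fun k _ =>
      mul_le_mul_of_nonneg_left (h1 k) (sub_nonneg.2 (ramp_mono hh (by linarith)))
  have e : ∑ k ∈ range N, (ramp h (x - k * h) - ramp h (x - (k * h + h))) = ramp h x := by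
    have := Finset.sum_range_sub' (fun k : ℕ => ramp h (x - k * h)) N
    simp only [Nat.cast_add, Nat.cast_one, add_mul, one_mul, Nat.cast_zero, zero_mul,
      sub_zero] at this
    rw [this, hN, ramp_eq_zero hh (by linarith : x - 1 ≤ 0), sub_zero]
  rw [e] at h2
  have h3 : o * √(1 + g ^ 2) ≤ √(o ^ 2 + g ^ 2) := by
    have ho0 : 0 ≤ o := (ramp_nonneg h x).trans ho
    refine Real.le_sqrt_of_sq_le ?_
    rw [mul_pow, Real.sq_sqrt (by positivity)]
    nlinarith [mul_le_mul_of_nonneg_right (pow_le_one₀ (n := 2) ho0 ho1) (sq_nonneg g)]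
  nlinarith [mul_le_mul_of_nonneg_right ho (sub_nonneg.2 hS)]

/-- A set that all lines of both directions meet and all lines of one direction leave. -/
lemma wavy_type {u : ℝ × ℝ → ℝ} (hu : Dens2 u) (hA : area2 u ≤ 1) (hlo : ∀ y, ∃ z, u (y, z) ≤ 0)
    (hhi : ∀ y, ∃ z, 1 ≤ u (y, z)) (hhi' : ∀ z, ∃ y, 1 ≤ u (y, z)) :
    √(1 + (1 - area2 u) ^ 2) ≤ tv2 u / 2 := by
  have hc := hu.smooth.continuous
  have hD : ∀ v, Continuous fun p => |fderiv ℝ u p v| := fun v =>
    ((hu.smooth.continuous_fderiv one_ne_zero).clm_apply continuous_const).abs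
  have h1 : 2 ≤ area2 fun p => |fderiv ℝ u p (0, 1)| := by
    have h := band_le hu.smooth hu.per (φ := fun x => x) (φ' := fun _ => 1)
      (fun x => hasDerivAt_id x) continuous_const (fun _ => zero_le_one) hlo hhi
    simp only [one_mul, sub_zero, mul_one] at h
    exact h
  have h2 : 2 * (1 - area2 u) ≤ area2 fun p => |fderiv ℝ u p (1, 0)| := by
    rw [← area2_swap (hD (1, 0)), ← area2_one_sub hc, ← area2_const_mul,
      ← area2_swap (F := fun p => 2 * (1 - u p)) (continuous_const.mul (continuous_const.sub hc))]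
    refine intervalIntegral.integral_mono_on zero_le_one
      ((cont_inner (F := fun p => 2 * (1 - u p.swap))
        (continuous_const.mul (continuous_const.sub (hc.comp continuous_swap)))).intervalIntegrable _ _)
      ((cont_inner (F := fun p => |fderiv ℝ u p.swap (1, 0)|)
        ((hD (1, 0)).comp continuous_swap)).intervalIntegrable _ _) fun z _ => ?_
    simp only [Prod.swap_prod_mk]
    set V := ∫ y in (0 : ℝ)..1, |fderiv ℝ u (y, z) (1, 0)|
    have hosc : ∀ y, 2 * (1 - u (y, z)) ≤ V := fun y => by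
      obtain ⟨y', hy'⟩ := hhi' z
      have hg : ∀ y, HasDerivAt (fun y => u (y, z)) (fderiv ℝ u (y, z) (1, 0)) y := fun y =>
        (hu.smooth.differentiable one_ne_zero (y, z)).hasFDerivAt.comp_hasDerivAt y
          ((hasDerivAt_id y).prodMk (hasDerivAt_const y z))
      have h := line_osc (g := fun y => u (y, z))
        (hu.smooth.comp (contDiff_id.prodMk contDiff_const)) (fun y => (hu.per y z).1) y y'
      simp only [fun y => (hg y).deriv] at h
      show _ ≤ ∫ y in (0 : ℝ)..1, _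
      linarith [(hu.mem (y', z)).2]
    have cy : Continuous fun y => 2 * (1 - u (y, z)) :=
      continuous_const.mul (continuous_const.sub (hc.comp (by fun_prop)))
    exact (intervalIntegral.integral_mono_on zero_le_one (cy.intervalIntegrable _ _)
      intervalIntegrable_const fun y _ => hosc y).trans_eq (by simp)
  have h := Axis.sqrt_le_area2 (hD (0, 1)) (hD (1, 0))
  simp only [sq_abs] at h
  have e : (area2 fun q => √(fderiv ℝ u q (0, 1) ^ 2 + fderiv ℝ u q (1, 0) ^ 2)) = tv2 u := by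
    show _ = area2 (grad2 u)
    congr 1; funext q; simp only [grad2]; rw [add_comm]
  rw [e] at h
  refine le_trans ?_ (div_le_div_of_nonneg_right h zero_le_two)
  rw [le_div_iff₀ two_pos]
  refine Real.le_sqrt_of_sq_le ?_
  rw [mul_pow, Real.sq_sqrt (by positivity)]
  nlinarith [mul_self_le_mul_self (by norm_num : (0 : ℝ) ≤ 2) h1,
    mul_self_le_mul_self (mul_nonneg zero_le_two (sub_nonneg.2 hA)) h2]

/-- One if the level `s` is near `c`. -/
def near (h c s : ℝ) : ℝ := if |s - c| < 3 * h then 1 else 0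

lemma near_nonneg (h c s : ℝ) : 0 ≤ near h c s := by
  unfold near; split_ifs <;> norm_num

set_option linter.unusedSimpArgs false in
/-- Every level has the profile `gW`, except near four thresholds. -/
lemma levels_type {δ K h : ℝ} (hδ : 0 ≤ δ) (hK : 0 ≤ K) (hh : 0 < h)
    (hcut : ∀ f, Dens2 f → ∀ y₀ z₀ : ℝ, 2 * √(π * area2 f) ≤
      tv2 f + 2 * (∫ z in (0 : ℝ)..1, f (y₀, z)) + 2 * (∫ y in (0 : ℝ)..1, f (y, z₀)) + δ +
        K * area2 (fun p => f p * (1 - f p)))
    {m : ℝ × ℝ → ℝ} (hm : Dens2 m) :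
    ∃ W ∈ Set.Icc (0 : ℝ) 1, ∃ a₁ a₂ b₁ b₂ : ℝ, ∀ W₀ W₁, W₀ ≤ W → W ≤ W₁ → 1 / 10 ≤ W₁ → ∀ s,
      (gW W₀ W₁ (area2 fun p => lv h s (m p)) ≤ tv2 (fun p => lv h s (m p)) / 2
        + (δ + (K + 128) * area2 (fun p => lv h s (m p) * (1 - lv h s (m p)))
          + 2 * (near h a₁ s + near h a₂ s + near h b₁ s + near h b₂ s))) ∧
      ∀ t, (∀ y, t ≤ ∫ z in (0 : ℝ)..1, m (y, z)) → (∀ z, t ≤ ∫ y in (0 : ℝ)..1, m (y, z)) →
        s + 2 * h ≤ t → gLow W₀ W₁ (area2 fun p => lv h s (m p)) ≤ tv2 (fun p => lv h s (m p)) / 2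
        + (δ + (K + 128) * area2 (fun p => lv h s (m p) * (1 - lv h s (m p)))
          + 2 * (near h a₁ s + near h a₂ s + near h b₁ s + near h b₂ s)) := by
  have hmc := hm.smooth.continuous
  -- the thresholds
  have hswap : Per2 (m ∘ Prod.swap) := fun y z => ⟨(hm.per z y).2, (hm.per z y).1⟩
  have hneg : Per2 fun p => -m p := fun y z => by simp [(hm.per y z).1, (hm.per y z).2]
  have hnegs : Per2 fun p => -m (Prod.swap p) := fun y z => by
    simp [(hm.per z y).1, (hm.per z y).2]
  obtain ⟨a₁, ⟨ya, hya⟩, A₁'⟩ := exists_maxmin hmc hm.per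
  obtain ⟨a₂, ⟨za, hza⟩, A₂'⟩ := exists_maxmin (hmc.comp continuous_swap) hswap
  obtain ⟨c₁, ⟨yb, hyb⟩, C₁'⟩ := exists_maxmin hmc.neg hneg
  obtain ⟨c₂, ⟨zb, hzb⟩, C₂'⟩ := exists_maxmin (hmc.comp continuous_swap).neg hnegs
  simp only [Function.comp_apply, Prod.swap_prod_mk] at hza A₂'
  have hab : a₂ ≤ -c₁ := (hza yb).trans (le_neg.1 (hyb za))
  have hba : a₁ ≤ -c₂ := (hya zb).trans (le_neg.1 (hzb ya))
  set b₁ := -c₁ with hb₁
  set b₂ := -c₂ with hb₂
  set a := min a₁ a₂ with ha
  -- the largest hole section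
  set ψ : ℝ × ℝ → ℝ := fun p => ramp h (m p - (a - h)) with hψ
  have hψc : Continuous ψ := (continuous_ramp h).comp (hmc.sub continuous_const)
  set ℓ₁ : ℝ → ℝ := fun y => ∫ z in (0 : ℝ)..1, (1 - ψ (y, z)) with hℓ₁
  set ℓ₂ : ℝ → ℝ := fun z => ∫ y in (0 : ℝ)..1, (1 - ψ (y, z)) with hℓ₂
  have hc₁ : Continuous ℓ₁ := cont_inner (F := fun p => 1 - ψ p) (continuous_const.sub hψc)
  have hc₂ : Continuous ℓ₂ :=
    cont_inner (F := fun p => 1 - ψ p.swap) (continuous_const.sub (hψc.comp continuous_swap))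
  obtain ⟨y₁, -, hy₁⟩ := isCompact_Icc.exists_isMaxOn (nonempty_Icc.2 (zero_le_one' ℝ))
    hc₁.continuousOn
  obtain ⟨z₁, -, hz₁⟩ := isCompact_Icc.exists_isMaxOn (nonempty_Icc.2 (zero_le_one' ℝ))
    hc₂.continuousOn
  have hm₁ : ∀ y, ℓ₁ y ≤ ℓ₁ y₁ := fun y => by
    obtain ⟨y', hy', -, -, e', -⟩ := per2_reduce hm.per y 0
    calc ℓ₁ y = ℓ₁ y' := by simp only [hℓ₁, hψ, e']
      _ ≤ _ := hy₁ hy'
  have hm₂ : ∀ z, ℓ₂ z ≤ ℓ₂ z₁ := fun z => by
    obtain ⟨-, -, z', hz', -, e'⟩ := per2_reduce hm.per 0 z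
    calc ℓ₂ z = ℓ₂ z' := by simp only [hℓ₂, hψ, e']
      _ ≤ _ := hz₁ hz'
  set W := min (ℓ₁ y₁) (ℓ₂ z₁) with hW
  have hℓmem : ∀ F : ℝ → ℝ, Continuous F → (∀ t, F t ∈ Set.Icc (0 : ℝ) 1) →
      (∫ t in (0 : ℝ)..1, F t) ∈ Set.Icc (0 : ℝ) 1 := fun F hF hm =>
    ⟨intervalIntegral.integral_nonneg zero_le_one fun t _ => (hm t).1,
      (intervalIntegral.integral_mono_on zero_le_one (hF.intervalIntegrable _ _)
        intervalIntegrable_const fun t _ => (hm t).2).trans_eq (by simp)⟩
  have hψm : ∀ p, 1 - ψ p ∈ Set.Icc (0 : ℝ) 1 := fun p =>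
    ⟨by linarith [ramp_le_one h (m p - (a - h))], by linarith [ramp_nonneg h (m p - (a - h))]⟩
  have hl₁ : ℓ₁ y₁ ∈ Set.Icc (0 : ℝ) 1 :=
    hℓmem _ ((continuous_const.sub hψc).comp (by fun_prop)) fun t => hψm _
  have hl₂ : ℓ₂ z₁ ∈ Set.Icc (0 : ℝ) 1 :=
    hℓmem _ ((continuous_const.sub hψc).comp (by fun_prop)) fun t => hψm _
  refine ⟨W, ⟨le_min hl₁.1 hl₂.1, (min_le_left _ _).trans hl₁.2⟩, a₁, a₂, b₁, b₂,
    fun W₀ W₁ hW₀ hW₁ hW10 s => ?_⟩
  set u : ℝ × ℝ → ℝ := fun p => lv h s (m p) with hu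
  have hd : Dens2 u :=
    ⟨(contDiff_lv h _).comp hm.smooth,
      fun y z => by simp [hu, (hm.per y z).1, (hm.per y z).2], fun p => lv_mem hh _ _⟩
  have he : 0 ≤ area2 fun p => u p * (1 - u p) :=
    area2_nonneg fun p => mul_nonneg (hd.mem p).1 (by linarith [(hd.mem p).2])
  have hN0 := add_nonneg (add_nonneg (add_nonneg (near_nonneg h a₁ s) (near_nonneg h a₂ s)) (near_nonneg h b₁ s))
    (near_nonneg h b₂ s)
  have hKe : 0 ≤ (K + 128) * area2 (fun p => u p * (1 - u p)) := by positivity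
  by_cases c0 : s + 2 * h ≤ a - h
  · suffices hst : stad W₁ (1 - area2 u) ≤ tv2 u / 2 + (δ + (K + 128) * area2 (fun p => u p * (1 - u p))
        + 2 * (near h a₁ s + near h a₂ s + near h b₁ s + near h b₂ s)) from
      ⟨(gW_le_stad _ _ _).trans hst, fun _ _ _ _ => (min_le_right _ _).trans hst⟩
    have hmax : ∀ p, 1 - u p ≤ 1 - ψ p := fun p => by
      rcases le_or_gt (m p) (a - h) with c | c
      · show _ ≤ 1 - ramp h _
        rw [ramp_eq_zero hh (by linarith)]
        linarith [(hd.mem p).1]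
      · rw [show u p = 1 from lv_eq_one hh (by linarith)]
        linarith [ramp_le_one h (m p - (a - h))]
    have fy : ∀ z, u (ya, z) = 1 := fun z =>
      lv_eq_one hh (by linarith [hya z, min_le_left a₁ a₂])
    have fz : ∀ y, u (y, za) = 1 := fun y =>
      lv_eq_one hh (by linarith [hza y, min_le_right a₁ a₂])
    rcases le_total (ℓ₁ y₁) (ℓ₂ z₁) with c | c
    · have h := stad_type (W := W₁) hδ hK hcut hd hW10 fy fz fun y =>
        (intervalIntegral.integral_mono_on zero_le_one
          ((continuous_const.sub (hd.smooth.continuous.comp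
            (by fun_prop : Continuous fun z : ℝ => (y, z)))).intervalIntegrable _ _)
          ((continuous_const.sub (hψc.comp
            (by fun_prop : Continuous fun z : ℝ => (y, z)))).intervalIntegrable _ _)
          fun z _ => hmax (y, z)).trans
          ((hm₁ y).trans ((min_eq_left c).symm.trans_le hW₁))
      linarith
    · have h := stad_type (W := W₁) hδ hK hcut hd.swap (ya := za)
        (za := ya) hW10 fz fy fun z =>
        (intervalIntegral.integral_mono_on zero_le_one
          ((continuous_const.sub (hd.smooth.continuous.comp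
            (by fun_prop : Continuous fun y : ℝ => (y, z)))).intervalIntegrable _ _)
          ((continuous_const.sub (hψc.comp
            (by fun_prop : Continuous fun y : ℝ => (y, z)))).intervalIntegrable _ _)
          fun y _ => hmax (y, z)).trans
          ((hm₂ z).trans ((min_eq_right c).symm.trans_le hW₁))
      rw [tv2_swap hd.smooth, show area2 (u ∘ Prod.swap) = area2 (u) from
          area2_swap hd.smooth.continuous,
        show (area2 fun p => (u ∘ Prod.swap) p * (1 - (u ∘ Prod.swap) p)) =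
            area2 fun p => u p * (1 - u p) from
          area2_swap (F := fun p => u p * (1 - u p))
            (hd.smooth.continuous.mul (continuous_const.sub hd.smooth.continuous))] at h
      linarith
  have hAu : area2 u ≤ 1 := (area2_mono hd.smooth.continuous continuous_const fun p => (hd.mem p).2).trans_eq
    (area2_const 1)
  have hfull : ∀ t, (∀ y, t ≤ ∫ z in (0 : ℝ)..1, m (y, z)) →
      (∀ z, t ≤ ∫ y in (0 : ℝ)..1, m (y, z)) → s + 2 * h ≤ t →
      (∀ y, ∃ z, 1 ≤ u (y, z)) ∧ ∀ z, ∃ y, 1 ≤ u (y, z) := fun t ty tz hst => by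
    constructor
    · intro y
      by_contra hne
      push Not at hne
      have hlt : ∀ z, m (y, z) < t := fun z => lt_of_not_ge fun hz =>
        (hne z).ne (lv_eq_one hh (hst.trans hz))
      have cm : Continuous fun z => m (y, z) := hmc.comp (by fun_prop)
      have := intervalIntegral.integral_lt_integral_of_continuousOn_of_le_of_exists_lt
        (f := fun z => m (y, z)) (g := fun _ => t) zero_lt_one cm.continuousOn continuousOn_const
        (fun z _ => (hlt z).le) ⟨0, Set.left_mem_Icc.2 zero_le_one, hlt 0⟩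
      simp at this
      linarith [ty y]
    · intro z
      by_contra hne
      push Not at hne
      have hlt : ∀ y, m (y, z) < t := fun y => lt_of_not_ge fun hy =>
        (hne y).ne (lv_eq_one hh (hst.trans hy))
      have cm : Continuous fun y => m (y, z) := hmc.comp (by fun_prop)
      have := intervalIntegral.integral_lt_integral_of_continuousOn_of_le_of_exists_lt
        (f := fun y => m (y, z)) (g := fun _ => t) zero_lt_one cm.continuousOn continuousOn_const
        (fun y _ => (hlt y).le) ⟨0, Set.left_mem_Icc.2 zero_le_one, hlt 0⟩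
      simp at this
      linarith [tz z]
  by_cases c1 : max b₁ b₂ ≤ s
  · refine ⟨(gW_le_planar _ _ _).trans ?_, fun t ty tz hst => by
      exfalso
      obtain ⟨z, hz⟩ := (hfull t ty tz hst).1 yb
      have : u (yb, z) = 0 :=
        lv_eq_zero hh (by linarith [(le_neg.1 (hyb z) : m (yb, z) ≤ b₁), le_max_left b₁ b₂])
      linarith⟩
    have h := hcut _ hd yb zb
    have fy : ∀ z, u (yb, z) = 0 := fun z =>
      lv_eq_zero hh (by linarith [le_neg.1 (hyb z), le_max_left b₁ b₂])
    have fz : ∀ y, u (y, zb) = 0 := fun y =>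
      lv_eq_zero hh (by linarith [(le_neg.1 (hzb y) : m (y, zb) ≤ b₂), le_max_right b₁ b₂])
    simp only [fy, fz, intervalIntegral.integral_zero, mul_zero, add_zero] at h
    have he' : 0 ≤ area2 fun p => u p * (1 - u p) := he
    nlinarith [mul_nonneg hK he']
  have hseam : a ≤ s → ∀ p, u p ≤ ψ p := fun hsa p => by
    rcases le_or_gt (m p) s with c | c
    · rw [show u p = 0 from lv_eq_zero hh c]; exact ramp_nonneg _ _
    · show _ ≤ ramp h _
      rw [ramp_eq_one hh (by linarith)]; exact (hd.mem p).2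
  by_cases c2 : a₁ ≤ s ∧ s + 2 * h ≤ b₁
  · suffices hbd : bandW W₀ (area2 u) ≤ tv2 u / 2 + (δ + (K + 128) * area2 (fun p => u p * (1 - u p))
        + 2 * (near h a₁ s + near h a₂ s + near h b₁ s + near h b₂ s)) from
      ⟨(gW_le_band _ _ _).trans hbd, fun t ty tz hst =>
        (min_le_left _ _).trans (max_le hbd ((wavy_type hd hAu
          (fun y => (A₁' y).imp fun z hz => (lv_eq_zero hh (hz.trans c2.1)).le)
          (hfull t ty tz hst).1 (hfull t ty tz hst).2).trans (by linarith)))⟩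
    refine ((band_type (W := W₀) hd (y₀ := y₁)
      (fun y => (A₁' y).imp fun z hz => (lv_eq_zero hh (hz.trans c2.1)).le)
      (fun y => (C₁' y).imp fun z hz => (lv_eq_one hh (c2.2.trans (neg_le.1 hz))).ge) ?_).trans
      (by linarith))
    have cu : Continuous fun z => u (y₁, z) := hd.smooth.continuous.comp (by fun_prop)
    have cp : Continuous fun z => ψ (y₁, z) := hψc.comp (by fun_prop)
    refine (intervalIntegral.integral_mono_on zero_le_one (cu.intervalIntegrable _ _)
      (cp.intervalIntegrable _ _) fun z _ =>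
        hseam ((min_le_left _ _).trans c2.1) (y₁, z)).trans ?_
    have e : ℓ₁ y₁ = 1 - ∫ z in (0 : ℝ)..1, ψ (y₁, z) := by
      show ∫ z in (0 : ℝ)..1, (1 - ψ (y₁, z)) = _
      rw [intervalIntegral.integral_sub intervalIntegrable_const (cp.intervalIntegrable _ _)]
      simp
    linarith [min_le_left (ℓ₁ y₁) (ℓ₂ z₁)]
  by_cases c3 : a₂ ≤ s ∧ s + 2 * h ≤ b₂
  · suffices hbd : bandW W₀ (area2 u) ≤ tv2 u / 2 + (δ + (K + 128) * area2 (fun p => u p * (1 - u p))
        + 2 * (near h a₁ s + near h a₂ s + near h b₁ s + near h b₂ s)) from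
      ⟨(gW_le_band _ _ _).trans hbd, fun t ty tz hst => by
        have hw := wavy_type hd.swap ((area2_swap hd.smooth.continuous).trans_le hAu)
          (fun z => (A₂' z).imp fun y hy => (lv_eq_zero hh (hy.trans c3.1)).le)
          (hfull t ty tz hst).2 (hfull t ty tz hst).1
        rw [tv2_swap hd.smooth, show area2 (u ∘ Prod.swap) = area2 u from
          area2_swap hd.smooth.continuous] at hw
        exact (min_le_left _ _).trans (max_le hbd (hw.trans (by linarith)))⟩
    have h := band_type (W := W₀) hd.swap (y₀ := z₁)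
      (fun z => (A₂' z).imp fun y hy => (lv_eq_zero hh (hy.trans c3.1)).le)
      (fun z => (C₂' z).imp fun y hy => (lv_eq_one hh (c3.2.trans (neg_le.1 hy))).ge) (by
      have cu : Continuous fun y => u (y, z₁) := hd.smooth.continuous.comp (by fun_prop)
      have cp : Continuous fun y => ψ (y, z₁) := hψc.comp (by fun_prop)
      refine (intervalIntegral.integral_mono_on zero_le_one (cu.intervalIntegrable _ _)
        (cp.intervalIntegrable _ _) fun y _ =>
          hseam ((min_le_right _ _).trans c3.1) (y, z₁)).trans ?_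
      have e : ℓ₂ z₁ = 1 - ∫ y in (0 : ℝ)..1, ψ (y, z₁) := by
        show ∫ y in (0 : ℝ)..1, (1 - ψ (y, z₁)) = _
        rw [intervalIntegral.integral_sub intervalIntegrable_const (cp.intervalIntegrable _ _)]
        simp
      linarith [min_le_right (ℓ₁ y₁) (ℓ₂ z₁)])
    rw [tv2_swap hd.smooth, show area2 (u ∘ Prod.swap) = area2 (u) from
      area2_swap hd.smooth.continuous] at h
    refine h.trans ?_
    linarith
  -- an exceptional level
  have h2 : gLow W₀ W₁ (area2 u) ≤ 2 := (min_le_left _ _).trans (max_le (bandW_le_two _ _)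
    (Real.sqrt_le_iff.2 ⟨zero_le_two, by
      nlinarith [area2_nonneg (F := u) fun p => (hd.mem p).1]⟩))
  have hT : 0 ≤ tv2 (u) := intervalIntegral.integral_nonneg zero_le_one fun y _ =>
    intervalIntegral.integral_nonneg zero_le_one fun z _ => Real.sqrt_nonneg _
  have hone : 1 ≤ near h a₁ s + near h a₂ s + near h b₁ s + near h b₂ s := by
    have key : ∀ c, |s - c| < 3 * h → near h c s = 1 := fun c hc' => if_pos hc'
    by_cases n1 : |s - a₁| < 3 * h
    · linarith [key _ n1, near_nonneg h a₂ s, near_nonneg h b₁ s, near_nonneg h b₂ s]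
    by_cases n2 : |s - a₂| < 3 * h
    · linarith [key _ n2, near_nonneg h a₁ s, near_nonneg h b₁ s, near_nonneg h b₂ s]
    by_cases n3 : |s - b₁| < 3 * h
    · linarith [key _ n3, near_nonneg h a₁ s, near_nonneg h a₂ s, near_nonneg h b₂ s]
    by_cases n4 : |s - b₂| < 3 * h
    · linarith [key _ n4, near_nonneg h a₁ s, near_nonneg h a₂ s, near_nonneg h b₁ s]
    exfalso
    push_neg at c0 c1 c2 c3
    rw [lt_max_iff] at c1
    have w1 : a₁ ≤ s - 3 * h ∨ s + 3 * h ≤ a₁ := by
      rcases le_abs.1 (not_lt.1 n1) with h' | h' <;> [left; right] <;> linarith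
    have w2 : a₂ ≤ s - 3 * h ∨ s + 3 * h ≤ a₂ := by
      rcases le_abs.1 (not_lt.1 n2) with h' | h' <;> [left; right] <;> linarith
    have w3 : b₁ ≤ s - 3 * h ∨ s + 3 * h ≤ b₁ := by
      rcases le_abs.1 (not_lt.1 n3) with h' | h' <;> [left; right] <;> linarith
    have w4 : b₂ ≤ s - 3 * h ∨ s + 3 * h ≤ b₂ := by
      rcases le_abs.1 (not_lt.1 n4) with h' | h' <;> [left; right] <;> linarith
    have c0' : a₁ < s + 3 * h ∨ a₂ < s + 3 * h := by
      rcases min_choice a₁ a₂ with e | e
      · left; rw [← e]; linarith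
      · right; rw [← e]; linarith
    rcases w3 with w3 | w3
    · rcases w4 with w4 | w4
      · rcases c1 with c1 | c1 <;> linarith
      · linarith [c3 (by linarith)]
    · rcases w1 with w1 | w1
      · linarith [c2 (by linarith)]
      · rcases w4 with w4 | w4
        · linarith
        · rcases w2 with w2 | w2
          · linarith [c3 (by linarith)]
          · rcases c0' with c0' | c0' <;> linarith
  exact ⟨(gW_le_gLow _ _ _).trans (by nlinarith), fun t _ _ _ => by nlinarith⟩

/-- The levels add up to the volume. -/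
lemma levels_vol {h : ℝ} {N : ℕ} (hh : 0 < h) (hNh : (N : ℝ) * h = 1)
    {m : ℝ × ℝ → ℝ} (hm : Dens2 m) :
    |h * ∑ k ∈ range N, area2 (fun p => lv h (k * h) (m p)) - area2 m| ≤ h := by
  have hmc := hm.smooth.continuous
  set u : ℕ → ℝ × ℝ → ℝ := fun k p => lv h (k * h) (m p) with hu
  have hud : ∀ k, Dens2 (u k) := fun k =>
    ⟨(contDiff_lv h _).comp hm.smooth,
      fun y z => by simp [hu, (hm.per y z).1, (hm.per y z).2], fun p => lv_mem hh _ _⟩
  have e : h * ∑ k ∈ range N, area2 (u k) = area2 fun z => sp h (m z) := by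
    rw [← area2_sum _ fun k => (hud k).smooth.continuous, ← area2_const_mul]
    congr 1; funext z
    rw [Finset.mul_sum]
    have := Finset.sum_range_sub' (fun k : ℕ => sp h (m z - k * h)) N
    simp only [Nat.cast_add, Nat.cast_one, add_mul, one_mul, Nat.cast_zero, zero_mul, sub_zero,
      hNh, sp_eq_zero hh (by linarith [(hm.mem z).2] : m z - 1 ≤ 0)] at this
    rw [← this]
    refine Finset.sum_congr rfl fun k _ => ?_
    simp only [hu, lv]
    field_simp
  have hspc : Continuous fun z => sp h (m z) := (contDiff_sp h).continuous.comp hmc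
  have h1 := area2_mono hspc hmc fun z => sp_le (hm.mem z).1
  have h2 := area2_mono (G := fun z => sp h (m z) + h) hmc (hspc.add continuous_const) fun z => by
    show m z ≤ sp h (m z) + h
    linarith [sp_ge hh (m z)]
  rw [area2_add (F := fun z => sp h (m z)) (G := fun _ => h) hspc continuous_const,
    area2_const] at h2
  rw [e, abs_le]
  constructor <;> linarith

/-- The errors of the levels are small together. -/
lemma levels_err {δ K h : ℝ} {N : ℕ} (hK : 0 ≤ K) (hh : 0 < h) (hNh : (N : ℝ) * h = 1)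
    {m : ℝ × ℝ → ℝ} (hm : Dens2 m) (a₁ a₂ b₁ b₂ : ℝ) :
    h * ∑ k ∈ range N, (δ / 2
        + (K + 128) * area2 (fun p => lv h (k * h) (m p) * (1 - lv h (k * h) (m p)))
        + 2 * (near h a₁ (k * h) + near h a₂ (k * h) + near h b₁ (k * h) + near h b₂ (k * h)))
      ≤ δ / 2 + 2 * (K + 128) * h + 56 * h := by
  set u : ℕ → ℝ × ℝ → ℝ := fun k p => lv h (k * h) (m p) with hu
  have hud : ∀ k, Dens2 (u k) := fun k =>
    ⟨(contDiff_lv h _).comp hm.smooth,
      fun y z => by simp [hu, (hm.per y z).1, (hm.per y z).2], fun p => lv_mem hh _ _⟩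
  set r : ℕ → ℝ × ℝ → ℝ := fun k p => ramp h (m p - k * h) with hr
  rw [Finset.sum_add_distrib, Finset.sum_add_distrib, ← Finset.mul_sum, ← Finset.mul_sum,
    Finset.sum_const, Finset.card_range, nsmul_eq_mul]
  have hn : ∑ k ∈ range N, (near h a₁ (k * h) + near h a₂ (k * h) + near h b₁ (k * h) + near h b₂ (k * h)) ≤ 28 := by
    simp only [Finset.sum_add_distrib, near]
    linarith [near_count (N := N) hh a₁, near_count (N := N) hh a₂, near_count (N := N) hh b₁,
      near_count (N := N) hh b₂]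
  have he : ∑ k ∈ range N, area2 (fun z => u k z * (1 - u k z)) ≤ 2 := by
    have cF : ∀ k, Continuous fun z => u k z * (1 - u k z) := fun k =>
      (hud k).smooth.continuous.mul (continuous_const.sub (hud k).smooth.continuous)
    rw [← area2_sum _ cF]
    refine (area2_mono (continuous_finset_sum _ fun k _ => (hud k).smooth.continuous.mul
      (continuous_const.sub (hud k).smooth.continuous)) continuous_const fun z => ?_).trans_eq
      (area2_const 2)
    have hb : ∀ k : ℕ, u k z * (1 - u k z) ≤ (r k z - r (k + 1) z) + (r (k + 1) z - r (k + 2) z) :=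
      fun k => by
      have l := lv_between hh ((k : ℝ) * h) (m z)
      have e1 : r (k + 1) z = ramp h (m z - (k * h + h)) := by simp [hr, add_mul]
      have e2 : r (k + 2) z = ramp h (m z - (k * h + 2 * h)) := by simp [hr, add_mul]
      have l0 := ramp_nonneg h (m z - (k * h + h))
      have l1 := ramp_le_one h (m z - k * h)
      simp only [hu]
      rcases le_or_gt (m z) (k * h + 2 * h) with c | c
      · rw [e2, ramp_eq_zero hh (by linarith)]
        simp only [hr] at *
        nlinarith [l.1, l.2]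
      · rw [show lv h (k * h) (m z) = 1 from lv_eq_one hh c.le]
        simp only [sub_self, mul_zero]
        simp only [hr]
        push_cast
        linarith [ramp_mono hh (show m z - (k + 2) * h ≤ m z - k * h by linarith)]
    refine (Finset.sum_le_sum fun k _ => hb k).trans ?_
    rw [Finset.sum_add_distrib, Finset.sum_range_sub' (fun k => r k z),
      Finset.sum_range_sub' (fun k => r (k + 1) z)]
    linarith [ramp_nonneg h (m z - (N : ℕ) * h), ramp_le_one h (m z - (0 : ℕ) * h),
      ramp_nonneg h (m z - ((N + 1 : ℕ) : ℝ) * h), ramp_le_one h (m z - ((0 + 1 : ℕ) : ℝ) * h)]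
  calc h * ((N : ℝ) * (δ / 2) + (K + 128) * ∑ k ∈ range N, area2 (fun z => u k z * (1 - u k z))
        + 2 * ∑ k ∈ range N, (near h a₁ (k * h) + near h a₂ (k * h) + near h b₁ (k * h) + near h b₂ (k * h)))
      ≤ h * ((N : ℝ) * (δ / 2) + (K + 128) * 2 + 2 * 28) := by
        gcongr
    _ = _ := by linear_combination (δ / 2) * hNh

/-- The lowest levels fill the share `t`. -/
lemma low_count {L h t C C' : ℝ} {N : ℕ} (hh : 0 < h) (hNh : (N : ℝ) * h = 1) (ht1 : t ≤ 1)
    (hCC : C ≤ C') (hC : |C| ≤ L) (hC' : |C'| ≤ L) :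
    C + t * (C' - C) ≤
      h * ∑ k ∈ range N, (if (k : ℝ) * h + 2 * h ≤ t then C' else C) + 6 * L * h := by
  have e : ∀ k : ℕ, (if (k : ℝ) * h + 2 * h ≤ t then C' else C) =
      C + (C' - C) * (if (k : ℝ) * h + 2 * h ≤ t then 1 else 0) := fun k => by
    split_ifs <;> ring
  simp only [e, Finset.sum_add_distrib, ← Finset.mul_sum, Finset.sum_const, Finset.card_range,
    nsmul_eq_mul]
  set S := ∑ k ∈ range N, (if (k : ℝ) * h + 2 * h ≤ t then (1 : ℝ) else 0) with hS
  have hcount : t / h - 3 ≤ S := by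
    set M := ⌊t / h - 2⌋₊ with hM
    have hMN : M ≤ N := by
      refine Nat.floor_le_of_le ?_
      have : t / h ≤ N := by rw [div_le_iff₀ hh, hNh]; exact ht1
      linarith
    have h1 : (M : ℝ) ≤ S := by
      have : ∀ k ∈ range M, (1 : ℝ) ≤ if (k : ℝ) * h + 2 * h ≤ t then 1 else 0 := fun k hk => by
        rw [if_pos]
        have hk' : (k : ℝ) + 1 ≤ M := by exact_mod_cast Finset.mem_range.1 hk
        have hM0 : (1 : ℝ) ≤ M := by linarith [(k.cast_nonneg : (0 : ℝ) ≤ k)]
        have hM1 : (M : ℝ) ≤ t / h - 2 := Nat.floor_le (by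
          by_contra hneg
          have : M = 0 := Nat.floor_eq_zero.2 (by linarith)
          rw [this] at hM0; norm_num at hM0)
        have := mul_le_mul_of_nonneg_right (hk'.trans hM1) hh.le
        rw [sub_mul, div_mul_cancel₀ _ hh.ne'] at this
        nlinarith
      calc (M : ℝ) = ∑ k ∈ range M, (1 : ℝ) := by simp
        _ ≤ ∑ k ∈ range M, (if (k : ℝ) * h + 2 * h ≤ t then (1 : ℝ) else 0) := Finset.sum_le_sum this
        _ ≤ S := Finset.sum_le_sum_of_subset_of_nonneg (by
            intro k hk; exact Finset.mem_range.2 ((Finset.mem_range.1 hk).trans_le hMN))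
          fun k _ _ => by split_ifs <;> norm_num
    have := Nat.lt_floor_add_one (t / h - 2)
    rw [← hM] at this
    linarith
  have h2 := mul_le_mul_of_nonneg_left hcount (mul_nonneg hh.le (sub_nonneg.2 hCC))
  have e2 : h * (C' - C) * (t / h - 3) = t * (C' - C) - 3 * h * (C' - C) := by
    field_simp
  rw [e2] at h2
  have h3 : C' - C ≤ 2 * L := by linarith [le_abs_self C', neg_le_abs C]
  have h4 := mul_le_mul_of_nonneg_left h3 (show 0 ≤ 3 * h by linarith)
  have e3 : h * ((N : ℝ) * C) = C := by rw [← mul_assoc, mul_comm h, hNh, one_mul]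
  linarith

/-- The graph bound: all calibrations of `gW`, with `W` the largest hole section. -/
theorem graph_level {δ L : ℝ} (hδ : 0 < δ) (hL : 0 ≤ L) :
    ∃ h : ℝ, 0 < h ∧ h ≤ δ ∧ ∀ m, Dens2 m → ∀ o : ℝ × ℝ → ℝ, Continuous o →
      (∀ p, ramp h (m p) ≤ o p ∧ o p ≤ 1) → ∃ W ∈ Set.Icc (0 : ℝ) 1, ∀ W₀ W₁, W₀ ≤ W → W ≤ W₁ →
        1 / 10 ≤ W₁ → ∀ t, 0 ≤ t → t ≤ 1 → (∀ y, t ≤ ∫ z in (0 : ℝ)..1, m (y, z)) →
          (∀ z, t ≤ ∫ y in (0 : ℝ)..1, m (y, z)) →
          LowT L (gW W₀ W₁) (gLow W₀ W₁) (area2 m) t (area2 o)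
            ((area2 fun p => √(o p ^ 2 + (grad2 m p / 2) ^ 2)) + δ) := by
  obtain ⟨K, hK, hcut⟩ := cut2_lower (δ := δ / 2) (by linarith)
  set c := 9 * L + 2 * (K + 128) + 56 + 1 with hc
  have hc1 : 1 ≤ c := by simp only [hc]; linarith
  obtain ⟨N, hNge⟩ := exists_nat_ge ((2 * c / δ) ^ 2 + 1 / δ + 1)
  have hN1 : (1 : ℝ) ≤ N := by linarith [sq_nonneg (2 * c / δ), one_div_pos.2 hδ]
  set h : ℝ := 1 / N with hhd
  have hh : 0 < h := by positivity
  have hh1 : h ≤ 1 := (div_le_one (by linarith)).2 hN1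
  have hNh : (N : ℝ) * h = 1 := by rw [hhd]; field_simp
  have hhδ : h ≤ δ := by
    rw [hhd, one_div_le (by linarith) hδ]
    linarith [sq_nonneg (2 * c / δ)]
  have hsq : c * √h ≤ δ / 2 := by
    have : √h ≤ δ / (2 * c) := by
      rw [Real.sqrt_le_left (by positivity), hhd, one_div,
        show (δ / (2 * c)) ^ 2 = ((2 * c / δ) ^ 2)⁻¹ by rw [← inv_pow, inv_div]]
      exact inv_anti₀ (by positivity) (by linarith [one_div_pos.2 hδ])
    rw [le_div_iff₀ (by positivity)] at this
    linarith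
  have hs1 : √h ≤ 1 := Real.sqrt_le_one.2 hh1
  have hhs : h ≤ √h := Real.le_sqrt_of_sq_le (by nlinarith)
  refine ⟨h, hh, hhδ, fun m hm o hoc ho => ?_⟩
  have hmc := hm.smooth.continuous
  obtain ⟨W, hWm, a₁, a₂, b₁, b₂, htype⟩ := levels_type (by linarith : 0 ≤ δ / 2) hK hh hcut hm
  refine ⟨W, hWm, fun W₀ W₁ hW₀ hW₁ hW10 t ht0 ht1 hty htz H C C' β hH hC hC' hCC hlip hadm => ?_⟩
  -- the levels
  set u : ℕ → ℝ × ℝ → ℝ := fun k p => lv h (k * h) (m p) with hu
  have hud : ∀ k, Dens2 (u k) := fun k =>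
    ⟨(contDiff_lv h _).comp hm.smooth,
      fun y z => by simp [hu, (hm.per y z).1, (hm.per y z).2], fun p => lv_mem hh _ _⟩
  set X : ℕ → ℝ := fun k => δ / 2 + (K + 128) * area2 (fun p => u k p * (1 - u k p))
    + 2 * (near h a₁ (k * h) + near h a₂ (k * h) + near h b₁ (k * h) + near h b₂ (k * h)) with hX
  set G : ℕ → ℝ := fun k =>
    if (k : ℝ) * h + 2 * h ≤ t then gLow W₀ W₁ (area2 (u k)) else gW W₀ W₁ (area2 (u k)) with hG
  set Ck : ℕ → ℝ := fun k => if (k : ℝ) * h + 2 * h ≤ t then C' else C with hCk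
  replace htype : ∀ k : ℕ, G k ≤ tv2 (u k) / 2 + X k := fun k => by
    simp only [hG]
    split_ifs with c
    · exact (htype W₀ W₁ hW₀ hW₁ hW10 _).2 t hty htz c
    · exact (htype W₀ W₁ hW₀ hW₁ hW10 _).1
  -- the areas of the truncations
  set r : ℕ → ℝ × ℝ → ℝ := fun k p => ramp h (m p - k * h) with hr
  have hrc : ∀ k, Continuous (r k) := fun k => (continuous_ramp h).comp (hmc.sub continuous_const)
  set D : ℕ → ℝ := fun k => area2 (r k) with hD
  have hD0 : D 0 ≤ area2 o := area2_mono (hrc 0) hoc fun p => by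
    simpa [hr] using (ho p).1
  have hDN : D N = 0 := by
    have : r N = fun _ => 0 := funext fun p => by
      simp only [hr, hNh]
      exact ramp_eq_zero hh (by linarith [(hm.mem p).2])
    simp [hD, this, area2_const]
  have hanti : Antitone D := fun i j hij => area2_mono (hrc j) (hrc i) fun p =>
    ramp_mono hh (by
      have : (i : ℝ) ≤ j := Nat.cast_le.2 hij
      nlinarith)
  have hA : ∀ k, D (k + 1) ≤ area2 (u k) ∧ area2 (u k) ≤ D k := fun k => by
    refine ⟨area2_mono (hrc _) (hud k).smooth.continuous fun p => ?_,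
      area2_mono (hud k).smooth.continuous (hrc _) fun p => (lv_between hh _ _).2⟩
    have := (lv_between hh ((k : ℝ) * h) (m p)).1
    simpa [hr, hu, add_mul] using this
  have ho1 : area2 o ≤ 1 := (area2_mono hoc continuous_const fun p => (ho p).2).trans_eq
    (area2_const 1)
  have hDmem : ∀ k, 0 ≤ D k ∧ D k ≤ area2 o := fun k =>
    ⟨area2_nonneg fun p => ramp_nonneg _ _, (hanti (Nat.zero_le k)).trans hD0⟩
  have hsub : ∀ k, Set.Icc (D (k + 1)) (D k) ⊆ Set.Icc 0 (area2 o) := fun k =>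
    Set.Icc_subset_Icc (hDmem _).1 (hDmem _).2
  have hβc : ContinuousOn β (Set.Icc 0 (area2 o)) :=
    (LipschitzOnWith.of_dist_le_mul (K := L.toNNReal) fun x hx y hy => by
      rw [Real.coe_toNNReal L hL, Real.dist_eq, Real.dist_eq]; exact hlip x hx y hy).continuousOn
  have hcal : ∀ k, ∃ p q : ℝ, 0 ≤ p ∧ 0 ≤ q ∧ p ^ 2 + q ^ 2 ≤ 1 ∧
      (∫ x in D (k + 1)..D k, β x) + h * (H * area2 (u k) + Ck k) ≤ p * (D k - D (k + 1))
        + q * (h * G k) + 2 * L * √h * (D k - D (k + 1)) := fun k => by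
    have hAm := hsub k ⟨(hA k).1, (hA k).2⟩
    have hg0 := gW_nonneg (W₀ := W₀) (W₁ := W₁) (by linarith) (hAm.2.trans ho1)
    obtain ⟨-, -, hd1, hd2⟩ := hadm _ hAm
    simp only [hG, hCk]
    split_ifs
    · exact level_calib hh (hA k).1 (hA k).2 (abs_le.2 ⟨by linarith [hAm.1], hAm.2.trans ho1⟩)
        (hg0.trans (gW_le_gLow _ _ _)) hH hC'
        (fun x hx => hlip x (hsub k hx) _ hAm) (hβc.mono (hsub k))
        (fun x hx => ⟨(hadm x (hsub k hx)).1, (hadm x (hsub k hx)).2.1⟩) hd2
    · exact level_calib hh (hA k).1 (hA k).2 (abs_le.2 ⟨by linarith [hAm.1], hAm.2.trans ho1⟩)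
        hg0 hH hC (fun x hx => hlip x (hsub k hx) _ hAm) (hβc.mono (hsub k))
        (fun x hx => ⟨(hadm x (hsub k hx)).1, (hadm x (hsub k hx)).2.1⟩) hd1
  choose p q hp0 hq0 hpq hcal using hcal
  set g : ℝ × ℝ → ℝ := fun z => grad2 m z / 2 with hg
  have hgc : Continuous g := (continuous_grad2 hm.smooth).div_const 2
  -- each level
  have hlev : ∀ k ∈ range N, (∫ x in D (k + 1)..D k, β x) + h * (H * area2 (u k) + Ck k) ≤
      area2 (fun z => (r k z - r (k + 1) z) * (p k + q k * g z))
        + h * X k + 2 * L * √h * (D k - D (k + 1)) := fun k _ => by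
    have hX0 : 0 ≤ X k := by
      have := area2_nonneg fun z => mul_nonneg ((hud k).mem z).1 (sub_nonneg.2 ((hud k).mem z).2)
      simp only [hX]
      nlinarith [near_nonneg h a₁ (k * h), near_nonneg h a₂ (k * h), near_nonneg h b₁ (k * h), near_nonneg h b₂ (k * h), mul_nonneg hK this]
    have etv : h * (tv2 (u k) / 2) = area2 fun z => (r k z - r (k + 1) z) * g z := by
      show h * (area2 (grad2 (u k)) / 2) = _
      rw [div_eq_mul_inv, mul_comm (area2 _), ← mul_assoc, ← area2_const_mul]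
      congr 1; funext z
      have e : ramp h (m z - k * h) - ramp h (m z - (k * h + h)) = r k z - r (k + 1) z := by
        simp [hr, add_mul]
      rw [hu, grad2_comp (φ := lv h (k * h)) hm.smooth (hasDerivAt_lv h _ _),
        abs_of_nonneg (div_nonneg (sub_nonneg.2 (ramp_mono hh (by linarith))) hh.le), e]
      simp only [hg]
      field_simp
    have e1 : area2 (fun z => (r k z - r (k + 1) z) * (p k + q k * g z)) =
        p k * (D k - D (k + 1)) + q k * (h * (tv2 (u k) / 2)) := by
      have c1 : Continuous fun z => r k z - r (k + 1) z := (hrc k).sub (hrc (k + 1))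
      have e : (fun z => (r k z - r (k + 1) z) * (p k + q k * g z)) = fun z =>
          p k * (r k z - r (k + 1) z) + q k * ((r k z - r (k + 1) z) * g z) := by
        funext z; ring
      rw [e, area2_add (F := fun z => p k * (r k z - r (k + 1) z))
        (G := fun z => q k * ((r k z - r (k + 1) z) * g z)) (continuous_const.mul c1)
        (continuous_const.mul (c1.mul hgc)), area2_const_mul, area2_const_mul, etv]
      have := area2_add (F := fun z => r k z - r (k + 1) z) c1 (hrc (k + 1))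
      simp only [sub_add_cancel] at this
      simp only [hD]
      rw [show area2 (r k) = _ from this]
      ring
    rw [e1]
    have h1 := mul_le_mul_of_nonneg_left (mul_le_mul_of_nonneg_left (htype k) hh.le) (hq0 k)
    have hq1 : q k ≤ 1 := by nlinarith [hpq k, hp0 k, hq0 k]
    have := mul_le_mul_of_nonneg_right hq1 (mul_nonneg hh.le hX0)
    linarith [hcal k]
  have hsum := Finset.sum_le_sum hlev
  rw [Finset.sum_add_distrib, Finset.sum_add_distrib, Finset.sum_add_distrib, ← Finset.mul_sum,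
    ← Finset.mul_sum, ← Finset.mul_sum] at hsum
  -- the left side
  have eint : ∑ k ∈ range N, ∫ x in D (k + 1)..D k, β x = ∫ x in (0 : ℝ)..D 0, β x := by
    have hi : ∀ k < N, IntervalIntegrable β volume (D k) (D (k + 1)) := fun k _ =>
      ((hβc.mono (hsub k)).intervalIntegrable_of_Icc (hanti (Nat.le_succ k))).symm
    have := intervalIntegral.sum_integral_adjacent_intervals hi
    rw [hDN, intervalIntegral.integral_symm] at this
    rw [Finset.sum_congr rfl fun k _ => intervalIntegral.integral_symm (D k) (D (k + 1)),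
      Finset.sum_neg_distrib, this, neg_neg]
  have etel : ∑ k ∈ range N, (D k - D (k + 1)) = D 0 := by
    rw [Finset.sum_range_sub', hDN, sub_zero]
  have esum : ∑ k ∈ range N, (H * area2 (u k) + Ck k) =
      H * ∑ k ∈ range N, area2 (u k) + ∑ k ∈ range N, Ck k := by
    rw [Finset.sum_add_distrib, ← Finset.mul_sum]
  have ecnt : C + t * (C' - C) ≤ h * ∑ k ∈ range N, Ck k + 6 * L * h :=
    low_count hh hNh ht1 hCC hC hC'
  have evol : |h * ∑ k ∈ range N, area2 (u k) - area2 m| ≤ h := levels_vol hh hNh hm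
  -- the right side
  set T := area2 fun z => √(o z ^ 2 + g z ^ 2)
  have hW' : ∑ k ∈ range N, area2 (fun z => (r k z - r (k + 1) z) * (p k + q k * g z))
      + (area2 o - D 0) ≤ T := by
    have cF : ∀ k, Continuous fun z => (r k z - r (k + 1) z) * (p k + q k * g z) := fun k =>
      ((hrc k).sub (hrc (k + 1))).mul (continuous_const.add (continuous_const.mul hgc))
    rw [← area2_sum _ cF]
    have e : area2 o - D 0 = area2 fun z => o z - r 0 z := by
      have := area2_add (F := fun z => o z - r 0 z) (hoc.sub (hrc 0)) (hrc 0)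
      simp only [sub_add_cancel] at this
      simp only [hD]
      rw [show area2 o = _ from this]; ring
    have cS : Continuous fun z => ∑ k ∈ range N, (r k z - r (k + 1) z) * (p k + q k * g z) :=
      continuous_finset_sum _ fun k _ => cF k
    rw [e, ← area2_add (F := fun z => ∑ k ∈ range N, (r k z - r (k + 1) z) * (p k + q k * g z))
      (G := fun z => o z - r 0 z) cS (hoc.sub (hrc 0))]
    refine area2_mono (cS.add (hoc.sub (hrc 0))) ((hoc.pow 2).add (hgc.pow 2)).sqrt fun z => ?_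
    have := weights_le (x := m z) (g := g z) (o := o z) hh hNh (hm.mem z).2
      (div_nonneg (Real.sqrt_nonneg _) zero_le_two) (ho z).1 (ho z).2 hpq
    simpa [hr, add_mul] using this
  have hXs : h * ∑ k ∈ range N, X k ≤ δ / 2 + 2 * (K + 128) * h + 56 * h :=
    levels_err hK hh hNh hm a₁ a₂ b₁ b₂
  rw [eint, etel, esum] at hsum
  have hrest : (∫ x in (0 : ℝ)..area2 o, β x) ≤ (∫ x in (0 : ℝ)..D 0, β x) + (area2 o - D 0) := by
    have i1 := (hβc.mono (Set.Icc_subset_Icc le_rfl (hDmem 0).2)).intervalIntegrable_of_Icc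
      (μ := volume) (hDmem 0).1
    have i2 := (hβc.mono (Set.Icc_subset_Icc (hDmem 0).1 le_rfl)).intervalIntegrable_of_Icc
      (μ := volume) (hDmem 0).2
    rw [← intervalIntegral.integral_add_adjacent_intervals i1 i2]
    have := intervalIntegral.integral_mono_on hD0 i2 intervalIntegrable_const
      fun x hx => (hadm x ⟨(hDmem 0).1.trans hx.1, hx.2⟩).2.1
    simp only [intervalIntegral.integral_const, smul_eq_mul, mul_one] at this
    linarith
  have e3 : H * area2 m ≤ H * (h * ∑ k ∈ range N, area2 (u k)) + L * h := by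
    have := mul_le_mul hH evol (abs_nonneg _) hL
    rw [← abs_mul, abs_le] at this
    linarith
  have e4 : 2 * L * √h * D 0 ≤ 2 * L * √h :=
    mul_le_of_le_one_right (by positivity) ((hDmem 0).2.trans ho1)
  have e5 : (7 * L + 2 * (K + 128) + 56) * h ≤ (7 * L + 2 * (K + 128) + 56) * √h :=
    mul_le_mul_of_nonneg_left hhs (by linarith)
  have e6 : (9 * L + 2 * (K + 128) + 56) * √h ≤ c * √h :=
    mul_le_mul_of_nonneg_right (by simp only [hc]; linarith) (Real.sqrt_nonneg _)
  show _ ≤ T + δ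
  linarith

end

end Vale.Agent.P232
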