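import Vale.Agent.P232.Axis
import Vale.Agent.P232.GraphLevel

/-!
# P232: from a density of the torus to the graph of its means along the first axis
-/

namespace Vale.Agent.P232

noncomputable section

open MeasureTheory Set Real

namespace Axis

variable {w : (ℝ × ℝ × ℝ) → ℝ}

/-- The means along the first axis. -/
def colM (w : (ℝ × ℝ × ℝ) → ℝ) (p : ℝ × ℝ) : ℝ := ∫ t in (0 : ℝ)..1, w (t, p)

lemma continuous_col {F : (ℝ × ℝ × ℝ) → ℝ} (hF : Continuous F) :
    Continuous fun p : ℝ × ℝ => ∫ t in (0 : ℝ)..1, F (t, p) :=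
  intervalIntegral.continuous_parametric_intervalIntegral_of_continuous'
    (f := fun (p : ℝ × ℝ) t => F (t, p)) (hF.comp (continuous_snd.prodMk continuous_fst)) 0 1

lemma hasFDerivAt_colM (hw : Dens w) (p : ℝ × ℝ) : ∃ D : ℝ × ℝ →L[ℝ] ℝ,
    HasFDerivAt (colM w) D p ∧ ∀ v, D v = ∫ t in (0 : ℝ)..1, fderiv ℝ w (t, p) (0, v) := by
  set S : (ℝ × ℝ) × ℝ →L[ℝ] ℝ × ℝ × ℝ :=
    (ContinuousLinearMap.snd ℝ (ℝ × ℝ) ℝ).prod (ContinuousLinearMap.fst ℝ (ℝ × ℝ) ℝ) with hS
  have hF : ContDiff ℝ 1 fun q : (ℝ × ℝ) × ℝ => w (S q) :=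
    (hw.smooth.of_le one_le_two).comp S.contDiff
  have e : ∀ q, fderiv ℝ (fun q => w (S q)) q = (fderiv ℝ w (S q)).comp S := fun q =>
    ((hw.smooth.differentiable two_ne_zero (S q)).hasFDerivAt.comp q S.hasFDerivAt).fderiv
  refine ⟨_, P209.hasFDerivAt_int01 hF p, fun v => ?_⟩
  have hc : Continuous fun t : ℝ => (fderiv ℝ (fun q => w (S q)) (p, t)).comp
      (ContinuousLinearMap.inl ℝ (ℝ × ℝ) ℝ) :=
    ((hF.continuous_fderiv one_ne_zero).comp
      (continuous_const.prodMk continuous_id)).clm_comp continuous_const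
  rw [ContinuousLinearMap.intervalIntegral_apply (hc.intervalIntegrable 0 1)]
  refine intervalIntegral.integral_congr fun t _ => ?_
  show fderiv ℝ (fun q => w (S q)) (p, t) (v, 0) = _
  rw [e]
  rfl

lemma fderiv_colM (hw : Dens w) (p v : ℝ × ℝ) :
    fderiv ℝ (colM w) p v = ∫ t in (0 : ℝ)..1, fderiv ℝ w (t, p) (0, v) := by
  obtain ⟨D, hD, h⟩ := hasFDerivAt_colM hw p
  rw [hD.fderiv, h]

lemma dens2_colM (hw : Dens w) : Dens2 (colM w) where
  smooth := by
    refine contDiff_one_iff_fderiv.2 ⟨fun p => ?_, continuous_clm_apply.2 fun v => ?_⟩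
    · obtain ⟨D, hD, -⟩ := hasFDerivAt_colM hw p; exact hD.differentiableAt
    · simp only [fderiv_colM hw]
      exact continuous_col (F := fun q => fderiv ℝ w q (0, v)) (continuous_dir hw _)
  per y z := by
    constructor <;> refine intervalIntegral.integral_congr fun t _ => ?_
    · exact (dens2_sec hw t).per y z |>.1
    · exact (dens2_sec hw t).per y z |>.2
  mem p := by
    have hc : Continuous fun t => w (t, p) := hw.smooth.continuous.comp (by fun_prop)
    refine ⟨intervalIntegral.integral_nonneg zero_le_one fun t _ => (hw.mem _).1,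
      (intervalIntegral.integral_mono_on zero_le_one (hc.intervalIntegrable _ _)
        intervalIntegrable_const fun t _ => (hw.mem _).2).trans_eq ?_⟩
    simp

lemma int3_col {F : (ℝ × ℝ × ℝ) → ℝ} (hF : Continuous F) :
    area2 (fun p => ∫ t in (0 : ℝ)..1, F (t, p)) = int3 F := by
  rw [← int3_cyc₃ hF, ← int3_cyc₃ (F := fun p => F (cyc₃ p)) (hF.comp cyc₃.continuous)]
  simp only [int3, area2, cyc₃_apply]

lemma integral_sqrt_le {f g k R : ℝ → ℝ} (hf : Continuous f) (hg : Continuous g) (hk : Continuous k)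
    (hR : Continuous R) (h : ∀ t, √(f t ^ 2 + g t ^ 2 + k t ^ 2) ≤ R t) :
    √((∫ t in (0 : ℝ)..1, f t) ^ 2 + (∫ t in (0 : ℝ)..1, g t) ^ 2 + (∫ t in (0 : ℝ)..1, k t) ^ 2)
      ≤ ∫ t in (0 : ℝ)..1, R t := by
  set a := ∫ t in (0 : ℝ)..1, f t with ha
  set b := ∫ t in (0 : ℝ)..1, g t with hb
  set c := ∫ t in (0 : ℝ)..1, k t with hc
  set N := √(a ^ 2 + b ^ 2 + c ^ 2) with hN
  have hpt : ∀ t, a * f t + b * g t + c * k t ≤ N * R t := fun t => by
    refine le_trans ?_ (mul_le_mul_of_nonneg_left (h t) (Real.sqrt_nonneg _))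
    rw [hN, ← Real.sqrt_mul (by positivity)]
    refine Real.le_sqrt_of_sq_le ?_
    nlinarith [sq_nonneg (a * g t - b * f t), sq_nonneg (a * k t - c * f t),
      sq_nonneg (b * k t - c * g t)]
  have cL : Continuous fun t => a * f t + b * g t + c * k t := by fun_prop
  have cR : Continuous fun t => N * R t := continuous_const.mul hR
  have hI := intervalIntegral.integral_mono_on (μ := volume) zero_le_one
    (cL.intervalIntegrable 0 1) (cR.intervalIntegrable 0 1) fun t _ => hpt t
  rw [intervalIntegral.integral_add (f := fun t => a * f t + b * g t) (g := fun t => c * k t)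
      ((by fun_prop : Continuous fun t => a * f t + b * g t).intervalIntegrable _ _)
      ((continuous_const.mul hk).intervalIntegrable _ _),
    intervalIntegral.integral_add (f := fun t => a * f t) (g := fun t => b * g t)
      ((continuous_const.mul hf).intervalIntegrable _ _)
      ((continuous_const.mul hg).intervalIntegrable _ _),
    intervalIntegral.integral_const_mul, intervalIntegral.integral_const_mul,
    intervalIntegral.integral_const_mul, intervalIntegral.integral_const_mul, ← ha, ← hb, ← hc]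
    at hI
  have h2 : N ^ 2 = a ^ 2 + b ^ 2 + c ^ 2 := Real.sq_sqrt (by positivity)
  have h0 : 0 ≤ ∫ t in (0 : ℝ)..1, R t :=
    intervalIntegral.integral_nonneg zero_le_one fun t _ => (Real.sqrt_nonneg _).trans (h t)
  rcases (Real.sqrt_nonneg (a ^ 2 + b ^ 2 + c ^ 2)).eq_or_lt with he | hp
  · rw [← hN] at he; rw [← he]; exact h0
  · rw [← hN] at hp; nlinarith

/-- The column covers at most half its variation, its starting value and the error. -/
lemma col_osc (hw : Dens w) {h : ℝ} (hh : 0 < h) (t₀ t₁ : ℝ) (p : ℝ × ℝ) :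
    max (ramp h (colM w p)) (w (t₁, p)) ≤ (∫ t in (0 : ℝ)..1, |fderiv ℝ w (t, p) e₁|) / 2
      + w (t₀, p) + 1 / h * ∫ t in (0 : ℝ)..1, w (t, p) * (1 - w (t, p)) := by
  rw [one_div, inv_mul_eq_div]
  have hc : Continuous fun t => w (t, p) := hw.smooth.continuous.comp (by fun_prop)
  have hg : ∀ t, HasDerivAt (fun t => w (t, p)) (fderiv ℝ w (t, p) e₁) t := fun t =>
    (hw.smooth.differentiable two_ne_zero (t, p)).hasFDerivAt.comp_hasDerivAt t
      ((hasDerivAt_id t).prodMk (hasDerivAt_const t p))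
  set S := (∫ t in (0 : ℝ)..1, |fderiv ℝ w (t, p) e₁|) / 2 with hS
  set E := ∫ t in (0 : ℝ)..1, w (t, p) * (1 - w (t, p)) with hE
  have hS0 : 0 ≤ S := div_nonneg
    (intervalIntegral.integral_nonneg zero_le_one fun t _ => abs_nonneg _) zero_le_two
  have hE0 : 0 ≤ E := intervalIntegral.integral_nonneg zero_le_one fun t _ =>
    mul_nonneg (hw.mem _).1 (sub_nonneg.2 (hw.mem _).2)
  have hosc : ∀ t, w (t, p) ≤ S + w (t₀, p) := fun t => by
    have h := line_osc (g := fun t => w (t, p))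
      ((hw.smooth.of_le one_le_two).comp (contDiff_id.prodMk contDiff_const))
      (fun t => by
        have h := hw.per (t, p.1, p.2)
        simp only [e₁, Prod.mk_add_mk, add_zero] at h
        exact h.1) t₀ t
    simp only [fun t => (hg t).deriv] at h
    simp only [hS]; linarith
  set M := S + w (t₀, p) with hM
  have hM0 : 0 ≤ M := add_nonneg hS0 (hw.mem _).1
  have hr : ramp h (colM w p) ≤ M + E / h := by
    have hEh : 0 ≤ E / h := div_nonneg hE0 hh.le
    have r1 := ramp_le_one h (colM w p)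
    have r0 := ramp_nonneg h (colM w p)
    rcases le_or_gt 1 M with c | c
    · linarith
    have hm0 : 0 ≤ colM w p := ((dens2_colM hw).mem p).1
    have rm : ramp h (colM w p) ≤ colM w p / h :=
      max_le (div_nonneg hm0 hh.le) (min_le_right _ _)
    have hI : colM w p * (1 - M) ≤ E := by
      rw [colM, ← intervalIntegral.integral_mul_const, hE]
      exact intervalIntegral.integral_mono_on zero_le_one
        ((hc.mul continuous_const).intervalIntegrable _ _)
        ((hc.mul (continuous_const.sub hc)).intervalIntegrable _ _)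
        fun t _ => mul_le_mul_of_nonneg_left (by linarith [hosc t]) (hw.mem _).1
    have h1 := mul_le_mul_of_nonneg_right rm (show 0 ≤ 1 - M by linarith)
    have h2 : colM w p / h * (1 - M) ≤ E / h := by
      rw [div_mul_eq_mul_div]; exact div_le_div_of_nonneg_right hI hh.le
    nlinarith [mul_le_mul_of_nonneg_right r1 hM0]
  refine max_le hr ?_
  linarith [hosc t₁, div_nonneg hE0 hh.le]

/-- One line along the first axis. -/
lemma col_le (hw : Dens w) {h : ℝ} (hh : 0 < h) (t₀ t₁ : ℝ) (p : ℝ × ℝ) :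
    √(max (ramp h (colM w p)) (w (t₁, p)) ^ 2 + (grad2 (colM w) p / 2) ^ 2) ≤
      (∫ t in (0 : ℝ)..1, gnorm w (t, p)) / 2 + (w (t₀, p)
        + (∫ t in (0 : ℝ)..1, w (t, p) * (1 - w (t, p))) / h) := by
  have hc : Continuous fun t => w (t, p) := hw.smooth.continuous.comp (by fun_prop)
  have hd : ∀ v, Continuous fun t : ℝ => fderiv ℝ w (t, p) v := fun v =>
    (continuous_dir hw v).comp (by fun_prop)
  have hg : ∀ t, HasDerivAt (fun t => w (t, p)) (fderiv ℝ w (t, p) e₁) t := fun t =>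
    (hw.smooth.differentiable two_ne_zero (t, p)).hasFDerivAt.comp_hasDerivAt t
      ((hasDerivAt_id t).prodMk (hasDerivAt_const t p))
  set S := (∫ t in (0 : ℝ)..1, |fderiv ℝ w (t, p) e₁|) / 2 with hS
  set E := ∫ t in (0 : ℝ)..1, w (t, p) * (1 - w (t, p)) with hE
  have hS0 : 0 ≤ S := div_nonneg
    (intervalIntegral.integral_nonneg zero_le_one fun t _ => abs_nonneg _) zero_le_two
  have hE0 : 0 ≤ E := intervalIntegral.integral_nonneg zero_le_one fun t _ =>
    mul_nonneg (hw.mem _).1 (sub_nonneg.2 (hw.mem _).2)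
  set o := max (ramp h (colM w p)) (w (t₁, p))
  have ho : o ≤ S + (w (t₀, p) + E / h) := by
    have := col_osc hw hh t₀ t₁ p
    rw [← hS, ← hE, one_div, inv_mul_eq_div] at this
    linarith
  have ho0 : 0 ≤ o := (ramp_nonneg _ _).trans (le_max_left _ _)
  set G := grad2 (colM w) p / 2 with hG
  set X := w (t₀, p) + E / h with hX
  have hX0 : 0 ≤ X := add_nonneg (hw.mem _).1 (div_nonneg hE0 hh.le)
  have h1 : √(o ^ 2 + G ^ 2) ≤ √(S ^ 2 + G ^ 2) + X := by
    refine (Real.sqrt_le_left (by positivity)).2 ?_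
    have q := Real.sq_sqrt (show 0 ≤ S ^ 2 + G ^ 2 by positivity)
    have q' : S ≤ √(S ^ 2 + G ^ 2) := Real.le_sqrt_of_sq_le (by nlinarith)
    nlinarith [mul_le_mul_of_nonneg_right q' hX0, mul_self_le_mul_self ho0 ho]
  refine h1.trans (add_le_add ?_ le_rfl)
  have h2 := integral_sqrt_le (f := fun t => |fderiv ℝ w (t, p) e₁|)
    (g := fun t => fderiv ℝ w (t, p) e₂) (k := fun t => fderiv ℝ w (t, p) e₃)
    (R := fun t => gnorm w (t, p)) (hd e₁).abs (hd e₂) (hd e₃)
    (((((hd e₁).pow 2).add ((hd e₂).pow 2)).add ((hd e₃).pow 2)).sqrt)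
    fun t => by simp [gnorm]
  have eG : G ^ 2 = ((∫ t in (0 : ℝ)..1, fderiv ℝ w (t, p) e₂) ^ 2
      + (∫ t in (0 : ℝ)..1, fderiv ℝ w (t, p) e₃) ^ 2) / 4 := by
    rw [hG, div_pow, grad2, Real.sq_sqrt (by positivity), fderiv_colM hw, fderiv_colM hw]
    simp only [e₂, e₃]
    ring_nf
  rw [eG]
  refine le_trans (le_of_eq ?_) (div_le_div_of_nonneg_right h2 zero_le_two)
  rw [eq_div_iff two_ne_zero]
  conv_lhs => rw [← Real.sqrt_sq (show (0 : ℝ) ≤ 2 by norm_num)]
  rw [← Real.sqrt_mul (by positivity)]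
  congr 1
  simp only [hS]
  ring

end Axis

open Axis in
/-- When the columns cover almost the whole face but no slice does, the slices must be bent. -/
lemma top_le {δ K : ℝ} {w : ℝ × ℝ × ℝ → ℝ} (hw : Dens w)
    (h2 : ∀ f, Dens2 f → 2 * gfun (area2 f) ≤ tv2 f + δ + K * area2 (fun p => f p * (1 - f p)))
    {k q : ℝ} (hq : 0 ≤ q) (hq1 : q ≤ 1) (hk : ∀ t, k * secA w t ≤ gfun (secA w t)) :
    √(1 - q ^ 2) * ((∫ p in (0 : ℝ)..1, area2 fun z => |fderiv ℝ w (p, z) e₁|) / 2) + q * (k * int3 w)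
      ≤ int3 (gnorm w) / 2 + q * (δ / 2 + K / 2 * int3 (fun p => w p * (1 - w p))) := by
  have hw0 := hw.smooth.continuous
  have hF : Continuous fun p => w p * (1 - w p) := hw0.mul (continuous_const.sub hw0)
  have hd1 : Continuous fun p => |fderiv ℝ w p e₁| := (continuous_dir hw e₁).abs
  have hpp : Continuous fun p => √(fderiv ℝ w p e₂ ^ 2 + fderiv ℝ w p e₃ ^ 2) :=
    (((continuous_dir hw e₂).pow 2).add ((continuous_dir hw e₃).pow 2)).sqrt
  have hg : Continuous (gnorm w) :=
    ((((continuous_dir hw e₁).pow 2).add ((continuous_dir hw e₂).pow 2)).add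
      ((continuous_dir hw e₃).pow 2)).sqrt
  have hq2 : 0 ≤ 1 - q ^ 2 := by nlinarith
  have hpt : ∀ p, √(1 - q ^ 2) * |fderiv ℝ w p e₁| + q * √(fderiv ℝ w p e₂ ^ 2 + fderiv ℝ w p e₃ ^ 2)
      ≤ gnorm w p := fun p => by
    refine Real.le_sqrt_of_sq_le ?_
    nlinarith [Real.sq_sqrt hq2,
      Real.sq_sqrt (show 0 ≤ fderiv ℝ w p e₂ ^ 2 + fderiv ℝ w p e₃ ^ 2 by positivity),
      sq_abs (fderiv ℝ w p e₁),
      sq_nonneg (√(1 - q ^ 2) * √(fderiv ℝ w p e₂ ^ 2 + fderiv ℝ w p e₃ ^ 2) -
        q * |fderiv ℝ w p e₁|)]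
  have etv : ∀ t, tv2 (sec w t) =
      area2 fun z => √(fderiv ℝ w (t, z) e₂ ^ 2 + fderiv ℝ w (t, z) e₃ ^ 2) := fun t => by
    show area2 (grad2 (sec w t)) = _
    congr 1
    funext z
    have hf : HasFDerivAt (sec w t) ((fderiv ℝ w (t, z)).comp (ContinuousLinearMap.inr ℝ ℝ (ℝ × ℝ)))
        z := (hw.smooth.differentiable two_ne_zero (t, z)).hasFDerivAt.comp z
      ((hasFDerivAt_const t z).prodMk (hasFDerivAt_id z))
    rw [grad2, hf.fderiv]
    simp [e₂, e₃]
  have cs : ∀ {F : ℝ × ℝ × ℝ → ℝ}, Continuous F → ∀ t : ℝ,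
      Continuous fun z : ℝ × ℝ => F (t, z) := fun hF t => hF.comp (by fun_prop)
  have hline : ∀ t, √(1 - q ^ 2) * (area2 fun z => |fderiv ℝ w (t, z) e₁|) + 2 * q * (k * secA w t)
      ≤ area2 (fun z => gnorm w (t, z)) + q * δ + q * K * area2 (fun z => w (t, z) * (1 - w (t, z))) :=
    fun t => by
    have cF : Continuous fun z => √(1 - q ^ 2) * |fderiv ℝ w (t, z) e₁| +
        q * √(fderiv ℝ w (t, z) e₂ ^ 2 + fderiv ℝ w (t, z) e₃ ^ 2) :=
      (continuous_const.mul (cs hd1 t)).add (continuous_const.mul (cs hpp t))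
    have h := area2_mono cF (cs hg t) fun z => hpt (t, z)
    rw [area2_add (F := fun z => √(1 - q ^ 2) * |fderiv ℝ w (t, z) e₁|)
      (G := fun z => q * √(fderiv ℝ w (t, z) e₂ ^ 2 + fderiv ℝ w (t, z) e₃ ^ 2))
      (continuous_const.mul (cs hd1 t)) (continuous_const.mul (cs hpp t)),
      area2_const_mul, area2_const_mul, ← etv] at h
    have h3 : 2 * gfun (secA w t) ≤ tv2 (sec w t) + δ +
        K * area2 (fun z => w (t, z) * (1 - w (t, z))) := h2 _ (dens2_sec hw t)
    have h4 := mul_le_mul_of_nonneg_left h3 hq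
    have h5 := mul_le_mul_of_nonneg_left (hk t) hq
    linarith
  have c1 : Continuous fun t => area2 fun z => |fderiv ℝ w (t, z) e₁| := continuous_sec hd1
  have c2 := continuous_secA hw
  have c3 : Continuous fun t => area2 fun z => gnorm w (t, z) := continuous_sec hg
  have c4 : Continuous fun t => area2 fun z => w (t, z) * (1 - w (t, z)) := continuous_sec hF
  have cL : Continuous fun t => √(1 - q ^ 2) * (area2 fun z => |fderiv ℝ w (t, z) e₁|) +
      2 * q * (k * secA w t) := (continuous_const.mul c1).add (continuous_const.mul (continuous_const.mul c2))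
  have cR : Continuous fun t => area2 (fun z => gnorm w (t, z)) + q * δ +
      q * K * area2 (fun z => w (t, z) * (1 - w (t, z))) :=
    (c3.add continuous_const).add (continuous_const.mul c4)
  have hI := intervalIntegral.integral_mono_on (μ := volume) zero_le_one
    (cL.intervalIntegrable 0 1) (cR.intervalIntegrable 0 1) fun t _ => hline t
  rw [intervalIntegral.integral_add
      (f := fun t => √(1 - q ^ 2) * area2 fun z => |fderiv ℝ w (t, z) e₁|)
      (g := fun t => 2 * q * (k * secA w t)) ((continuous_const.mul c1).intervalIntegrable _ _)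
      ((continuous_const.mul (continuous_const.mul c2)).intervalIntegrable _ _),
    intervalIntegral.integral_add
      (f := fun t => area2 (fun z => gnorm w (t, z)) + q * δ)
      (g := fun t => q * K * area2 fun z => w (t, z) * (1 - w (t, z)))
      ((c3.add continuous_const).intervalIntegrable _ _)
      ((continuous_const.mul c4).intervalIntegrable _ _),
    intervalIntegral.integral_add (f := fun t => area2 fun z => gnorm w (t, z)) (g := fun _ => q * δ)
      (c3.intervalIntegrable _ _) intervalIntegrable_const,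
    intervalIntegral.integral_const_mul, intervalIntegral.integral_const_mul,
    intervalIntegral.integral_const_mul, intervalIntegral.integral_const_mul] at hI
  simp only [intervalIntegral.integral_const, sub_zero, one_smul, ← int3_eq] at hI
  have ev : (∫ t in (0 : ℝ)..1, secA w t) = int3 w := rfl
  rw [ev] at hI
  have e4 : (∫ t in (0 : ℝ)..1, q * K * area2 fun z => w (t, z) * (1 - w (t, z))) =
      q * K * int3 fun p => w p * (1 - w p) := intervalIntegral.integral_const_mul _ _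
  rw [e4] at hI
  linarith

open Axis in
/-- The graph bound along the first axis, in terms of the least and greatest slices. -/
theorem graph_bounds {δ L : ℝ} (hδ : 0 < δ) (hL : 0 ≤ L) : ∃ K : ℝ, 0 ≤ K ∧ ∀ w, Dens w →
    ∀ t₀ t₁ : ℝ, ∃ A W : ℝ, secA w t₁ ≤ A ∧ A ≤ 1 ∧ 0 ≤ W ∧ W ≤ 1 ∧
      (∀ W₀ W₁, W₀ ≤ W → W ≤ W₁ → 1 / 10 ≤ W₁ → ∀ τ, 0 ≤ τ → τ ≤ 1 →
      (∀ y, τ ≤ ∫ t in (0 : ℝ)..1, ∫ z in (0 : ℝ)..1, w (t, y, z)) →
      (∀ z, τ ≤ ∫ t in (0 : ℝ)..1, ∫ y in (0 : ℝ)..1, w (t, y, z)) →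
      LowT L (gW W₀ W₁) (gLow W₀ W₁) (int3 w) τ A
        (int3 (gnorm w) / 2 + secA w t₀ + δ + K * int3 (fun p => w p * (1 - w p)))) ∧
      ((∀ t, secA w t ≤ secA w t₁) → secA w t₁ ≤ 19 / 20 → 3 / 10 ≤ int3 w →
        99999 / 100000 ≤ A →
        1 + 1 / 200 ≤ int3 (gnorm w) / 2 + secA w t₀ + δ + K * int3 (fun p => w p * (1 - w p))) := by
  obtain ⟨h, hh, -, hlev⟩ := graph_level hδ hL
  obtain ⟨K₂, hK₂, h2⟩ := torus2_lower hδ
  refine ⟨1 / h + K₂, by positivity, fun w hw t₀ t₁ => ?_⟩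
  have hw0 := hw.smooth.continuous
  have hF : Continuous fun p => w p * (1 - w p) := hw0.mul (continuous_const.sub hw0)
  have hg : Continuous (gnorm w) :=
    ((((continuous_dir hw e₁).pow 2).add ((continuous_dir hw e₂).pow 2)).add
      ((continuous_dir hw e₃).pow 2)).sqrt
  have hm := dens2_colM hw
  set o : ℝ × ℝ → ℝ := fun p => max (ramp h (colM w p)) (w (t₁, p)) with ho
  have hoc : Continuous o :=
    ((continuous_ramp h).comp hm.smooth.continuous).max (hw0.comp (by fun_prop))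
  have hob : ∀ p, ramp h (colM w p) ≤ o p ∧ o p ≤ 1 := fun p =>
    ⟨le_max_left _ _, max_le (ramp_le_one _ _) (hw.mem _).2⟩
  obtain ⟨W, hW, hlow⟩ := hlev _ hm o hoc hob
  refine ⟨area2 o, W, area2_mono (hw0.comp (by fun_prop)) hoc fun p => le_max_right _ _,
    (area2_mono hoc continuous_const fun p => (hob p).2).trans_eq (area2_const 1), hW.1, hW.2,
    fun W₀ W₁ h0 h1 h2' τ t0 t1' ty tz H C C' β hH hC hC' hCC hl ha => ?_, ?_⟩
  rotate_left
  · intro hmax ha hv hA
    have hd1 : Continuous fun p => |fderiv ℝ w p e₁| := (continuous_dir hw e₁).abs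
    have hE0 : 0 ≤ int3 fun p => w p * (1 - w p) :=
      intervalIntegral.integral_nonneg zero_le_one fun t _ =>
        intervalIntegral.integral_nonneg zero_le_one fun y _ =>
          intervalIntegral.integral_nonneg zero_le_one fun z _ =>
            mul_nonneg (hw.mem _).1 (sub_nonneg.2 (hw.mem _).2)
    -- the columns
    have hS : area2 o ≤ (∫ p in (0 : ℝ)..1, area2 fun z => |fderiv ℝ w (p, z) e₁|) / 2 + secA w t₀
        + (1 / h) * int3 (fun p => w p * (1 - w p)) := by
      have hcol : ∀ p, o p ≤ (∫ t in (0 : ℝ)..1, |fderiv ℝ w (t, p) e₁|) / 2 + w (t₀, p)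
          + 1 / h * ∫ t in (0 : ℝ)..1, w (t, p) * (1 - w (t, p)) := fun p =>
        col_osc hw hh t₀ t₁ p
      have cA : Continuous fun p => ∫ t in (0 : ℝ)..1, |fderiv ℝ w (t, p) e₁| := continuous_col hd1
      have cB : Continuous fun p : ℝ × ℝ => w (t₀, p) := hw0.comp (by fun_prop)
      have cC : Continuous fun p => ∫ t in (0 : ℝ)..1, w (t, p) * (1 - w (t, p)) := continuous_col hF
      have cR : Continuous fun p => (∫ t in (0 : ℝ)..1, |fderiv ℝ w (t, p) e₁|) / 2 + w (t₀, p)
            + 1 / h * ∫ t in (0 : ℝ)..1, w (t, p) * (1 - w (t, p)) :=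
        ((cA.div_const 2).add cB).add (continuous_const.mul cC)
      have hI := area2_mono hoc cR hcol
      rw [area2_add (F := fun p => (∫ t in (0 : ℝ)..1, |fderiv ℝ w (t, p) e₁|) / 2 + w (t₀, p))
          (G := fun p => 1 / h * ∫ t in (0 : ℝ)..1, w (t, p) * (1 - w (t, p)))
          ((cA.div_const 2).add cB) (continuous_const.mul cC),
        area2_add (F := fun p => (∫ t in (0 : ℝ)..1, |fderiv ℝ w (t, p) e₁|) / 2)
          (G := fun p => w (t₀, p)) (cA.div_const 2) cB, area2_const_mul, int3_col hF] at hI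
      have e : area2 (fun p => (∫ t in (0 : ℝ)..1, |fderiv ℝ w (t, p) e₁|) / 2) =
          (∫ p in (0 : ℝ)..1, area2 fun z => |fderiv ℝ w (p, z) e₁|) / 2 := by
        simp only [div_eq_inv_mul]
        rw [area2_const_mul, int3_col hd1]
        rfl
      rw [e] at hI
      exact hI
    have hk : ∀ t, (2 / 5 : ℝ) * secA w t ≤ gfun (secA w t) := fun t => by
      have x0 := (secA_mem hw t).1
      have x1 : secA w t ≤ 19 / 20 := (hmax t).trans ha
      refine le_min (le_min ?_ (by linarith)) ?_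
      · exact Real.le_sqrt_of_sq_le (by nlinarith [Real.pi_gt_three])
      · exact Real.le_sqrt_of_sq_le (by nlinarith [Real.pi_gt_three, mul_self_le_mul_self x0 x1])
    have ht := top_le hw h2 (k := 2 / 5) (q := 3 / 25) (by norm_num) (by norm_num) hk
    have hs : 9927 / 10000 ≤ √(1 - (3 / 25 : ℝ) ^ 2) := Real.le_sqrt_of_sq_le (by norm_num)
    have hs1 : √(1 - (3 / 25 : ℝ) ^ 2) ≤ 1 := Real.sqrt_le_one.2 (by norm_num)
    have hf0 := (secA_mem hw t₀).1
    have hh0 : 0 ≤ 1 / h * int3 (fun p => w p * (1 - w p)) := by positivity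
    have e1 := mul_le_mul_of_nonneg_left (hA.trans hS) (Real.sqrt_nonneg (1 - (3 / 25 : ℝ) ^ 2))
    have e2 := mul_le_mul_of_nonneg_right hs1 (add_nonneg hf0 hh0)
    have e3 := mul_le_mul_of_nonneg_right hs (show (0 : ℝ) ≤ 99999 / 100000 by norm_num)
    have hKE := mul_nonneg hK₂ hE0
    rw [add_mul]
    linarith
  have hb := hlow W₀ W₁ h0 h1 h2' τ t0 t1'
    (fun y => (ty y).trans_eq (integral_swap (G := fun p : ℝ × ℝ => w (p.1, y, p.2))
      (hw0.comp (by fun_prop)) 0 1 zero_le_one))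
    (fun z => (tz z).trans_eq (integral_swap (G := fun p : ℝ × ℝ => w (p.1, p.2, z))
      (hw0.comp (by fun_prop)) 0 1 zero_le_one))
    H C C' β hH hC hC' hCC hl ha
  have ev : area2 (colM w) = int3 w := int3_col hw0
  rw [ev] at hb
  refine hb.trans ?_
  have cA : Continuous fun p => ∫ t in (0 : ℝ)..1, gnorm w (t, p) := continuous_col hg
  have cB : Continuous fun p : ℝ × ℝ => w (t₀, p) := hw0.comp (by fun_prop)
  have cC : Continuous fun p => ∫ t in (0 : ℝ)..1, w (t, p) * (1 - w (t, p)) := continuous_col hF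
  have cT : Continuous fun p => √(o p ^ 2 + (grad2 (colM w) p / 2) ^ 2) :=
    ((hoc.pow 2).add (((continuous_grad2 hm.smooth).div_const 2).pow 2)).sqrt
  have hI := area2_mono cT
    (G := fun p => (∫ t in (0 : ℝ)..1, gnorm w (t, p)) / 2 + (w (t₀, p)
      + (∫ t in (0 : ℝ)..1, w (t, p) * (1 - w (t, p))) / h))
    ((cA.div_const 2).add (cB.add (cC.div_const h))) (col_le hw hh t₀ t₁)
  simp only [div_eq_inv_mul] at hI
  rw [area2_add (F := fun p => 2⁻¹ * ∫ t in (0 : ℝ)..1, gnorm w (t, p))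
      (G := fun p => w (t₀, p) + h⁻¹ * ∫ t in (0 : ℝ)..1, w (t, p) * (1 - w (t, p)))
      (continuous_const.mul cA) (cB.add (continuous_const.mul cC)),
    area2_add (F := fun p => w (t₀, p))
      (G := fun p => h⁻¹ * ∫ t in (0 : ℝ)..1, w (t, p) * (1 - w (t, p)))
      cB (continuous_const.mul cC), area2_const_mul, area2_const_mul, int3_col hg,
    int3_col hF] at hI
  change _ ≤ _ + (secA w t₀ + _) at hI
  have hKE : 0 ≤ K₂ * int3 (fun p => w p * (1 - w p)) := mul_nonneg hK₂
    (intervalIntegral.integral_nonneg zero_le_one fun t _ =>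
      intervalIntegral.integral_nonneg zero_le_one fun y _ =>
        intervalIntegral.integral_nonneg zero_le_one fun z _ =>
          mul_nonneg (hw.mem _).1 (sub_nonneg.2 (hw.mem _).2))
  simp only [one_div, div_eq_inv_mul, add_mul] at hI ⊢
  linarith

end

end Vale.Agent.P232
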