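import Vale.Agent.P232.Core
import Vale.Agent.P232.Approx
import Vale.Agent.P232.Competitors

/-! # P232: the profile of the cubic torus -/

namespace Vale.Agent.P232

noncomputable section

open Real MeasureTheory Filter Topology

lemma continuous_half : Continuous fun v : ℝ => min (ballF v) √(π * v) := by
  unfold ballF
  refine (Continuous.rpow_const (by fun_prop) fun _ => Or.inr (by positivity)).min (by fun_prop)

lemma J_le_two (V : ℝ) : J V ≤ 2 := min_le_right _ _

lemma J_le_half {V : ℝ} (h0 : 0 ≤ V) (h1 : V ≤ 1 / 2) :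
    J V ≤ 2 * min (ballF V) √(π * V) := by
  rw [J, min_eq_left (by linarith : V ≤ 1 - V), two_ballF h0,
    mul_min_of_nonneg _ _ (by norm_num : (0 : ℝ) ≤ 2)]
  exact min_le_left _ _

lemma vol_mem {E : Set (ℝ × ℝ × ℝ)} : 0 ≤ vol E := ENNReal.toReal_nonneg

lemma J_compl (V : ℝ) : J (1 - V) = J V := by
  simp [J, min_comm]

lemma int3_nonneg {F : ℝ × ℝ × ℝ → ℝ} (h : ∀ p, 0 ≤ F p) : 0 ≤ int3 F :=
  intervalIntegral.integral_nonneg zero_le_one fun _ _ =>
    intervalIntegral.integral_nonneg zero_le_one fun _ _ =>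
      intervalIntegral.integral_nonneg zero_le_one fun _ _ => h _

lemma lower_small {E : Set (ℝ × ℝ × ℝ)} (hm : MeasurableSet E) (hE : PerSet E)
    (hP : perim E ≠ ⊤) (hV : vol E ≤ 263 / 1000) : J (vol E) ≤ (perim E).toReal := by
  refine (J_le_half vol_mem (by linarith)).trans ?_
  refine le_of_forall_pos_le_add fun τ hτ => ?_
  obtain ⟨K, hK, h⟩ := dens_tube (δ := τ / 8) (by linarith)
  obtain ⟨ρ, hρ, hc⟩ := (Metric.continuous_iff.1 continuous_half) (vol E) (τ / 8) (by linarith)
  set ε := min (min (ρ / 2) (1 / 1000)) (τ / (8 * (K + 1))) with hε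
  have hε0 : 0 < ε := by positivity
  obtain ⟨w, hw, w1, w2, w3⟩ := exists_dens hm hE hP hε0
  have e1 : ε ≤ ρ / 2 := (min_le_left _ _).trans (min_le_left _ _)
  have e2 : ε ≤ 1 / 1000 := (min_le_left _ _).trans (min_le_right _ _)
  have e3 : (K + 1) * ε ≤ τ / 8 := by
    have := min_le_right (min (ρ / 2) (1 / 1000)) (τ / (8 * (K + 1)))
    rw [← hε, le_div_iff₀ (by positivity)] at this
    linarith
  have hb := h w hw (by linarith [(abs_le.1 w2).2])
  have hd := hc (int3 w) (by rw [Real.dist_eq]; linarith)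
  rw [Real.dist_eq, abs_lt] at hd
  have hKe : K * int3 (fun p => w p * (1 - w p)) ≤ K * ε := mul_le_mul_of_nonneg_left w3 hK
  linarith [hd.1]

lemma lower_slab {E : Set (ℝ × ℝ × ℝ)} (hm : MeasurableSet E) (hE : PerSet E)
    (hP : perim E ≠ ⊤) (hV : 9 / 25 ≤ vol E) (hV' : vol E ≤ 16 / 25) :
    J (vol E) ≤ (perim E).toReal := by
  refine (J_le_two _).trans ?_
  refine le_of_forall_pos_le_add fun τ hτ => ?_
  obtain ⟨K, hK, h⟩ := dens_slab (δ := τ / 8) (by linarith)
  set ε := min (1 / 20000) (τ / (8 * (K + 1))) with hε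
  have hε0 : 0 < ε := by positivity
  obtain ⟨w, hw, w1, w2, w3⟩ := exists_dens hm hE hP hε0
  have e2 : ε ≤ 1 / 20000 := min_le_left _ _
  have e3 : (K + 1) * ε ≤ τ / 8 := by
    have := min_le_right (1 / 20000 : ℝ) (τ / (8 * (K + 1)))
    rw [← hε, le_div_iff₀ (by positivity)] at this
    linarith
  have hb := h w hw (by linarith [(abs_le.1 w2).1]) (by linarith [(abs_le.1 w2).2])
  have hKe : K * int3 (fun p => w p * (1 - w p)) ≤ K * ε := mul_le_mul_of_nonneg_left w3 hK
  linarith

/-- The lower bound outside the middle window. -/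
theorem J_le_perim {E : Set (ℝ × ℝ × ℝ)} (hm : MeasurableSet E) (hE : PerSet E)
    (hV : min (vol E) (1 - vol E) ≤ 263 / 1000 ∨ 9 / 25 ≤ min (vol E) (1 - vol E)) :
    ENNReal.ofReal (J (vol E)) ≤ perim E := by
  by_cases hP : perim E = ⊤
  · simp [hP]
  refine (ENNReal.ofReal_le_iff_le_toReal hP).2 ?_
  rcases hV with hV | hV
  · rcases le_total (vol E) (1 - vol E) with c | c
    · rw [min_eq_left c] at hV
      exact lower_small hm hE hP hV
    · rw [min_eq_right c] at hV
      have e := vol_compl hm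
      have := lower_small hm.compl (perSet_compl hE) (by rwa [perim_compl hm]) (by rwa [e])
      rwa [perim_compl hm, e, J_compl] at this
  · have h := le_min_iff.1 hV
    exact lower_slab hm hE hP h.1 (by linarith [h.2])

/-- The profile equals `J` outside the middle window. -/
theorem profile_eq {V : ℝ} (h0 : 0 ≤ V) (h1 : V ≤ 1)
    (hV : min V (1 - V) ≤ 263 / 1000 ∨ 9 / 25 ≤ min V (1 - V)) :
    profile V = ENNReal.ofReal (J V) := by
  refine le_antisymm (profile_le h0 h1) ?_
  refine le_iInf fun E => le_iInf fun ⟨hm, hE, he⟩ => ?_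
  subst he
  exact J_le_perim hm hE hV

end

end Vale.Agent.P232
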