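import Vale.Agent.P232.Couple
import Vale.Agent.P232.GraphSlice
import Vale.Agent.P232.Profile

/-!
# P232: the data of the three axes and the core statement for the middle window

`Data` collects what is known about a density from its least and greatest slice areas along the
three axes. `WindowCore` says that these numbers force the bound of a tube or a slab, except in a
set `Exc` of such numbers.
-/

namespace Vale.Agent.P232

noncomputable section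

open Set Real MeasureTheory

/-- `f` and `a` are the least and the greatest slice area along the first axis. -/
def IsExt (u : ℝ × ℝ × ℝ → ℝ) (f a : ℝ) : Prop :=
  (∃ t₀, Axis.secA u t₀ = f ∧ ∀ t, f ≤ Axis.secA u t) ∧ ∃ t₁, Axis.secA u t₁ = a ∧ ∀ t, Axis.secA u t ≤ a

/-- `f` and `a` are the least and the greatest slice areas along the three axes. -/
def IsExts (w : ℝ × ℝ × ℝ → ℝ) (f a : Fin 3 → ℝ) : Prop :=
  IsExt w (f 0) (a 0) ∧ IsExt (fun p => w (Axis.swap₂ p)) (f 1) (a 1) ∧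
    IsExt (fun p => w (Axis.cyc₃ p)) (f 2) (a 2)

/-- What is known about one axis, where `P` is half the perimeter up to an error. -/
structure AxData (L v P : ℝ) (f a S : Fin 3 → ℝ) (i : Fin 3) : Prop where
  f_nonneg : 0 ≤ f i
  f_le : f i ≤ v
  le_a : v ≤ a i
  a_le : a i ≤ 1
  base : Low gfun v (f i) (a i) P
  round : Low (fun x => √(π * x)) v (f i) (a i) (P + (f (i + 1) + f (i + 2)))
  band : ∀ k l : ℝ, k ∈ Icc (0 : ℝ) 1 → l ∈ Icc (0 : ℝ) 1 →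
    Low (kfun k l) v (f i) (a i) (P + (k * f (i + 1) + l * f (i + 2)))
  coup : ∀ k l : ℝ, k ∈ Icc (0 : ℝ) 1 → l ∈ Icc (0 : ℝ) 1 →
    ∀ lam q ρ : ℝ, 0 < q → 0 ≤ ρ → 1 ≤ lam →
      (∀ s ∈ Icc (0 : ℝ) 1, q ^ 2 * ((1 - s) + ρ ^ 2 * s) ≤ (lam - s) ^ 2) →
      LowR (kfun k l) ρ v (f i) (a i) ((lam * P - S i) / q + (k * f (i + 1) + l * f (i + 2)))
  env : ∀ k l : ℝ, k ∈ Icc (0 : ℝ) 1 → l ∈ Icc (0 : ℝ) 1 → ∀ lam : ℝ, 1 ≤ lam →
    LowE (kfun k l) lam v (f i) (a i) (lam * P - S i) (k * f (i + 1) + l * f (i + 2))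
  graph : ∃ A W : ℝ, a i ≤ A ∧ A ≤ 1 ∧ 0 ≤ W ∧ W ≤ 1 ∧
    (∀ W₀ W₁, W₀ ≤ W → W ≤ W₁ → 1 / 10 ≤ W₁ → ∀ τ, 0 ≤ τ → τ ≤ f (i + 1) → τ ≤ f (i + 2) →
      LowT L (gW W₀ W₁) (gLow W₀ W₁) v τ A (P + f i)) ∧
    (a i ≤ 19 / 20 → 3 / 10 ≤ v → 99999 / 100000 ≤ A → 1 + 1 / 200 ≤ P + f i)

/-- What is known about the three axes together; `η` is the error in the sum of the shares `S`. -/
structure Data (L v P η : ℝ) (f a S : Fin 3 → ℝ) : Prop where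
  S_nonneg : ∀ i, 0 ≤ S i
  sum : P - η ≤ ∑ i, S i
  ax : ∀ i, AxData L v P f a S i

lemma exists_exts {w : ℝ × ℝ × ℝ → ℝ} (hw : Dens w) : ∃ f a : Fin 3 → ℝ, IsExts w f a := by
  have h : ∀ u, Dens u → ∃ f a, IsExt u f a := fun u hu => by
    obtain ⟨t₀, h0⟩ := Axis.exists_min hu
    obtain ⟨t₁, h1⟩ := Axis.exists_max hu
    exact ⟨_, _, ⟨t₀, rfl, h0⟩, t₁, rfl, h1⟩
  obtain ⟨f₀, a₀, e₀⟩ := h w hw
  obtain ⟨f₁, a₁, e₁'⟩ := h _ (Axis.dens_comp hw Axis.swap₂ fun e he => by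
    rcases he with rfl | rfl | rfl <;> simp [Axis.swap₂_apply, e₁, e₂, e₃])
  obtain ⟨f₂, a₂, e₂'⟩ := h _ (Axis.dens_comp hw Axis.cyc₃ fun e he => by
    rcases he with rfl | rfl | rfl <;> simp [Axis.cyc₃_apply, e₁, e₂, e₃])
  exact ⟨![f₀, f₁, f₂], ![a₀, a₁, a₂], e₀, e₁', e₂'⟩

lemma Low.mono {h : ℝ → ℝ} {v f a P Q : ℝ} (hP : Low h v f a P) (hPQ : P ≤ Q) : Low h v f a Q :=
  fun H C β hc hb => (hP H C β hc hb).trans hPQ

lemma LowR.mono {h : ℝ → ℝ} {ρ v f a P Q : ℝ} (hP : LowR h ρ v f a P) (hPQ : P ≤ Q) :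
    LowR h ρ v f a Q := fun H C β hc hb => (hP H C β hc hb).trans hPQ

lemma LowE.mono {h : ℝ → ℝ} {lam v f a P Q X : ℝ} (hP : LowE h lam v f a P X) (hPQ : P ≤ Q) :
    LowE h lam v f a Q X :=
  fun H C M α β hc hb => (hP H C M α β hc hb).trans (add_le_add hPQ le_rfl)

lemma LowT.mono {L : ℝ} {g g' : ℝ → ℝ} {v t a P Q : ℝ} (hP : LowT L g g' v t a P) (hPQ : P ≤ Q) :
    LowT L g g' v t a Q :=
  fun H C C' β h1 h2 h3 h4 h5 h6 => (hP H C C' β h1 h2 h3 h4 h5 h6).trans hPQ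

open Axis in
/-- The data of the three axes of a density. -/
theorem axisG_bounds {δ L : ℝ} (hδ : 0 < δ) (hL : 0 ≤ L) : ∃ K : ℝ, 0 ≤ K ∧ ∀ w, Dens w →
    ∀ f a, IsExts w f a → ∃ S : Fin 3 → ℝ,
      Data L (int3 w) (int3 (gnorm w) / 2 + δ + K * int3 (fun p => w p * (1 - w p)))
        (2 * δ + K * int3 (fun p => w p * (1 - w p))) f a S := by
  obtain ⟨K, hK, hC⟩ := axisC_at hδ
  obtain ⟨K', hK', hG⟩ := graph_bounds (L := L) hδ hL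
  refine ⟨K + K', by positivity, fun w hw f a hfa => ?_⟩
  obtain ⟨⟨⟨a₁, ea₁, hm₁⟩, b₁, eb₁, hM₁⟩, ⟨⟨a₂, ea₂, hm₂⟩, b₂, eb₂, hM₂⟩,
    ⟨a₃, ea₃, hm₃⟩, b₃, eb₃, hM₃⟩ := hfa
  rw [← ea₁] at hm₁; rw [← eb₁] at hM₁; rw [← ea₂] at hm₂; rw [← eb₂] at hM₂
  rw [← ea₃] at hm₃; rw [← eb₃] at hM₃
  obtain ⟨S, hS, hsum, hax⟩ := hC w hw a₁ b₁ a₂ b₂ a₃ b₃ hm₁ hM₁ hm₂ hM₂ hm₃ hM₃ f a
    (by funext i; fin_cases i <;> simp [ea₁, ea₂, ea₃])
    (by funext i; fin_cases i <;> simp [eb₁, eb₂, eb₃])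
  set u := fun p => w (swap₂ p) with hu
  set v := fun p => w (cyc₃ p) with hv
  have hud : Dens u := dens_comp hw _ fun e he => by
    rcases he with rfl | rfl | rfl <;> simp [swap₂_apply, e₁, e₂, e₃]
  have hvd : Dens v := dens_comp hw _ fun e he => by
    rcases he with rfl | rfl | rfl <;> simp [cyc₃_apply, e₁, e₂, e₃]
  have hw0 := hw.smooth.continuous
  have hF : Continuous fun p => w p * (1 - w p) := hw0.mul (continuous_const.sub hw0)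
  have hg : Continuous (gnorm w) := continuous_gnorm hw
  have gu : gnorm u = fun p => gnorm w (swap₂ p) := funext fun p => by
    rw [gnorm_comp hw, gnorm]
    simp only [swap₂_apply, e₁, e₂, e₃]
    ring_nf
  have gv : gnorm v = fun p => gnorm w (cyc₃ p) := funext fun p => by
    rw [gnorm_comp hw, gnorm]
    simp only [cyc₃_apply, e₁, e₂, e₃]
    ring_nf
  set E := int3 (fun p => w p * (1 - w p)) with hE
  set Φ := int3 (gnorm w) / 2 with hΦ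
  have hE0 : 0 ≤ E := int3_nonneg fun p => mul_nonneg (hw.mem p).1 (sub_nonneg.2 (hw.mem p).2)
  have hP : Φ + δ + K * E ≤ Φ + δ + (K + K') * E := by nlinarith [mul_nonneg hK' hE0]
  have hsum' : Φ + δ + (K + K') * E - (2 * δ + (K + K') * E) ≤ ∑ i, S i := by linarith
  -- the graph bounds of the three axes
  have G₁ : ∃ A W : ℝ, a 0 ≤ A ∧ A ≤ 1 ∧ 0 ≤ W ∧ W ≤ 1 ∧
      (∀ W₀ W₁, W₀ ≤ W → W ≤ W₁ → 1 / 10 ≤ W₁ → ∀ τ, 0 ≤ τ → τ ≤ f 1 → τ ≤ f 2 →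
        LowT L (gW W₀ W₁) (gLow W₀ W₁) (int3 w) τ A (Φ + δ + (K + K') * E + f 0)) ∧
      (a 0 ≤ 19 / 20 → 3 / 10 ≤ int3 w → 99999 / 100000 ≤ A →
        1 + 1 / 200 ≤ Φ + δ + (K + K') * E + f 0) := by
    obtain ⟨A, W, h0, h1, h2, h3, h, htop⟩ := hG w hw a₁ b₁
    refine ⟨A, W, eb₁ ▸ h0, h1, h2, h3, fun W₀ W₁ q0 q1 q2 τ t0 ty tz => ?_, fun ha hv hA => ?_⟩
    rotate_left
    · have := htop hM₁ (eb₁ ▸ ha) hv hA
      rw [← ea₁]; nlinarith [mul_nonneg hK hE0]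
    refine (h W₀ W₁ q0 q1 q2 τ t0 (ty.trans (ea₂ ▸ (secA_mem hud a₂).2))
      (fun y => (ea₂ ▸ ty).trans (hm₂ y)) (fun z => (ea₃ ▸ tz).trans (hm₃ z))).mono ?_
    rw [← ea₁]; nlinarith [mul_nonneg hK hE0]
  have G₂ : ∃ A W : ℝ, a 1 ≤ A ∧ A ≤ 1 ∧ 0 ≤ W ∧ W ≤ 1 ∧
      (∀ W₀ W₁, W₀ ≤ W → W ≤ W₁ → 1 / 10 ≤ W₁ → ∀ τ, 0 ≤ τ → τ ≤ f 2 → τ ≤ f 0 →
        LowT L (gW W₀ W₁) (gLow W₀ W₁) (int3 w) τ A (Φ + δ + (K + K') * E + f 1)) ∧
      (a 1 ≤ 19 / 20 → 3 / 10 ≤ int3 w → 99999 / 100000 ≤ A →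
        1 + 1 / 200 ≤ Φ + δ + (K + K') * E + f 1) := by
    obtain ⟨A, W, h0, h1, h2, h3, h, htop⟩ := hG u hud a₂ b₂
    refine ⟨A, W, eb₂ ▸ h0, h1, h2, h3, fun W₀ W₁ q0 q1 q2 τ t0 tz tx => ?_, fun ha hv hA => ?_⟩
    rotate_left
    · have hb := htop hM₂ (eb₂ ▸ ha) (hv.trans_eq (int3_swap₂ hw0).symm) hA
      rw [gu, int3_swap₂ hg, show int3 (fun p => u p * (1 - u p)) = E from int3_swap₂ hF] at hb
      rw [← ea₂]; nlinarith [mul_nonneg hK hE0]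
    have e : int3 u = int3 w := int3_swap₂ hw0
    have hb := h W₀ W₁ q0 q1 q2 τ t0 (tx.trans (ea₁ ▸ (secA_mem hw a₁).2))
      (fun y => (ea₁ ▸ tx).trans (hm₁ y)) (fun z => ((ea₃ ▸ tz).trans (hm₃ z)).trans_eq
        (integral_swap (G := fun p : ℝ × ℝ => w (p.2, p.1, z))
          (hw0.comp (continuous_snd.prodMk (continuous_fst.prodMk continuous_const))) 0 1
          zero_le_one).symm)
    rw [e, gu, int3_swap₂ hg,
      show int3 (fun p => u p * (1 - u p)) = E from int3_swap₂ hF] at hb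
    refine hb.mono ?_
    rw [← ea₂]; nlinarith [mul_nonneg hK hE0]
  have G₃ : ∃ A W : ℝ, a 2 ≤ A ∧ A ≤ 1 ∧ 0 ≤ W ∧ W ≤ 1 ∧
      (∀ W₀ W₁, W₀ ≤ W → W ≤ W₁ → 1 / 10 ≤ W₁ → ∀ τ, 0 ≤ τ → τ ≤ f 0 → τ ≤ f 1 →
        LowT L (gW W₀ W₁) (gLow W₀ W₁) (int3 w) τ A (Φ + δ + (K + K') * E + f 2)) ∧
      (a 2 ≤ 19 / 20 → 3 / 10 ≤ int3 w → 99999 / 100000 ≤ A →
        1 + 1 / 200 ≤ Φ + δ + (K + K') * E + f 2) := by
    obtain ⟨A, W, h0, h1, h2, h3, h, htop⟩ := hG v hvd a₃ b₃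
    refine ⟨A, W, eb₃ ▸ h0, h1, h2, h3, fun W₀ W₁ q0 q1 q2 τ t0 tx ty => ?_, fun ha hv hA => ?_⟩
    rotate_left
    · have hb := htop hM₃ (eb₃ ▸ ha) (hv.trans_eq (int3_cyc₃ hw0).symm) hA
      rw [gv, int3_cyc₃ hg, show int3 (fun p => v p * (1 - v p)) = E from int3_cyc₃ hF] at hb
      rw [← ea₃]; nlinarith [mul_nonneg hK hE0]
    have e : int3 v = int3 w := int3_cyc₃ hw0
    have hb := h W₀ W₁ q0 q1 q2 τ t0 (tx.trans (ea₁ ▸ (secA_mem hw a₁).2))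
      (fun y => ((ea₁ ▸ tx).trans (hm₁ y)).trans_eq
        (integral_swap (G := fun p : ℝ × ℝ => w (y, p.2, p.1))
          (hw0.comp (continuous_const.prodMk (continuous_snd.prodMk continuous_fst))) 0 1
          zero_le_one).symm)
      (fun z => ((ea₂ ▸ ty).trans (hm₂ z)).trans_eq
        (integral_swap (G := fun p : ℝ × ℝ => w (p.2, z, p.1))
          (hw0.comp (continuous_snd.prodMk (continuous_const.prodMk continuous_fst))) 0 1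
          zero_le_one).symm)
    rw [e, gv, int3_cyc₃ hg,
      show int3 (fun p => v p * (1 - v p)) = E from int3_cyc₃ hF] at hb
    refine hb.mono ?_
    rw [← ea₃]; nlinarith [mul_nonneg hK hE0]
  refine ⟨S, hS, hsum', fun i => ?_⟩
  obtain ⟨p₁, p₂, p₃, p₄, p₅, p₆, r⟩ := hax i
  refine ⟨p₁, p₂, p₃, p₄, p₅.mono hP, p₆.mono (by linarith),
    fun k l hk hl => (r k l hk hl).1.mono (by linarith),
    fun k l hk hl lam q ρ hq hρ hlam hs => ((r k l hk hl).2.1 lam q ρ hq hρ hlam hs).mono ?_,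
    fun k l hk hl lam hlam => ((r k l hk hl).2.2 lam hlam).mono ?_, ?_⟩
  · have := mul_le_mul_of_nonneg_left hP (zero_le_one.trans hlam)
    have := div_le_div_of_nonneg_right (sub_le_sub_right this (S i)) hq.le
    linarith
  · linarith [mul_le_mul_of_nonneg_left hP (zero_le_one.trans hlam)]
  · fin_cases i
    · exact G₁
    · exact G₂
    · exact G₃

/-- Half the conjectured profile. -/
def goalF (v : ℝ) : ℝ := min (min (ballF v) √(π * v)) 1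

/-- The core statement on an interval of volumes, with exceptional data `Exc`. -/
def WindowCore (L lo hi : ℝ) (Exc : ℝ → (Fin 3 → ℝ) → (Fin 3 → ℝ) → Prop) : Prop :=
  ∀ (v P η : ℝ) (f a S : Fin 3 → ℝ), v ∈ Icc lo hi → 0 ≤ η → Data L v P η f a S →
    goalF v ≤ P + η ∨ Exc v f a

/-- The bound for densities on an interval of volumes. -/
def DensWindow (lo hi : ℝ) : Prop :=
  ∀ δ : ℝ, 0 < δ → ∃ K : ℝ, 0 ≤ K ∧ ∀ w, Dens w → int3 w ∈ Icc lo hi →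
    goalF (int3 w) ≤ int3 (gnorm w) / 2 + δ + K * int3 (fun p => w p * (1 - w p))

/-- The bound for densities with exceptional data. -/
def ExcBound (Exc : ℝ → (Fin 3 → ℝ) → (Fin 3 → ℝ) → Prop) : Prop :=
  ∀ δ : ℝ, 0 < δ → ∃ K : ℝ, 0 ≤ K ∧ ∀ w, Dens w → ∀ f a, IsExts w f a → Exc (int3 w) f a →
    goalF (int3 w) ≤ int3 (gnorm w) / 2 + δ + K * int3 (fun p => w p * (1 - w p))

theorem densWindow_of_core {L lo hi : ℝ} {Exc : ℝ → (Fin 3 → ℝ) → (Fin 3 → ℝ) → Prop}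
    (hL : 0 ≤ L) (hc : WindowCore L lo hi Exc) (he : ExcBound Exc) : DensWindow lo hi := by
  intro δ hδ
  obtain ⟨K, hK, h⟩ := axisG_bounds (δ := δ / 3) (by linarith) hL
  obtain ⟨K', hK', h'⟩ := he δ hδ
  refine ⟨2 * K + K', by positivity, fun w hw hv => ?_⟩
  have hE : 0 ≤ int3 fun p => w p * (1 - w p) :=
    int3_nonneg fun p => mul_nonneg (hw.mem p).1 (sub_nonneg.2 (hw.mem p).2)
  obtain ⟨f, a, hfa⟩ := exists_exts hw
  obtain ⟨S, hD⟩ := h w hw f a hfa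
  rcases hc _ _ _ f a S hv (by nlinarith) hD with hb | hb
  · nlinarith [mul_nonneg hK' hE]
  · nlinarith [h' w hw f a hfa hb, mul_nonneg hK hE]

end

end Vale.Agent.P232
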