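import Vale.Agent.P232.GraphCertSound
import Vale.Agent.P232.GraphData.Row000
import Vale.Agent.P232.GraphData.Row050
import Vale.Agent.P232.GraphData.Row060
import Vale.Agent.P232.GraphData.Row071
import Vale.Agent.P232.GraphData.Row081
import Vale.Agent.P232.GraphData.Row091
import Vale.Agent.P232.GraphData.Row099
import Vale.Agent.P232.GraphData.Row106
import Vale.Agent.P232.GraphData.Row111
import Vale.Agent.P232.GraphData.Row115
import Vale.Agent.P232.GraphData.Row118
import Vale.Agent.P232.GraphData.Row125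

/-! # P232: the graph certificate -/

namespace Vale.Agent.P232

noncomputable section

open Real GraphData

/-- The graph bound pays for the window on ranges of shadow area and share of low levels: each pair
of scaled numbers is a least area and a least share. -/
theorem graph_rows : ∀ v τ A W P : ℝ, 0 ≤ v → 0 ≤ τ → 0 ≤ W → W ≤ 1 → A ≤ 99999 / 100000 →
    (∃ r ∈ ([(7080000, 0), (7000000, 500000), (6950000, 600000), (6900000, 710000),
      (6850000, 810000), (6800000, 910000), (6750000, 990000), (6700000, 1060000),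
      (6650000, 1110000), (6600000, 1150000), (6550000, 1180000), (4700000, 1250000)] : List (ℤ × ℤ)),
      sc r.1 ≤ A ∧ sc r.2 ≤ τ) →
    (∀ W₀ W₁, W₀ ≤ W → W ≤ W₁ → 1 / 10 ≤ W₁ →
      LowT 100 (gW W₀ W₁) (gLow W₀ W₁) v τ A P) →
    min 1 √(π * v) + 5 / 10000 ≤ P := by
  intro v τ A W P hv hτ hW hW' hA h hP
  have w0 : sc 0 ≤ W := by simpa [sc] using hW
  have w1 : W ≤ sc 10000000 := by rw [sc]; norm_num; linarith
  have s0 : sc 7080000 ≤ A → sc 0 ≤ τ → min 1 √(π * v) + 5 / 10000 ≤ P := fun a t =>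
    gtree_sound hv t hP row000 _ _ _ _ row000_ok a (by rw [sc]; norm_num; linarith) w0 w1
  have s1 : sc 7000000 ≤ A → sc 500000 ≤ τ → min 1 √(π * v) + 5 / 10000 ≤ P := fun a t =>
    (le_total (sc 7080000) A).elim (fun c => s0 c ((sc_le (by norm_num)).trans t))
      fun c => gtree_sound hv t hP row050 _ _ _ _ row050_ok a c w0 w1
  have s2 : sc 6950000 ≤ A → sc 600000 ≤ τ → min 1 √(π * v) + 5 / 10000 ≤ P := fun a t =>
    (le_total (sc 7000000) A).elim (fun c => s1 c ((sc_le (by norm_num)).trans t))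
      fun c => gtree_sound hv t hP row060 _ _ _ _ row060_ok a c w0 w1
  have s3 : sc 6900000 ≤ A → sc 710000 ≤ τ → min 1 √(π * v) + 5 / 10000 ≤ P := fun a t =>
    (le_total (sc 6950000) A).elim (fun c => s2 c ((sc_le (by norm_num)).trans t))
      fun c => gtree_sound hv t hP row071 _ _ _ _ row071_ok a c w0 w1
  have s4 : sc 6850000 ≤ A → sc 810000 ≤ τ → min 1 √(π * v) + 5 / 10000 ≤ P := fun a t =>
    (le_total (sc 6900000) A).elim (fun c => s3 c ((sc_le (by norm_num)).trans t))
      fun c => gtree_sound hv t hP row081 _ _ _ _ row081_ok a c w0 w1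
  have s5 : sc 6800000 ≤ A → sc 910000 ≤ τ → min 1 √(π * v) + 5 / 10000 ≤ P := fun a t =>
    (le_total (sc 6850000) A).elim (fun c => s4 c ((sc_le (by norm_num)).trans t))
      fun c => gtree_sound hv t hP row091 _ _ _ _ row091_ok a c w0 w1
  have s6 : sc 6750000 ≤ A → sc 990000 ≤ τ → min 1 √(π * v) + 5 / 10000 ≤ P := fun a t =>
    (le_total (sc 6800000) A).elim (fun c => s5 c ((sc_le (by norm_num)).trans t))
      fun c => gtree_sound hv t hP row099 _ _ _ _ row099_ok a c w0 w1
  have s7 : sc 6700000 ≤ A → sc 1060000 ≤ τ → min 1 √(π * v) + 5 / 10000 ≤ P := fun a t =>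
    (le_total (sc 6750000) A).elim (fun c => s6 c ((sc_le (by norm_num)).trans t))
      fun c => gtree_sound hv t hP row106 _ _ _ _ row106_ok a c w0 w1
  have s8 : sc 6650000 ≤ A → sc 1110000 ≤ τ → min 1 √(π * v) + 5 / 10000 ≤ P := fun a t =>
    (le_total (sc 6700000) A).elim (fun c => s7 c ((sc_le (by norm_num)).trans t))
      fun c => gtree_sound hv t hP row111 _ _ _ _ row111_ok a c w0 w1
  have s9 : sc 6600000 ≤ A → sc 1150000 ≤ τ → min 1 √(π * v) + 5 / 10000 ≤ P := fun a t =>
    (le_total (sc 6650000) A).elim (fun c => s8 c ((sc_le (by norm_num)).trans t))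
      fun c => gtree_sound hv t hP row115 _ _ _ _ row115_ok a c w0 w1
  have s10 : sc 6550000 ≤ A → sc 1180000 ≤ τ → min 1 √(π * v) + 5 / 10000 ≤ P := fun a t =>
    (le_total (sc 6600000) A).elim (fun c => s9 c ((sc_le (by norm_num)).trans t))
      fun c => gtree_sound hv t hP row118 _ _ _ _ row118_ok a c w0 w1
  have s11 : sc 4700000 ≤ A → sc 1250000 ≤ τ → min 1 √(π * v) + 5 / 10000 ≤ P := fun a t =>
    (le_total (sc 6550000) A).elim (fun c => s10 c ((sc_le (by norm_num)).trans t))
      fun c => gtree_sound hv t hP row125 _ _ _ _ row125_ok a c w0 w1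
  obtain ⟨r, hr, ha, ht⟩ := h
  simp only [List.mem_cons, List.not_mem_nil, or_false] at hr
  rcases hr with rfl | rfl | rfl | rfl | rfl | rfl | rfl | rfl | rfl | rfl | rfl | rfl
  exacts [s0 ha ht, s1 ha ht, s2 ha ht, s3 ha ht, s4 ha ht, s5 ha ht, s6 ha ht, s7 ha ht, s8 ha ht, s9 ha ht, s10 ha ht, s11 ha ht]

end

end Vale.Agent.P232
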