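import Vale.Agent.P232.Cert

/-!
# P232: rational certificates for the graph profile

Trees over the area `A` of the shadow and the width `W`; numbers are integers scaled by `10^7`.
-/

namespace Vale.Agent.P232

/-- A decision tree over rectangles in `(A, W)`. A leaf holds the slope, the constant of the lowest
levels, and the nodes up to and beyond the least area. -/
inductive GTree : Type
  | leaf (H C : ℤ) (ns tl : List (ℤ × ℤ)) : GTree
  | cutA (m : ℤ) (l r : GTree) : GTree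
  | cutW (m : ℤ) (l r : GTree) : GTree

/-- The scaled room left by the value `y`. -/
def room (y : ℤ) : ℤ := scale ^ 2 - y ^ 2

/-- The numerator of the straight stadium bound for a hole of area `h`. -/
def stadNum (w h : ℤ) : ℤ := 4 * h * scale ^ 2 + 31415926 * w ^ 2

/-- Four times the scaled tangent at `m / 2` to the square, at the value `z`. -/
def tang (m z : ℤ) : ℤ := 4 * m * z - m ^ 2

/-- The seam excess at the left end. -/
def seam (w₀ x : ℤ) : ℤ := min (max (x - (scale - w₀)) 0) 2500000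

/-- A line with values `l₀, l₁` is below the band length on a segment. -/
def bandOk (w₀ x₀ y₀ l₀ y₁ l₁ : ℤ) : Bool :=
  decide (l₀ ^ 2 * (25 * scale ^ 2) ≤ room y₀ * (5 * scale ^ 2 + 6 * seam w₀ x₀ ^ 2) ^ 2 ∧
    l₁ ^ 2 * (25 * scale ^ 2) ≤ room y₁ * (5 * scale ^ 2 + 6 * seam w₀ x₀ ^ 2) ^ 2)

/-- A line is below the stadium length on a segment. -/
def stadOk (w x₀ y₀ l₀ x₁ y₁ l₁ : ℤ) : Bool :=
  let m := stadNum w (scale - x₀) + stadNum w (scale - x₁)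
  decide (0 ≤ tang m (stadNum w (scale - x₀)) ∧ 0 ≤ tang m (stadNum w (scale - x₁)) ∧
      31415927 * w ^ 2 ≤ 4 * (scale - x₁) * scale ^ 2 ∧
      l₀ ^ 2 * (64 * w ^ 2 * scale ^ 2) ≤ room y₀ * tang m (stadNum w (scale - x₀)) ∧
      l₁ ^ 2 * (64 * w ^ 2 * scale ^ 2) ≤ room y₁ * tang m (stadNum w (scale - x₁))) ||
    decide (l₀ ^ 2 ≤ room y₀ * (31415926 * (scale - x₀)) ∧
      l₁ ^ 2 ≤ room y₁ * (31415926 * (scale - x₁)))

/-- A line is below the length of a wavy band on a segment. -/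
def wavyOk (x₀ y₀ l₀ x₁ y₁ l₁ : ℤ) : Bool :=
  let m := (scale - x₀) + (scale - x₁)
  decide (0 ≤ 4 * scale ^ 2 + tang m (scale - x₀) ∧ 0 ≤ 4 * scale ^ 2 + tang m (scale - x₁) ∧
    4 * l₀ ^ 2 ≤ room y₀ * (4 * scale ^ 2 + tang m (scale - x₀)) ∧
    4 * l₁ ^ 2 ≤ room y₁ * (4 * scale ^ 2 + tang m (scale - x₁)))

/-- The two lines are admissible on a segment. -/
def segOk (w₀ w₁ H C : ℤ) (p q : ℤ × ℤ) : Bool :=
  decide (0 ≤ p.1 ∧ p.1 < q.1 ∧ q.1 ≤ scale ∧ 0 ≤ p.2 ∧ p.2 ≤ scale ∧ 0 ≤ q.2 ∧ q.2 ≤ scale ∧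
      q.2 - p.2 ≤ 100 * (q.1 - p.1) ∧ p.2 - q.2 ≤ 100 * (q.1 - p.1) ∧
      (H * p.1) ^ 2 ≤ room p.2 * (31415926 * p.1) ∧ (H * q.1) ^ 2 ≤ room q.2 * (31415926 * q.1)) &&
    bandOk w₀ p.1 p.2 (H * p.1) q.2 (H * q.1) &&
    stadOk w₁ p.1 p.2 (H * p.1) q.1 q.2 (H * q.1) &&
    (decide (C = 0) ||
      (stadOk w₁ p.1 p.2 (H * p.1 + C * scale) q.1 q.2 (H * q.1 + C * scale) &&
        (bandOk w₀ p.1 p.2 (H * p.1 + C * scale) q.2 (H * q.1 + C * scale) ||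
          wavyOk p.1 p.2 (H * p.1 + C * scale) q.1 q.2 (H * q.1 + C * scale))))

/-- All segments are admissible. -/
def gChain (w₀ w₁ H C : ℤ) : List (ℤ × ℤ) → Bool
  | [] => true
  | [_] => true
  | p :: q :: r => segOk w₀ w₁ H C p q && gChain w₀ w₁ H C (q :: r)

/-- The nodes run from `0` through `a₀` to `a₁`. -/
def gSpan (a₀ a₁ : ℤ) : List (ℤ × ℤ) → List (ℤ × ℤ) → Bool
  | p :: r, tl => decide (p.1 = 0 ∧ lastX p r = a₀ ∧ lastX p (r ++ tl) = a₁)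
  | [], _ => false

/-- The whole check, for a share `t₀` of lowest levels and the margin `5/10^4`. -/
def GTree.check (t₀ : ℤ) : GTree → ℤ → ℤ → ℤ → ℤ → Bool
  | .leaf H C ns tl, a₀, a₁, w₀, w₁ =>
      decide (0 ≤ H ∧ H ≤ 100 * scale ∧ 0 ≤ C ∧ C ≤ 100 * scale ∧ 0 ≤ t₀ ∧ 0 < a₀ ∧ a₀ < a₁ ∧
          0 ≤ w₀ ∧ w₀ ≤ scale ∧
          ((2 * H ≤ 31415926 ∧
              2 * scale * (scale + 5000) ≤ 2 * H * 3183098 + 2 * t₀ * C + trap2 ns) ∨
            (0 < H ∧ 2 * scale ^ 2 * 31415927 ≤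
              4 * H * (2 * t₀ * C + trap2 ns - 10000 * scale)))) &&
        gSpan a₀ a₁ ns tl && gChain w₀ (max w₁ 1000000) H C (ns ++ tl)
  | .cutA m l r, a₀, a₁, w₀, w₁ => l.check t₀ a₀ m w₀ w₁ && r.check t₀ m a₁ w₀ w₁
  | .cutW m l r, a₀, a₁, w₀, w₁ => l.check t₀ a₀ a₁ w₀ m && r.check t₀ a₀ a₁ m w₁

end Vale.Agent.P232
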