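import Vale.Agent.P232.GraphCert
import Vale.Agent.P232.GraphLevel
import Vale.Agent.P232.CertSound

/-! # P232: soundness of the certificates for the graph profile -/

namespace Vale.Agent.P232

noncomputable section

open Real MeasureTheory

lemma pi_lo7 : (31415926 : ℝ) / 10000000 ≤ π := by linarith [Real.pi_gt_d20]

lemma pi_hi7 : π ≤ (31415927 : ℝ) / 10000000 := by linarith [Real.pi_lt_d20]

lemma stad_ge_planar {W h : ℝ} (hW : 0 < W) (hh : 0 ≤ h) : √(π * h) ≤ stad W h := by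
  unfold stad
  split_ifs with c
  · rw [Real.sqrt_le_iff]
    refine ⟨by positivity, ?_⟩
    have e : (h / W + π * W / 4) ^ 2 = π * h + (h / W - π * W / 4) ^ 2 := by field_simp; ring
    nlinarith [sq_nonneg (h / W - π * W / 4)]
  · exact le_rfl

/-- Bounds linear on a segment pass to the interpolant. -/
lemma line_below {H C x₀ x₁ y₀ y₁ k₀ k₁ x : ℝ} {g : ℝ} (ha : x₀ ≤ x) (hb : x ≤ x₁) (hlt : x₀ < x₁)
    (hy₀ : 0 ≤ y₀) (hy₀' : y₀ ≤ 1) (hy₁ : 0 ≤ y₁) (hy₁' : y₁ ≤ 1) (hk₀ : 0 ≤ k₀) (hk₁ : 0 ≤ k₁)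
    (h₀ : (H * x₀ + C) ^ 2 ≤ (1 - y₀ ^ 2) * k₀) (h₁ : (H * x₁ + C) ^ 2 ≤ (1 - y₁ ^ 2) * k₁)
    (hg : k₀ + (x - x₀) * ((k₁ - k₀) / (x₁ - x₀)) ≤ g) :
    (H * x + C) ^ 2 ≤ (1 - (y₀ + (x - x₀) * ((y₁ - y₀) / (x₁ - x₀))) ^ 2) * g := by
  have hd : 0 < x₁ - x₀ := sub_pos.2 hlt
  set τ := (x - x₀) / (x₁ - x₀) with hτ
  have t0 : 0 ≤ τ := div_nonneg (sub_nonneg.2 ha) hd.le
  have t1 : τ ≤ 1 := (div_le_one hd).2 (by linarith)
  have e : ∀ a b : ℝ, a + (x - x₀) * ((b - a) / (x₁ - x₀)) = (1 - τ) * a + τ * b := fun a b => by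
    rw [hτ]; field_simp; ring
  have ex : (1 - τ) * x₀ + τ * x₁ = x := by rw [← e]; field_simp; ring
  have h := interp_affine (τ := τ) t0 t1 hk₀ hk₁ hy₀ hy₀' hy₁ hy₁' h₀ h₁
  rw [ex] at h
  rw [e] at hg
  rw [e]
  refine h.trans (mul_le_mul_of_nonneg_left hg ?_)
  have : 0 ≤ (1 - τ) * y₀ + τ * y₁ := by
    exact add_nonneg (mul_nonneg (by linarith) hy₀) (mul_nonneg t0 hy₁)
  have : (1 - τ) * y₀ + τ * y₁ ≤ 1 := by
    nlinarith [mul_le_mul_of_nonneg_left hy₀' (show 0 ≤ 1 - τ by linarith),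
      mul_le_mul_of_nonneg_left hy₁' t0]
  nlinarith

lemma scale_bound {x : ℤ} (h : x ≤ scale) : sc x ≤ 1 := by
  rw [sc, div_le_one (by norm_num)]
  exact_mod_cast h

lemma sc_nonneg {x : ℤ} (h : 0 ≤ x) : 0 ≤ sc x := div_nonneg (Int.cast_nonneg h) (by norm_num)

/-- A scaled check as an inequality of reals. -/
lemma sc_check {H C x y l N D : ℤ} {k : ℝ} (hl : l = H * x + C * scale) (hD : 0 < D)
    (h : l ^ 2 * D ≤ room y * N) (hk : k = (N : ℝ) / ((D : ℝ) * 10000000 ^ 2)) :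
    (sc H * sc x + sc C) ^ 2 ≤ (1 - sc y ^ 2) * k := by
  subst hl hk
  have hD' : (0 : ℝ) < D := by exact_mod_cast hD
  have h' : ((H : ℝ) * x + C * 10000000) ^ 2 * D ≤ (10000000 ^ 2 - (y : ℝ) ^ 2) * N := by
    simp only [room, scale] at h
    exact_mod_cast h
  have e1 : (sc H * sc x + sc C) ^ 2 =
      ((H : ℝ) * x + C * 10000000) ^ 2 * D / (D * 10000000 ^ 4) := by
    rw [mul_comm _ (D : ℝ), mul_div_mul_left _ _ hD'.ne']
    simp only [sc]; ring
  have e2 : (1 - sc y ^ 2) * ((N : ℝ) / (D * 10000000 ^ 2)) =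
      (10000000 ^ 2 - (y : ℝ) ^ 2) * N / (D * 10000000 ^ 4) := by
    simp only [sc]; field_simp
  rw [e1, e2]
  exact div_le_div_of_nonneg_right h' (by positivity)

/-- The value of the interpolant on a segment. -/
def segY (p q : ℤ × ℤ) (x : ℝ) : ℝ :=
  sc p.2 + (x - sc p.1) * ((sc q.2 - sc p.2) / (sc q.1 - sc p.1))

section seg

variable {H C : ℤ} {p q : ℤ × ℤ} {x : ℝ}
  (hb : 0 ≤ p.1 ∧ p.1 < q.1 ∧ q.1 ≤ scale ∧ 0 ≤ p.2 ∧ p.2 ≤ scale ∧ 0 ≤ q.2 ∧ q.2 ≤ scale)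
  (hx : sc p.1 ≤ x) (hx' : x ≤ sc q.1)

include hb hx hx'

lemma segY_mem : 0 ≤ segY p q x ∧ segY p q x ≤ 1 := by
  obtain ⟨_, b2, _, b4, b5, b6, b7⟩ := hb
  have hd : 0 < sc q.1 - sc p.1 := sub_pos.2 (sc_lt b2)
  have e : segY p q x = (1 - (x - sc p.1) / (sc q.1 - sc p.1)) * sc p.2 +
      (x - sc p.1) / (sc q.1 - sc p.1) * sc q.2 := by
    unfold segY; field_simp; ring
  set τ := (x - sc p.1) / (sc q.1 - sc p.1)
  have t0 : 0 ≤ τ := div_nonneg (sub_nonneg.2 hx) hd.le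
  have t1 : 0 ≤ 1 - τ := sub_nonneg.2 ((div_le_one hd).2 (by linarith))
  rw [e]
  exact ⟨add_nonneg (mul_nonneg t1 (sc_nonneg b4)) (mul_nonneg t0 (sc_nonneg b6)), by
    nlinarith [mul_le_mul_of_nonneg_left (scale_bound b5) t1,
      mul_le_mul_of_nonneg_left (scale_bound b7) t0]⟩

/-- The common step of the segment lemmas. -/
lemma seg_below {k₀ k₁ g : ℝ} (hk₀ : 0 ≤ k₀) (hk₁ : 0 ≤ k₁)
    (h₀ : (sc H * sc p.1 + sc C) ^ 2 ≤ (1 - sc p.2 ^ 2) * k₀)
    (h₁ : (sc H * sc q.1 + sc C) ^ 2 ≤ (1 - sc q.2 ^ 2) * k₁)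
    (hg : k₀ + (x - sc p.1) * ((k₁ - k₀) / (sc q.1 - sc p.1)) ≤ g) :
    (sc H * x + sc C) ^ 2 ≤ (1 - segY p q x ^ 2) * g := by
  obtain ⟨_, b2, _, b4, b5, b6, b7⟩ := hb
  exact line_below hx hx' (sc_lt b2) (sc_nonneg b4) (scale_bound b5) (sc_nonneg b6)
    (scale_bound b7) hk₀ hk₁ h₀ h₁ hg

lemma seam_sound {w₀ : ℤ} (h : bandOk w₀ p.1 p.2 (H * p.1 + C * scale) q.2
      (H * q.1 + C * scale) = true) :
    (sc H * x + sc C) ^ 2 ≤ (1 - segY p q x ^ 2) * bandW (sc w₀) x ^ 2 := by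
  obtain ⟨h₀, h₁⟩ := of_decide_eq_true h
  set e := seam w₀ p.1 with he
  set b := 1 + 6 / 5 * sc e ^ 2 with hb'
  have ek : b ^ 2 = (((5 * scale ^ 2 + 6 * e ^ 2) ^ 2 : ℤ) : ℝ) /
      (((25 * scale ^ 2 : ℤ) : ℝ) * 10000000 ^ 2) := by
    simp only [hb', sc, scale]; push_cast; ring
  refine seg_below hb hx hx' (sq_nonneg b) (sq_nonneg b) (sc_check rfl (by norm_num [scale]) h₀ ek)
    (sc_check rfl (by norm_num [scale]) h₁ ek) ?_
  rw [sub_self, zero_div, mul_zero, add_zero]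
  have e0 : 0 ≤ sc e := sc_nonneg (by rw [he, seam]; exact le_min (le_max_right _ _) (by norm_num))
  have e1 : sc e ≤ min (max (x - (1 - sc w₀)) 0) (1 / 4) := by
    refine le_min ?_ ?_
    · rcases le_total (p.1 - (scale - w₀)) 0 with c | c
      · refine le_trans ?_ (le_max_right _ _)
        have : e ≤ 0 := (min_le_left _ _).trans_eq (max_eq_right c)
        exact (sc_le this).trans_eq (by simp [sc])
      · refine le_trans ?_ (le_max_left _ _)
        refine (sc_le ((min_le_left _ _).trans_eq (max_eq_left c) : e ≤ _)).trans ?_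
        have : sc (p.1 - (scale - w₀)) = sc p.1 - (1 - sc w₀) := by
          simp only [sc, scale]; push_cast; ring
        linarith
    · exact (sc_le (min_le_right _ _ : e ≤ 2500000)).trans_eq (by norm_num [sc])
  refine pow_le_pow_left₀ (by positivity) ?_ 2
  unfold bandW
  nlinarith [pow_le_pow_left₀ e0 e1 2]

lemma stad_sound {w : ℤ} (hw : 0 < w) (h : stadOk w p.1 p.2 (H * p.1 + C * scale) q.1 q.2
      (H * q.1 + C * scale) = true) :
    (sc H * x + sc C) ^ 2 ≤ (1 - segY p q x ^ 2) * stad (sc w) (1 - x) ^ 2 := by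
  have hW : 0 < sc w := div_pos (by exact_mod_cast hw) (by norm_num)
  have hd : 0 < sc q.1 - sc p.1 := sub_pos.2 (sc_lt hb.2.1)
  have hq1 : sc q.1 ≤ 1 := scale_bound hb.2.2.1
  simp only [stadOk, Bool.or_eq_true, decide_eq_true_eq] at h
  have hone : ∀ z : ℤ, 1 - sc z = sc (scale - z) := fun z => by simp only [sc, scale]; push_cast; ring
  rcases h with ⟨n₀, n₁, hs, h₀, h₁⟩ | ⟨h₀, h₁⟩
  · set lin : ℝ → ℝ := fun t => (1 - t) / sc w + 31415926 / 10000000 * sc w / 4 with hlin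
    set μ := (lin (sc p.1) + lin (sc q.1)) / 2 with hμ
    set m := stadNum w (scale - p.1) + stadNum w (scale - q.1) with hm
    have ew : (w : ℝ) ≠ 0 := by exact_mod_cast hw.ne'
    have el : ∀ z : ℤ, lin (sc z) = (stadNum w (scale - z) : ℝ) / (4 * w * 10000000 ^ 2) := fun z => by
      simp only [hlin, sc, stadNum, scale]; push_cast; field_simp; ring
    have ek : ∀ z : ℤ, 2 * μ * lin (sc z) - μ ^ 2 = (tang m (stadNum w (scale - z)) : ℝ) /
        (((64 * w ^ 2 * scale ^ 2 : ℤ) : ℝ) * 10000000 ^ 2) := fun z => by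
      rw [hμ, el, el, el, hm]
      simp only [tang, scale]; push_cast; field_simp; ring
    have hD : 0 < 64 * w ^ 2 * scale ^ 2 := by simp only [scale]; positivity
    have k0 : ∀ z : ℤ, 0 ≤ tang m (stadNum w (scale - z)) → 0 ≤ 2 * μ * lin (sc z) - μ ^ 2 :=
      fun z hz => by rw [ek]; exact div_nonneg (by exact_mod_cast hz) (by positivity)
    refine seg_below hb hx hx' (k0 _ n₀) (k0 _ n₁) (sc_check rfl hD h₀ (ek _))
      (sc_check rfl hD h₁ (ek _)) ?_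
    have e1 : (2 * μ * lin (sc p.1) - μ ^ 2) + (x - sc p.1) *
        (((2 * μ * lin (sc q.1) - μ ^ 2) - (2 * μ * lin (sc p.1) - μ ^ 2)) / (sc q.1 - sc p.1)) =
        2 * μ * lin x - μ ^ 2 := by
      simp only [hlin]; field_simp; ring
    rw [e1]
    have hcond : π * sc w ^ 2 ≤ 4 * (1 - x) := by
      have hs' : (31415927 : ℝ) * (w : ℝ) ^ 2 ≤ 4 * (10000000 - (q.1 : ℝ)) * 10000000 ^ 2 := by
        simp only [scale] at hs; exact_mod_cast hs
      have : 31415927 / 10000000 * sc w ^ 2 ≤ 4 * (1 - sc q.1) := by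
        simp only [sc]
        have := div_le_div_of_nonneg_right hs' (show (0 : ℝ) ≤ 10000000 ^ 3 by norm_num)
        ring_nf at this ⊢
        linarith
      nlinarith [mul_le_mul_of_nonneg_right pi_hi7 (sq_nonneg (sc w))]
    have hlx : lin x ≤ stad (sc w) (1 - x) := by
      rw [stad, if_pos hcond]
      simp only [hlin]
      nlinarith [mul_le_mul_of_nonneg_right pi_lo7 hW.le]
    have hl0 : 0 ≤ lin x := add_nonneg (div_nonneg (by linarith) hW.le) (by positivity)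
    nlinarith [sq_nonneg (lin x - μ), pow_le_pow_left₀ hl0 hlx 2]
  · have ek : ∀ z : ℤ, π * (1 - sc z) ≥ 0 → 31415926 / 10000000 * (1 - sc z) =
        ((31415926 * (scale - z) : ℤ) : ℝ) / (((1 : ℤ) : ℝ) * 10000000 ^ 2) := fun z _ => by
      simp only [sc, scale]; push_cast; ring
    have hp1 : sc p.1 ≤ 1 := by linarith
    have z0 : 0 ≤ 31415926 / 10000000 * (1 - sc p.1) := by nlinarith
    have z1 : 0 ≤ 31415926 / 10000000 * (1 - sc q.1) := by nlinarith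
    refine seg_below hb hx hx' z0 z1
      (sc_check rfl one_pos (by simpa using h₀) (ek _ (mul_nonneg pi_pos.le (by linarith))))
      (sc_check rfl one_pos (by simpa using h₁) (ek _ (mul_nonneg pi_pos.le (by linarith)))) ?_
    have e1 : 31415926 / 10000000 * (1 - sc p.1) + (x - sc p.1) *
        ((31415926 / 10000000 * (1 - sc q.1) - 31415926 / 10000000 * (1 - sc p.1)) /
          (sc q.1 - sc p.1)) = 31415926 / 10000000 * (1 - x) := by
      field_simp; ring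
    rw [e1]
    have hh : 0 ≤ 1 - x := by linarith
    calc 31415926 / 10000000 * (1 - x) ≤ π * (1 - x) := mul_le_mul_of_nonneg_right pi_lo7 hh
      _ = √(π * (1 - x)) ^ 2 := (Real.sq_sqrt (mul_nonneg pi_pos.le hh)).symm
      _ ≤ _ := pow_le_pow_left₀ (Real.sqrt_nonneg _) (stad_ge_planar hW hh) 2

lemma wavy_sound (h : wavyOk p.1 p.2 (H * p.1 + C * scale) q.1 q.2
      (H * q.1 + C * scale) = true) :
    (sc H * x + sc C) ^ 2 ≤ (1 - segY p q x ^ 2) * (1 + (1 - x) ^ 2) := by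
  have hd : 0 < sc q.1 - sc p.1 := sub_pos.2 (sc_lt hb.2.1)
  simp only [wavyOk, decide_eq_true_eq] at h
  obtain ⟨n₀, n₁, h₀, h₁⟩ := h
  set μ := ((1 - sc p.1) + (1 - sc q.1)) / 2 with hμ
  set m := (scale - p.1) + (scale - q.1) with hm
  have ek : ∀ z : ℤ, 1 + (2 * μ * (1 - sc z) - μ ^ 2) =
      ((4 * scale ^ 2 + tang m (scale - z) : ℤ) : ℝ) / (((4 : ℤ) : ℝ) * 10000000 ^ 2) := fun z => by
    simp only [hμ, hm, sc, tang, scale]; push_cast; ring
  have k0 : ∀ z : ℤ, 0 ≤ 4 * scale ^ 2 + tang m (scale - z) →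
      0 ≤ 1 + (2 * μ * (1 - sc z) - μ ^ 2) := fun z hz => by
    rw [ek]; exact div_nonneg (by exact_mod_cast hz) (by positivity)
  refine seg_below hb hx hx' (k0 _ n₀) (k0 _ n₁)
    (sc_check rfl four_pos (by linarith [h₀]) (ek _))
    (sc_check rfl four_pos (by linarith [h₁]) (ek _)) ?_
  have e1 : 1 + (2 * μ * (1 - sc p.1) - μ ^ 2) + (x - sc p.1) *
      ((1 + (2 * μ * (1 - sc q.1) - μ ^ 2) - (1 + (2 * μ * (1 - sc p.1) - μ ^ 2))) /
        (sc q.1 - sc p.1)) = 1 + (2 * μ * (1 - x) - μ ^ 2) := by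
    field_simp; ring
  rw [e1]
  nlinarith [sq_nonneg (1 - x - μ)]

end seg

/-- The two admissibility conditions at a point. -/
def GAdm (W₀ W₁ H C x y : ℝ) : Prop :=
  0 ≤ y ∧ y ≤ 1 ∧ (H * x + 0) ^ 2 + gW W₀ W₁ x ^ 2 * y ^ 2 ≤ gW W₀ W₁ x ^ 2 ∧
    (H * x + C) ^ 2 + gLow W₀ W₁ x ^ 2 * y ^ 2 ≤ gLow W₀ W₁ x ^ 2

lemma sq_min {l c a b : ℝ} (ha : l ≤ c * a ^ 2) (hb : l ≤ c * b ^ 2) : l ≤ c * min a b ^ 2 := by
  rcases min_choice a b with e | e <;> rw [e] <;> assumption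

lemma seg_sound {w₀ w₁ H C : ℤ} {p q : ℤ × ℤ} (hw : 0 < w₁)
    (h : segOk w₀ w₁ H C p q = true) {x : ℝ} (hx : sc p.1 ≤ x) (hx' : x ≤ sc q.1) :
    GAdm (sc w₀) (sc w₁) (sc H) (sc C) x (segY p q x) := by
  simp only [segOk, Bool.and_eq_true, Bool.or_eq_true, decide_eq_true_eq] at h
  obtain ⟨⟨⟨⟨b1, b2, b3, b4, b5, b6, b7, _, _, r₀, r₁⟩, hband⟩, hstad⟩, hlow⟩ := h
  have hb : 0 ≤ p.1 ∧ p.1 < q.1 ∧ q.1 ≤ scale ∧ 0 ≤ p.2 ∧ p.2 ≤ scale ∧ 0 ≤ q.2 ∧ q.2 ≤ scale :=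
    ⟨b1, b2, b3, b4, b5, b6, b7⟩
  obtain ⟨y0, y1⟩ := segY_mem hb hx hx'
  have hx0 : 0 ≤ x := (sc_nonneg b1).trans hx
  have hx1 : x ≤ 1 := hx'.trans (scale_bound b3)
  have hW : 0 ≤ sc w₁ := sc_nonneg hw.le
  have z0 : ∀ z : ℤ, H * z = H * z + 0 * scale := fun z => by ring
  rw [z0 p.1, z0 q.1] at hband hstad
  have hB := seam_sound hb hx hx' hband
  have hS := stad_sound hb hx hx' hw hstad
  have hd : sc q.1 - sc p.1 ≠ 0 := sub_ne_zero.2 (sc_lt b2).ne'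
  have ek : ∀ z : ℤ, 31415926 / 10000000 * sc z =
      ((31415926 * z : ℤ) : ℝ) / (((1 : ℤ) : ℝ) * 10000000 ^ 2) := fun z => by
    simp only [sc]; push_cast; ring
  have hP : (sc H * x + sc 0) ^ 2 ≤ (1 - segY p q x ^ 2) * √(π * x) ^ 2 := by
    refine seg_below hb hx hx' (mul_nonneg (by norm_num) (sc_nonneg b1))
      (mul_nonneg (by norm_num) (sc_nonneg (b1.trans b2.le)))
      (sc_check rfl one_pos (by simpa using r₀) (ek _))
      (sc_check rfl one_pos (by simpa using r₁) (ek _)) ?_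
    rw [Real.sq_sqrt (mul_nonneg pi_pos.le hx0)]
    refine le_trans (le_of_eq ?_) (mul_le_mul_of_nonneg_right pi_lo7 hx0)
    field_simp; ring
  have hg : (sc H * x + sc 0) ^ 2 ≤ (1 - segY p q x ^ 2) * gW (sc w₀) (sc w₁) x ^ 2 :=
    sq_min (sq_min hP hB) hS
  have hg' : (sc H * x + sc C) ^ 2 ≤ (1 - segY p q x ^ 2) * gLow (sc w₀) (sc w₁) x ^ 2 := by
    rcases hlow with rfl | ⟨hs, hb'⟩
    · refine hg.trans (mul_le_mul_of_nonneg_left
        (pow_le_pow_left₀ (gW_nonneg hW hx1) (gW_le_gLow _ _ _) 2) ?_)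
      nlinarith
    · refine sq_min ?_ (stad_sound hb hx hx' hw hs)
      have hc : 0 ≤ 1 - segY p q x ^ 2 := by nlinarith
      rcases hb' with hb' | hb'
      · refine (seam_sound hb hx hx' hb').trans (mul_le_mul_of_nonneg_left
          (pow_le_pow_left₀ ?_ (le_max_left _ _) 2) hc)
        unfold bandW; positivity
      · refine (wavy_sound hb hx hx' hb').trans (mul_le_mul_of_nonneg_left ?_ hc)
        calc 1 + (1 - x) ^ 2 = √(1 + (1 - x) ^ 2) ^ 2 := (Real.sq_sqrt (by positivity)).symm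
          _ ≤ _ := pow_le_pow_left₀ (Real.sqrt_nonneg _) (le_max_right _ _) 2
  have e0 : sc 0 = 0 := by simp [sc]
  rw [e0] at hg
  refine ⟨y0, y1, ?_, ?_⟩ <;> linarith

/-- An admissible chain is in particular a chain for the zero line. -/
lemma chainOk_zero {w₀ w₁ H C : ℤ} : ∀ (p : ℤ × ℤ) (r : List (ℤ × ℤ)),
    gChain w₀ w₁ H C (p :: r) = true → r ≠ [] → chainOk 0 0 (p :: r) = true
  | _, [], _, h => absurd rfl h
  | p, q :: r, h, _ => by
    simp only [gChain, Bool.and_eq_true] at h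
    obtain ⟨hs, hr⟩ := h
    simp only [segOk, Bool.and_eq_true, decide_eq_true_eq] at hs
    obtain ⟨⟨⟨⟨b1, b2, b3, b4, b5, b6, b7, -⟩, -⟩, -⟩, -⟩ := hs
    have node : ∀ x y : ℤ, 0 ≤ x → x ≤ scale → 0 ≤ y → y ≤ scale → nodeOk 0 0 x y = true :=
      fun x y x0 x1 y0 y1 => by
        simp only [scale] at x1 y1
        simp only [nodeOk, scale]
        have : 0 ≤ (10000000 : ℤ) ^ 2 - y ^ 2 := by nlinarith
        refine decide_eq_true ⟨y0, y1, ?_, ?_, ?_⟩ <;> simp only [zero_mul, add_zero, ne_eq,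
          OfNat.ofNat_ne_zero, not_false_eq_true, zero_pow] <;> positivity
    simp only [chainOk, Bool.and_eq_true, decide_eq_true_eq]
    refine ⟨⟨node _ _ b1 (b2.le.trans b3) b4 b5, b2⟩, ?_⟩
    cases r with
    | nil => exact node _ _ (b1.trans b2.le) b3 b6 b7
    | cons z r => exact chainOk_zero q (z :: r) hr (List.cons_ne_nil _ _)

lemma lastX_mono {w₀ w₁ H C : ℤ} : ∀ (p : ℤ × ℤ) (r : List (ℤ × ℤ)),
    gChain w₀ w₁ H C (p :: r) = true → p.1 ≤ lastX p r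
  | _, [], _ => le_rfl
  | p, q :: r, h => by
    simp only [gChain, segOk, Bool.and_eq_true, decide_eq_true_eq] at h
    obtain ⟨⟨⟨⟨⟨-, b2, -⟩, -⟩, -⟩, -⟩, hr⟩ := h
    exact b2.le.trans (lastX_mono q r hr)

/-- The interpolant is admissible and Lipschitz. -/
lemma chain_sound {w₀ w₁ H C : ℤ} (hw : 0 < w₁) : ∀ (p : ℤ × ℤ) (r : List (ℤ × ℤ)),
    r ≠ [] → gChain w₀ w₁ H C (p :: r) = true → ∀ x ∈ Set.Icc (sc p.1) (sc (lastX p r)),
      GAdm (sc w₀) (sc w₁) (sc H) (sc C) x (pl (p :: r) x) ∧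
        ∀ y ∈ Set.Icc (sc p.1) x, |pl (p :: r) x - pl (p :: r) y| ≤ 100 * (x - y)
  | _, [], h, _, _, _ => absurd rfl h
  | p, q :: r, _, h, x, hx => by
    have hch := chainOk_zero p (q :: r) h (List.cons_ne_nil _ _)
    simp only [chainOk, Bool.and_eq_true, decide_eq_true_eq] at hch
    simp only [gChain, Bool.and_eq_true] at h
    obtain ⟨hs, hr⟩ := h
    have hseg : ∀ z, z ≤ sc q.1 → pl (p :: q :: r) z = segY p q z := fun z hz => by
      rw [pl, if_pos hz]; rfl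
    have hb : p.1 < q.1 ∧ q.2 - p.2 ≤ 100 * (q.1 - p.1) ∧ p.2 - q.2 ≤ 100 * (q.1 - p.1) := by
      simp only [segOk, Bool.and_eq_true, decide_eq_true_eq] at hs
      exact ⟨hs.1.1.1.2.1, hs.1.1.1.2.2.2.2.2.2.2.1, hs.1.1.1.2.2.2.2.2.2.2.2.1⟩
    have hslope : |(sc q.2 - sc p.2) / (sc q.1 - sc p.1)| ≤ 100 := by
      have hd : 0 < sc q.1 - sc p.1 := sub_pos.2 (sc_lt hb.1)
      have c1 : ((q.2 : ℝ) - p.2) ≤ 100 * ((q.1 : ℝ) - p.1) := by exact_mod_cast hb.2.1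
      have c2 : ((p.2 : ℝ) - q.2) ≤ 100 * ((q.1 : ℝ) - p.1) := by exact_mod_cast hb.2.2
      rw [abs_div, abs_of_pos hd, div_le_iff₀ hd, abs_le]
      simp only [sc]
      constructor <;> linarith
    have hlip : ∀ y z, y ≤ z → z ≤ sc q.1 →
        |pl (p :: q :: r) z - pl (p :: q :: r) y| ≤ 100 * (z - y) := fun y z hyz hz => by
      rw [hseg z hz, hseg y (hyz.trans hz)]
      simp only [segY]
      rw [show ∀ a b c s : ℝ, a + b * s - (a + c * s) = (b - c) * s from fun a b c s => by ring,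
        abs_mul, show z - sc p.1 - (y - sc p.1) = z - y by ring, abs_of_nonneg (sub_nonneg.2 hyz),
        mul_comm (100 : ℝ)]
      exact mul_le_mul_of_nonneg_left hslope (sub_nonneg.2 hyz)
    rcases le_total x (sc q.1) with c | c
    · refine ⟨?_, fun y hy => hlip y x hy.2 c⟩
      rw [hseg x c]
      exact seg_sound hw hs hx.1 c
    · by_cases hr0 : r = []
      · subst hr0
        have e : x = sc q.1 := le_antisymm hx.2 c
        subst e
        refine ⟨?_, fun y hy => hlip y _ hy.2 le_rfl⟩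
        rw [hseg _ le_rfl]
        exact seg_sound hw hs hx.1 le_rfl
      · obtain ⟨ha, hl⟩ := chain_sound hw q r hr0 hr x ⟨c, hx.2⟩
        have e : ∀ z, sc q.1 ≤ z → pl (p :: q :: r) z = pl (q :: r) z := fun z hz =>
          pl_cons hch.2 hb.1 hz
        refine ⟨by rw [e x c]; exact ha, fun y hy => ?_⟩
        rcases le_total (sc q.1) y with d | d
        · rw [e x c, e y d]; exact hl y ⟨d, hy.2⟩
        · have h1 := hlip y (sc q.1) d le_rfl
          have h2 := hl (sc q.1) ⟨le_rfl, c⟩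
          rw [← e x c, ← e _ le_rfl] at h2
          rw [abs_le] at h1 h2 ⊢
          constructor <;> linarith

lemma pl_prefix {H C : ℤ} : ∀ (p : ℤ × ℤ) (r t : List (ℤ × ℤ)),
    chainOk H C (p :: (r ++ t)) = true → ∀ x, sc p.1 ≤ x → x ≤ sc (lastX p r) →
      pl (p :: (r ++ t)) x = pl (p :: r) x
  | p, [], t, h, x, hx, hx' => by
    have e : x = sc p.1 := le_antisymm hx' hx
    subst e
    exact pl_head h
  | p, q :: r, t, h, x, hx, hx' => by
    rw [List.cons_append] at h ⊢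
    simp only [chainOk, Bool.and_eq_true, decide_eq_true_eq] at h
    rw [pl, pl]
    split_ifs with c
    · rfl
    · exact pl_prefix q r t h.2 x (le_of_lt (not_le.1 c)) hx'

lemma gChain_prefix {w₀ w₁ H C : ℤ} : ∀ (r t : List (ℤ × ℤ)),
    gChain w₀ w₁ H C (r ++ t) = true → gChain w₀ w₁ H C r = true
  | [], _, _ => rfl
  | [_], _, _ => rfl
  | p :: q :: r, t, h => by
    simp only [List.cons_append, gChain, Bool.and_eq_true] at h ⊢
    exact ⟨h.1, gChain_prefix (q :: r) t h.2⟩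

/-- A leaf gives the bound at `v = 1 / π` and hence at every volume. -/
lemma gleaf_sound {H C t₀ a₀ a₁ w₀ w₁ : ℤ} {ns tl : List (ℤ × ℤ)}
    (h : (GTree.leaf H C ns tl).check t₀ a₀ a₁ w₀ w₁ = true) {v τ A W P : ℝ} (hv : 0 ≤ v)
    (hτ : sc t₀ ≤ τ) (ha : sc a₀ ≤ A) (ha' : A ≤ sc a₁) (hw : sc w₀ ≤ W) (hw' : W ≤ sc w₁)
    (hP : ∀ W₀ W₁, W₀ ≤ W → W ≤ W₁ → 1 / 10 ≤ W₁ →
      LowT 100 (gW W₀ W₁) (gLow W₀ W₁) v τ A P) :
    min 1 √(π * v) + 5 / 10000 ≤ P := by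
  simp only [GTree.check, Bool.and_eq_true, decide_eq_true_eq] at h
  obtain ⟨⟨⟨h0, h1, h2, h3, h4, h5, h6, h7, h8, h9⟩, hsp⟩, hch⟩ := h
  match ns, hsp with
  | [], hsp => simp [gSpan] at hsp
  | p :: r, hsp =>
  simp only [gSpan, decide_eq_true_eq] at hsp
  obtain ⟨ep, e0, e1⟩ := hsp
  rw [List.cons_append] at hch
  set w := max w₁ 1000000 with hwdef
  have hwp : 0 < w := lt_max_of_lt_right (by norm_num)
  have hr0 : r ≠ [] := fun he => by subst he; simp only [lastX, ep] at e0; omega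
  have hrt : r ++ tl ≠ [] := by simp [hr0]
  have hns := gChain_prefix (p :: r) tl hch
  have hc0 := chainOk_zero p r hns hr0
  have hcf := chainOk_zero p (r ++ tl) hch hrt
  set β := pl (p :: (r ++ tl)) with hβ
  have hp0 : sc p.1 = 0 := by simp [ep, sc]
  have hA : ∀ x ∈ Set.Icc (0 : ℝ) A, x ∈ Set.Icc (sc p.1) (sc (lastX p (r ++ tl))) := fun x hx =>
    ⟨hp0.le.trans hx.1, by rw [e1]; exact hx.2.trans ha'⟩
  have hs := chain_sound hwp p (r ++ tl) hrt hch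
  have hlip : ∀ x ∈ Set.Icc (0 : ℝ) A, ∀ y ∈ Set.Icc (0 : ℝ) A, |β x - β y| ≤ 100 * |x - y| := by
    intro x hx y hy
    rcases le_total y x with c | c
    · rw [abs_of_nonneg (sub_nonneg.2 c)]
      exact (hs x (hA x hx)).2 y ⟨hp0.le.trans hy.1, c⟩
    · rw [abs_sub_comm x, abs_of_nonneg (sub_nonneg.2 c), abs_sub_comm]
      exact (hs y (hA y hy)).2 x ⟨hp0.le.trans hx.1, c⟩
  have hadm : ∀ x ∈ Set.Icc (0 : ℝ) A, GAdm (sc w₀) (sc w) (sc H) (sc C) x (β x) := fun x hx =>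
    (hs x (hA x hx)).1
  have hH : 0 ≤ sc H := sc_nonneg h0
  have hH' : sc H ≤ 100 := by
    have : (H : ℝ) ≤ 100 * 10000000 := by simp only [scale] at h1; exact_mod_cast h1
    rw [sc, div_le_iff₀ (by norm_num)]; linarith
  have hC : 0 ≤ sc C := sc_nonneg h2
  have hC' : sc C ≤ 100 := by
    have : (C : ℝ) ≤ 100 * 10000000 := by simp only [scale] at h3; exact_mod_cast h3
    rw [sc, div_le_iff₀ (by norm_num)]; linarith
  have main := hP (sc w₀) (sc w) hw (hw'.trans (sc_le (le_max_left _ _)))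
    ((show (1 / 10 : ℝ) = sc 1000000 by norm_num [sc]).trans_le (sc_le (le_max_right _ _)))
    (sc H) 0 (sc C) β (by rw [abs_of_nonneg hH]; exact hH') (by norm_num)
    (by rw [abs_of_nonneg hC]; exact hC') hC hlip
    fun x hx => ⟨(hadm x hx).1, (hadm x hx).2.1, (hadm x hx).2.2.1, (hadm x hx).2.2.2⟩
  have hint : (trap2 (p :: r) : ℝ) / (2 * 10000000 ^ 2) ≤ ∫ x in (0 : ℝ)..A, β x := by
    have e : (∫ x in sc p.1..sc (lastX p r), β x) =
        (trap2 (p :: r) : ℝ) / (2 * 10000000 ^ 2) := by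
      rw [← integral_pl p r hc0]
      refine intervalIntegral.integral_congr fun x hx => ?_
      rw [Set.uIcc_of_le (sc_le (lastX_mono p r hns))] at hx
      exact pl_prefix p r tl hcf x hx.1 hx.2
    rw [← e, e0, hp0]
    refine intervalIntegral.integral_mono_interval le_rfl (sc_nonneg h5.le) ha ?_
      ((continuous_pl _ hcf).intervalIntegrable _ _)
    filter_upwards [ae_restrict_mem measurableSet_Ioc] with x hx
    exact (hadm x ⟨hx.1.le, hx.2⟩).1
  have hτC := mul_le_mul_of_nonneg_right hτ hC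
  simp only [sub_zero] at main
  rcases h9 with ⟨h9, h10⟩ | ⟨h9, h10⟩
  · have hH2 : sc H ≤ π / 2 := by
      have : (2 : ℝ) * H ≤ 31415926 := by exact_mod_cast h9
      rw [sc]; linarith [pi_lo7]
    have hval : 1 + 5 / 10000 ≤ sc H * (3183098 / 10000000) + sc t₀ * sc C +
        (trap2 (p :: r) : ℝ) / (2 * 10000000 ^ 2) := by
      have : (2 : ℝ) * 10000000 * (10000000 + 5000) ≤
          2 * H * 3183098 + 2 * t₀ * C + trap2 (p :: r) := by
        simp only [scale] at h10; exact_mod_cast h10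
      have := div_le_div_of_nonneg_right this (show (0 : ℝ) ≤ 2 * 10000000 ^ 2 by norm_num)
      rw [add_div, add_div] at this
      simp only [sc]
      ring_nf at this ⊢
      linarith
    rcases le_total (3183098 / 10000000) v with c | c
    · linarith [min_le_left 1 √(π * v), mul_le_mul_of_nonneg_left c hH]
    · have hsq : √(π * v) ≤ (1 + π * v) / 2 := by
        nlinarith [sq_nonneg (√(π * v) - 1), Real.sq_sqrt (mul_nonneg pi_pos.le hv)]
      have hpv : π * (3183098 / 10000000) ≤ 1 := by linarith [pi_hi7]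
      nlinarith [min_le_right 1 √(π * v), mul_le_mul_of_nonneg_right hH2 (sub_nonneg.2 c)]
  · have q0 : 0 < sc H := div_pos (by exact_mod_cast h9) (by norm_num)
    set K := sc t₀ * sc C + (trap2 (p :: r) : ℝ) / (2 * 10000000 ^ 2) - 5 / 10000 with hK
    have q1 : π ≤ 4 * sc H * K := by
      have q2 : (2 : ℝ) * 10000000 ^ 2 * 31415927 ≤
          4 * H * (2 * t₀ * C + trap2 (p :: r) - 10000 * 10000000) := by
        simp only [scale] at h10; exact_mod_cast h10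
      have e : 4 * sc H * K =
          4 * (H : ℝ) * (2 * t₀ * C + trap2 (p :: r) - 10000 * 10000000) / (2 * 10000000 ^ 3) := by
        rw [hK]; simp only [sc]; ring
      rw [e, le_div_iff₀ (by norm_num)]
      nlinarith [pi_hi7]
    have hsq : √(π * v) ≤ sc H * v + K := by
      set u := √v with hu
      have e : v = u ^ 2 := (Real.sq_sqrt hv).symm
      rw [Real.sqrt_mul pi_pos.le, ← hu]
      rw [e]
      nlinarith [sq_nonneg (2 * sc H * u - √π), Real.sq_sqrt pi_pos.le]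
    rw [hK] at hsq
    linarith [min_le_right 1 √(π * v)]

/-- What a checked tree proves. -/
lemma gtree_sound {v τ A W P : ℝ} {t₀ : ℤ} (hv : 0 ≤ v) (hτ : sc t₀ ≤ τ)
    (hP : ∀ W₀ W₁, W₀ ≤ W → W ≤ W₁ → 1 / 10 ≤ W₁ →
      LowT 100 (gW W₀ W₁) (gLow W₀ W₁) v τ A P) :
    ∀ (T : GTree) (a₀ a₁ w₀ w₁ : ℤ), T.check t₀ a₀ a₁ w₀ w₁ = true →
      sc a₀ ≤ A → A ≤ sc a₁ → sc w₀ ≤ W → W ≤ sc w₁ → min 1 √(π * v) + 5 / 10000 ≤ P
  | .leaf H C ns tl, a₀, a₁, w₀, w₁, h, ha, ha', hw, hw' =>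
    gleaf_sound h hv hτ ha ha' hw hw' hP
  | .cutA m l r, a₀, a₁, w₀, w₁, h, ha, ha', hw, hw' => by
    simp only [GTree.check, Bool.and_eq_true] at h
    rcases le_total A (sc m) with c | c
    · exact gtree_sound hv hτ hP l _ _ _ _ h.1 ha c hw hw'
    · exact gtree_sound hv hτ hP r _ _ _ _ h.2 c ha' hw hw'
  | .cutW m l r, a₀, a₁, w₀, w₁, h, ha, ha', hw, hw' => by
    simp only [GTree.check, Bool.and_eq_true] at h
    rcases le_total W (sc m) with c | c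
    · exact gtree_sound hv hτ hP l _ _ _ _ h.1 ha ha' hw c
    · exact gtree_sound hv hτ hP r _ _ _ _ h.2 ha ha' c hw'

end

end Vale.Agent.P232
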