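import Vale.Agent.P232.Cert

/-! # P232: soundness of node lists -/

namespace Vale.Agent.P232

noncomputable section

open Real

/-- Scaled integer as a real number. -/
def sc (x : ℤ) : ℝ := (x : ℝ) / 10000000

/-- `y` is an admissible calibration value for the line `l` against `gfun` at `x`. -/
def Adm (H C x y : ℝ) : Prop :=
  0 ≤ y ∧ y ≤ 1 ∧ (H * x + C) ^ 2 ≤ (1 - y ^ 2) * (π * x) ∧ (H * x + C) ^ 2 ≤ 1 - y ^ 2 ∧
    (H * x + C) ^ 2 ≤ (1 - y ^ 2) * (π * (1 - x))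

lemma adm_of_nodeOk {H C x y : ℤ} (h : nodeOk H C x y = true) :
    Adm (sc H) (sc C) (sc x) (sc y) := by
  replace h := of_decide_eq_true h
  simp only [scale] at h
  obtain ⟨h0, h1, h2, h3, h4⟩ := h
  have r0 : (0 : ℝ) ≤ y := by exact_mod_cast h0
  have r1 : (y : ℝ) ≤ 10000000 := by exact_mod_cast h1
  have r2 : ((H : ℝ) * x + C * 10000000) ^ 2 ≤ (10000000 ^ 2 - (y : ℝ) ^ 2) * (31415926 * x) := by
    exact_mod_cast h2
  have r3 : ((H : ℝ) * x + C * 10000000) ^ 2 ≤ (10000000 ^ 2 - (y : ℝ) ^ 2) * 10000000 ^ 2 := by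
    exact_mod_cast h3
  have r4 : ((H : ℝ) * x + C * 10000000) ^ 2 ≤
      (10000000 ^ 2 - (y : ℝ) ^ 2) * (31415926 * (10000000 - x)) := by exact_mod_cast h4
  have hp : (31415926 : ℝ) / 10000000 ≤ π := by linarith [Real.pi_gt_d20]
  have hy : sc y ≤ 1 := by rw [sc, div_le_one (by norm_num)]; exact r1
  have hy0 : 0 ≤ sc y := div_nonneg r0 (by norm_num)
  have hr : 0 ≤ 1 - sc y ^ 2 := by nlinarith
  have e : (sc H * sc x + sc C) ^ 2 = ((H : ℝ) * x + C * 10000000) ^ 2 / 10000000 ^ 4 := by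
    simp only [sc]; ring
  have key : ∀ t : ℝ, ((H : ℝ) * x + C * 10000000) ^ 2 ≤
      (10000000 ^ 2 - (y : ℝ) ^ 2) * (31415926 * t) →
      (sc H * sc x + sc C) ^ 2 ≤ (1 - sc y ^ 2) * (π * (t / 10000000)) := by
    intro t ht
    have h5 : (sc H * sc x + sc C) ^ 2 ≤
        (1 - sc y ^ 2) * (31415926 / 10000000 * (t / 10000000)) := by
      refine (e.trans_le (div_le_div_of_nonneg_right ht (by norm_num))).trans_eq ?_
      simp only [sc]; ring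
    by_cases ht0 : 0 ≤ t
    · exact h5.trans (mul_le_mul_of_nonneg_left
        (mul_le_mul_of_nonneg_right hp (div_nonneg ht0 (by norm_num))) hr)
    · rcases hr.eq_or_lt with hz | hz
      · rw [← hz] at h5 ⊢; simpa using h5
      · exfalso
        nlinarith [sq_nonneg (sc H * sc x + sc C), mul_pos hz (neg_pos.2 (not_le.1 ht0))]
  refine ⟨hy0, hy, key x r2, ?_, ?_⟩
  · rw [e]
    refine (div_le_div_of_nonneg_right r3 (by norm_num)).trans_eq ?_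
    simp only [sc]; ring
  · have := key ((10000000 : ℤ) - x : ℤ) (by push_cast; exact r4)
    push_cast at this
    rwa [show ((10000000 : ℝ) - x) / 10000000 = 1 - sc x by simp only [sc]; ring] at this

/-- Nodes on a segment. -/
lemma interp_affine {H C x₀ x₁ y₀ y₁ k₀ k₁ τ : ℝ} (ht0 : 0 ≤ τ) (ht1 : τ ≤ 1)
    (hk₀ : 0 ≤ k₀) (hk₁ : 0 ≤ k₁) (hy₀ : 0 ≤ y₀) (hy₀' : y₀ ≤ 1) (hy₁ : 0 ≤ y₁) (hy₁' : y₁ ≤ 1)
    (h₀ : (H * x₀ + C) ^ 2 ≤ (1 - y₀ ^ 2) * k₀) (h₁ : (H * x₁ + C) ^ 2 ≤ (1 - y₁ ^ 2) * k₁) :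
    (H * ((1 - τ) * x₀ + τ * x₁) + C) ^ 2 ≤
      (1 - ((1 - τ) * y₀ + τ * y₁) ^ 2) * ((1 - τ) * k₀ + τ * k₁) := by
  have hc₀ : 0 ≤ 1 - y₀ ^ 2 := by nlinarith
  have hc₁ : 0 ≤ 1 - y₁ ^ 2 := by nlinarith
  set l₀ := H * x₀ + C
  set l₁ := H * x₁ + C
  have e : H * ((1 - τ) * x₀ + τ * x₁) + C = (1 - τ) * l₀ + τ * l₁ := by ring
  rw [e]
  have hu : 0 ≤ 1 - τ := by linarith
  have hP : 0 ≤ (1 - y₀ ^ 2) * k₁ := mul_nonneg hc₀ hk₁
  have hQ : 0 ≤ (1 - y₁ ^ 2) * k₀ := mul_nonneg hc₁ hk₀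
  have hcross : 2 * (l₀ * l₁) ≤ (1 - y₀ ^ 2) * k₁ + (1 - y₁ ^ 2) * k₀ := by
    have h4 : (l₀ * l₁) ^ 2 ≤ ((1 - y₀ ^ 2) * k₁) * ((1 - y₁ ^ 2) * k₀) := by
      calc (l₀ * l₁) ^ 2 = l₀ ^ 2 * l₁ ^ 2 := by ring
        _ ≤ ((1 - y₀ ^ 2) * k₀) * ((1 - y₁ ^ 2) * k₁) :=
          mul_le_mul h₀ h₁ (sq_nonneg _) ((sq_nonneg _).trans h₀)
        _ = _ := by ring
    nlinarith [sq_nonneg ((1 - y₀ ^ 2) * k₁ - (1 - y₁ ^ 2) * k₀), sq_nonneg (l₀ * l₁)]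
  have h2 : (1 - τ) * (1 - y₀ ^ 2) + τ * (1 - y₁ ^ 2) ≤ 1 - ((1 - τ) * y₀ + τ * y₁) ^ 2 := by
    nlinarith [mul_nonneg (mul_nonneg hu ht0) (sq_nonneg (y₀ - y₁))]
  refine le_trans ?_ (mul_le_mul_of_nonneg_right h2 (by positivity))
  nlinarith [mul_le_mul_of_nonneg_left h₀ (sq_nonneg (1 - τ)),
    mul_le_mul_of_nonneg_left h₁ (sq_nonneg τ),
    mul_le_mul_of_nonneg_left hcross (mul_nonneg hu ht0)]

/-- Admissibility is inherited by the linear interpolant. -/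
lemma Adm.interp {H C x₀ x₁ y₀ y₁ x : ℝ} (h₀ : Adm H C x₀ y₀) (h₁ : Adm H C x₁ y₁)
    (hx₀ : 0 ≤ x₀) (hx₁ : x₁ ≤ 1) (ha : x₀ ≤ x) (hb : x ≤ x₁) (hlt : x₀ < x₁) :
    Adm H C x (y₀ + (x - x₀) * ((y₁ - y₀) / (x₁ - x₀))) := by
  set τ := (x - x₀) / (x₁ - x₀) with hτ
  have hd : 0 < x₁ - x₀ := by linarith
  have t0 : 0 ≤ τ := div_nonneg (by linarith) hd.le
  have t1 : τ ≤ 1 := by rw [hτ, div_le_one hd]; linarith
  have ex : x = (1 - τ) * x₀ + τ * x₁ := by rw [hτ]; field_simp; ring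
  have ey : y₀ + (x - x₀) * ((y₁ - y₀) / (x₁ - x₀)) = (1 - τ) * y₀ + τ * y₁ := by
    rw [hτ]; field_simp; ring
  rw [ey, ex]
  obtain ⟨a0, a1, a2, a3, a4⟩ := h₀
  obtain ⟨b0, b1, b2, b3, b4⟩ := h₁
  have hu : 0 ≤ 1 - τ := by linarith
  have hx0' : x₀ ≤ 1 := by linarith
  have hx1' : 0 ≤ x₁ := by linarith
  refine ⟨by positivity, by nlinarith, ?_, ?_, ?_⟩
  · have := interp_affine (τ := τ) t0 t1 (mul_nonneg Real.pi_pos.le hx₀)
      (mul_nonneg Real.pi_pos.le hx1') a0 a1 b0 b1 a2 b2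
    refine this.trans_eq ?_
    ring
  · have := interp_affine (τ := τ) (k₀ := 1) (k₁ := 1) t0 t1 zero_le_one zero_le_one a0 a1 b0 b1
      (by simpa using a3) (by simpa using b3)
    refine this.trans_eq ?_
    ring
  · have := interp_affine (τ := τ) t0 t1 (mul_nonneg Real.pi_pos.le (sub_nonneg.2 hx0'))
      (mul_nonneg Real.pi_pos.le (sub_nonneg.2 hx₁)) a0 a1 b0 b1 a4 b4
    refine this.trans_eq ?_
    ring

lemma Adm.gfun {H C x y : ℝ} (h : Adm H C x y) (hx0 : 0 ≤ x) (hx1 : x ≤ 1) :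
    (H * x + C) ^ 2 + P232.gfun x ^ 2 * y ^ 2 ≤ P232.gfun x ^ 2 := by
  obtain ⟨h0, h1, h2, h3, h4⟩ := h
  have hr : 0 ≤ 1 - y ^ 2 := by nlinarith
  suffices (H * x + C) ^ 2 ≤ (1 - y ^ 2) * P232.gfun x ^ 2 by linarith
  unfold P232.gfun
  rcases min_choice (min √(π * x) 1) √(π * (1 - x)) with e | e <;> rw [e]
  · rcases min_choice √(π * x) 1 with e' | e' <;> rw [e']
    · rwa [Real.sq_sqrt (by positivity)]
    · linarith
  · rwa [Real.sq_sqrt (mul_nonneg Real.pi_pos.le (by linarith))]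

end

end Vale.Agent.P232
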