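import Vale.Agent.P232.Width
import Vale.Agent.P232.GraphSlice
import Vale.Agent.P232.Radial

/-!
# P232: axes along which the slice area is almost constant, near the tube volume

If the slice areas of one axis differ by at most `D ≤ 0.006`, then either all slices pay like discs,
or all pay like bands, or a disc slice and a band slice coexist; in the last case their distance in
`L¹` is at least `0.0715`, which is paid by the derivative along the axis and outweighs the loss
`π D / 8` from the concavity of the profile.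
-/

namespace Vale.Agent.P232

noncomputable section

open MeasureTheory Set Real Axis

namespace NearTube

/-- A two-valued slice of disc type: a cross of zeros. -/
def Cross0 (u : ℝ × ℝ → ℝ) : Prop := ∃ y₀ z₀, (∀ z, u (y₀, z) = 0) ∧ ∀ y, u (y, z₀) = 0

/-- A slice of hole type: a cross of ones. -/
def Cross1 (u : ℝ × ℝ → ℝ) : Prop := ∃ y₀ z₀, (∀ z, u (y₀, z) = 1) ∧ ∀ y, u (y, z₀) = 1

/-- A slice of band type in the first direction. -/
def BandY (u : ℝ × ℝ → ℝ) : Prop := (∀ y, ∃ z, u (y, z) = 0) ∧ ∀ y, ∃ z, u (y, z) = 1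

/-- The error of the two-valued test. -/
def err (u : ℝ × ℝ → ℝ) : ℝ := area2 fun p => u p * (1 - u p)

lemma err_nonneg {u : ℝ × ℝ → ℝ} (hu : Dens2 u) : 0 ≤ err u :=
  area2_nonneg fun p => mul_nonneg (hu.mem p).1 (by linarith [(hu.mem p).2])

lemma cont_abs_sub {u f : ℝ × ℝ → ℝ} (hu : Dens2 u) (hf : Dens2 f) :
    Continuous fun p => |u p - f p| :=
  (hu.smooth.continuous.sub hf.smooth.continuous).abs

lemma area2_abs_le {u f : ℝ × ℝ → ℝ} (hu : Dens2 u) (hf : Dens2 f) :
    |area2 u - area2 f| ≤ area2 fun p => |u p - f p| := by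
  have cu := hu.smooth.continuous
  have cf := hf.smooth.continuous
  have c := cont_abs_sub hu hf
  have h1 := area2_mono cu (cf.add c) fun p => by
    show u p ≤ f p + |u p - f p|
    linarith [le_abs_self (u p - f p)]
  have h2 := area2_mono cf (cu.add c) fun p => by
    show f p ≤ u p + |u p - f p|
    linarith [neg_le_abs (u p - f p)]
  have e1 := area2_add cf c
  have e2 := area2_add cu c
  rw [abs_le]
  constructor <;> simp only [Pi.add_def] at h1 h2 <;> linarith

lemma sq_eq {u : ℝ × ℝ → ℝ} (hu : Dens2 u) : (area2 fun p => u p ^ 2) = area2 u - err u := by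
  have c := hu.smooth.continuous
  have h := area2_add (F := fun p => u p ^ 2) (G := fun p => u p * (1 - u p)) (c.pow 2)
    (c.mul (continuous_const.sub c))
  rw [show (fun p => u p ^ 2 + u p * (1 - u p)) = u by funext p; ring] at h
  unfold err; linarith

lemma tv2_nonneg (u : ℝ × ℝ → ℝ) : 0 ≤ tv2 u :=
  intervalIntegral.integral_nonneg zero_le_one fun _ _ =>
    intervalIntegral.integral_nonneg zero_le_one fun _ _ => Real.sqrt_nonneg _

lemma dens2_one_sub {u : ℝ × ℝ → ℝ} (hu : Dens2 u) : Dens2 fun p => 1 - u p :=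
  ⟨contDiff_const.sub hu.smooth, fun y z => by simp [(hu.per y z).1, (hu.per y z).2],
    fun p => ⟨by linarith [(hu.mem p).2], by linarith [(hu.mem p).1]⟩⟩

/-- Disc type pays like a disc. -/
lemma cross0_tv {u : ℝ × ℝ → ℝ} (hu : Dens2 u) (h : Cross0 u) :
    √(π * (area2 u - err u)) ≤ tv2 u / 2 := by
  obtain ⟨y₀, z₀, hy, hz⟩ := h
  have h := planar_cut hu.smooth hu.per (fun p => (hu.mem p).1) y₀ z₀
  simp only [hy, hz, intervalIntegral.integral_zero, mul_zero, add_zero] at h
  rw [← sq_eq hu, Real.sqrt_mul Real.pi_pos.le]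
  change 2 * √π * √(area2 fun p => u p ^ 2) ≤ tv2 u at h
  linarith

/-- Hole type pays like a disc of the complement. -/
lemma cross1_tv {u : ℝ × ℝ → ℝ} (hu : Dens2 u) (h : Cross1 u) :
    √(π * (1 - area2 u - err u)) ≤ tv2 u / 2 := by
  obtain ⟨y₀, z₀, hy, hz⟩ := h
  have h := cross0_tv (dens2_one_sub hu) ⟨y₀, z₀, fun z => by simp [hy], fun y => by simp [hz]⟩
  have e1 : err (fun p => 1 - u p) = err u := by
    unfold err; congr 1; funext p; ring
  have e2 : tv2 (fun p => 1 - u p) = tv2 u := by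
    show area2 (grad2 fun p => 1 - u p) = area2 (grad2 u)
    congr 1; funext p; simp [grad2, fderiv_const_sub]
  rw [e1, e2, area2_one_sub hu.smooth.continuous] at h
  exact h

/-- Band type pays the two circuits, and more for the tilt. -/
lemma bandY_tv {u : ℝ × ℝ → ℝ} (hu : Dens2 u) (h : BandY u) :
    1 ≤ tv2 u / 2 ∧ ∀ k ∈ Icc (0 : ℝ) 1, ∀ y₀,
      k * (area2 u - ∫ z in (0 : ℝ)..1, u (y₀, z)) ≤ tv2 u / 2 - 1 + k ^ 2 / 6 + k ^ 4 / 10 := by
  have key : ∀ k ∈ Icc (0 : ℝ) 1, ∀ y₀,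
      k * (area2 u - ∫ z in (0 : ℝ)..1, u (y₀, z)) ≤ tv2 u / 2 - 1 + k ^ 2 / 6 + k ^ 4 / 10 :=
    fun k hk y₀ => by
    have h := band_cal hu.smooth hu.per (φ := fun x => x) (φ' := fun _ => 1) (lo := 0) (hi := 1)
      (fun x => hasDerivAt_id x) continuous_const (fun _ => zero_le_one) hk
      (fun y => (h.1 y).imp fun z e => e.le) (fun y => (h.2 y).imp fun z e => e.ge) y₀
    simp only [one_mul, sub_zero] at h
    change _ ≤ tv2 u at h
    linarith [bandC_ge hk]
  refine ⟨?_, key⟩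
  have := key 0 ⟨le_rfl, zero_le_one⟩ 0
  simp only [zero_mul, zero_pow two_ne_zero, zero_pow (by norm_num : (4 : ℕ) ≠ 0)] at this
  linarith

/-! ### Clipping to one level -/

lemma clip_pt {h x : ℝ} (hh : 0 < h) {s : ℝ} (hs : h ≤ s) (hs' : s + 3 * h ≤ 1) (h0 : 0 ≤ x)
    (h1 : x ≤ 1) :
    |lv h s x - x| ≤ 2 / h * (x * (1 - x)) ∧
      lv h s x * (1 - lv h s x) ≤ 2 / h * (x * (1 - x)) := by
  obtain ⟨u0, u1⟩ := lv_mem hh s x
  have hx : 0 ≤ x * (1 - x) := mul_nonneg h0 (by linarith)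
  have e : 2 / h * (x * (1 - x)) = 2 * (x * (1 - x)) / h := by ring
  rw [e]
  rcases le_or_gt x s with c | c
  · rw [lv_eq_zero hh c, zero_sub, abs_neg, abs_of_nonneg h0]
    have : x * h ≤ 2 * (x * (1 - x)) := by nlinarith
    exact ⟨(le_div_iff₀ hh).2 this, by rw [zero_mul]; positivity⟩
  rcases le_or_gt (s + 2 * h) x with d | d
  · rw [lv_eq_one hh d, abs_of_nonneg (by linarith : 0 ≤ 1 - x)]
    have : (1 - x) * h ≤ 2 * (x * (1 - x)) := by nlinarith
    exact ⟨(le_div_iff₀ hh).2 this, by rw [sub_self, mul_zero]; positivity⟩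
  · have hb : 1 * h ≤ 2 * (x * (1 - x)) := by
      nlinarith [mul_nonneg (sub_nonneg.2 (by linarith : h ≤ x)) (sub_nonneg.2 (by linarith : h ≤ 1 - x))]
    have h1' := (le_div_iff₀ hh).2 hb
    constructor
    · refine le_trans ?_ h1'
      rw [abs_le]; constructor <;> linarith
    · refine le_trans ?_ h1'
      nlinarith

lemma bad_card {N : ℕ} {h : ℝ} (hh : 0 < h) (th : ℝ) :
    ((Finset.range N).filter fun k : ℕ => (k : ℝ) * h < th ∧ th < (k : ℝ) * h + 2 * h).card
      ≤ 2 := by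
  refine (Finset.card_le_card (t := {⌊th / h⌋₊, ⌊th / h⌋₊ - 1}) fun k hk => ?_).trans
    Finset.card_le_two
  obtain ⟨-, h1, h2⟩ := Finset.mem_filter.1 hk
  have a : (k : ℝ) < th / h := (lt_div_iff₀ hh).2 h1
  have b : th / h < (k : ℝ) + 2 := (div_lt_iff₀ hh).2 (by linarith)
  have hn : 0 ≤ th / h := by linarith [Nat.cast_nonneg (α := ℝ) k]
  have c1 : k ≤ ⌊th / h⌋₊ := Nat.le_floor a.le
  have c2 : ⌊th / h⌋₊ < k + 2 := by
    rw [Nat.floor_lt hn]; push_cast; linarith
  simp only [Finset.mem_insert, Finset.mem_singleton]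
  omega

/-- A nearly two-valued slice is close to a two-valued slice of pure type. -/
lemma exists_clip {τ : ℝ} (hτ : 0 < τ) : ∃ K : ℝ, 0 ≤ K ∧ ∀ f, Dens2 f → tv2 f ≤ 3 →
    K * err f ≤ 3 → ∃ u, Dens2 u ∧ (Cross0 u ∨ Cross1 u ∨ BandY u ∨ BandY (u ∘ Prod.swap)) ∧
      tv2 u ≤ tv2 f + τ ∧ (area2 fun p => |u p - f p|) ≤ τ ∧ err u ≤ τ := by
  obtain ⟨N, hN⟩ := exists_nat_gt (max 100 (100 / τ))
  have hN0 : (0 : ℝ) < N := by linarith [le_max_left 100 (100 / τ)]
  set h : ℝ := 1 / N with hh'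
  have hh : 0 < h := by positivity
  have hNh : (N : ℝ) * h = 1 := by rw [hh']; field_simp
  have hτh : 100 * h ≤ τ := by
    have := (div_lt_iff₀ hτ).1 (lt_of_le_of_lt (le_max_right 100 (100 / τ)) hN)
    rw [hh', mul_one_div, div_le_iff₀ hN0]; linarith
  have h100 : 100 * h ≤ 1 := by
    rw [hh', mul_one_div, div_le_iff₀ hN0]; linarith [le_max_left 100 (100 / τ)]
  refine ⟨6 / (h * τ), by positivity, fun f hf hT hK => ?_⟩
  have hfc := hf.smooth.continuous
  -- the thresholds
  have hswap : Per2 (f ∘ Prod.swap) := fun y z => ⟨(hf.per z y).2, (hf.per z y).1⟩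
  have hneg : Per2 fun p => -f p := fun y z => by simp [(hf.per y z).1, (hf.per y z).2]
  have hnegs : Per2 fun p => -f (Prod.swap p) := fun y z => by
    simp [(hf.per z y).1, (hf.per z y).2]
  obtain ⟨a₁, ⟨ya, hya⟩, A₁⟩ := exists_maxmin hfc hf.per
  obtain ⟨a₂, ⟨za, hza⟩, A₂⟩ := exists_maxmin (hfc.comp continuous_swap) hswap
  obtain ⟨c₁, ⟨yb, hyb⟩, C₁⟩ := exists_maxmin hfc.neg hneg
  obtain ⟨c₂, ⟨zb, hzb⟩, C₂⟩ := exists_maxmin (hfc.comp continuous_swap).neg hnegs
  simp only [Function.comp_apply, Prod.swap_prod_mk] at hza A₂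
  have hab : a₂ ≤ -c₁ := (hza yb).trans (le_neg.1 (hyb za))
  have hba : a₁ ≤ -c₂ := (hya zb).trans (le_neg.1 (hzb ya))
  -- the good levels
  set bad : ℝ → Finset ℕ := fun th => (Finset.range N).filter fun k : ℕ =>
    (k : ℝ) * h < th ∧ th < (k : ℝ) * h + 2 * h with hbad
  set B : Finset ℕ := bad a₁ ∪ bad a₂ ∪ bad (-c₁) ∪ bad (-c₂) ∪ {0, N - 1, N - 2} with hB
  have hBc : B.card ≤ 11 := by
    have e1 := bad_card (N := N) hh a₁
    have e2 := bad_card (N := N) hh a₂
    have e3 := bad_card (N := N) hh (-c₁)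
    have e4 := bad_card (N := N) hh (-c₂)
    have e5 : ({0, N - 1, N - 2} : Finset ℕ).card ≤ 3 := Finset.card_le_three
    have u1 := Finset.card_union_le (bad a₁ ∪ bad a₂ ∪ bad (-c₁) ∪ bad (-c₂)) {0, N - 1, N - 2}
    have u2 := Finset.card_union_le (bad a₁ ∪ bad a₂ ∪ bad (-c₁)) (bad (-c₂))
    have u3 := Finset.card_union_le (bad a₁ ∪ bad a₂) (bad (-c₁))
    have u4 := Finset.card_union_le (bad a₁) (bad a₂)
    simp only [hbad] at u1 u2 u3 u4 e1 e2 e3 e4
    simp only [hB, hbad]
    omega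
  set S := Finset.range N \ B with hS
  have hSc : (N : ℝ) - 11 ≤ (S.card : ℝ) := by
    have := Finset.le_card_sdiff B (Finset.range N)
    rw [Finset.card_range, ← hS] at this
    have : N ≤ S.card + 11 := by omega
    have : (N : ℝ) ≤ (S.card : ℝ) + 11 := by exact_mod_cast this
    linarith
  have hS0 : (0 : ℝ) < S.card := by linarith [le_max_left 100 (100 / τ)]
  set r : ℕ → ℝ × ℝ → ℝ := fun k p => ramp h (f p - k * h) with hr
  set G := grad2 f
  have hGc : Continuous G := continuous_grad2 hf.smooth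
  have hrc : ∀ k, Continuous (r k) := fun k =>
    (continuous_ramp h).comp (hfc.sub continuous_const)
  set F : ℕ → ℝ × ℝ → ℝ := fun k p => (r k p - r (k + 1) p) * G p with hF
  have hFc : ∀ k, Continuous (F k) := fun k => ((hrc k).sub (hrc (k + 1))).mul hGc
  have htv : ∀ k : ℕ, tv2 (fun p => lv h (k * h) (f p)) = area2 (F k) / h := fun k => by
    show area2 (grad2 fun p => lv h (k * h) (f p)) = _
    rw [div_eq_inv_mul, ← area2_const_mul]
    congr 1; funext p
    rw [grad2_comp hf.smooth (hasDerivAt_lv h (k * h) (f p)), abs_div, abs_of_pos hh,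
      abs_of_nonneg (sub_nonneg.2 (ramp_mono hh (by linarith)))]
    simp only [hF, hr, Nat.cast_add, Nat.cast_one, add_mul, one_mul]
    ring
  have hsum : ∑ k ∈ S, area2 (F k) ≤ tv2 f := by
    rw [← area2_sum S hFc]
    refine area2_mono (continuous_finsetSum S fun k _ => hFc k) hGc fun p => ?_
    have hG0 : 0 ≤ G p := Real.sqrt_nonneg _
    refine (Finset.sum_le_sum_of_subset_of_nonneg Finset.sdiff_subset fun k _ _ => ?_).trans ?_
    · refine mul_nonneg (sub_nonneg.2 (ramp_mono hh ?_)) hG0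
      push_cast; linarith
    · simp only [hF]
      rw [← Finset.sum_mul, Finset.sum_range_sub' (fun k => r k p) N]
      refine mul_le_of_le_one_left hG0 ?_
      linarith [ramp_le_one h (f p - ((0 : ℕ) : ℝ) * h), ramp_nonneg h (f p - (N : ℝ) * h)]
  obtain ⟨k, hk, hmin⟩ := Finset.exists_min_image S (fun k => area2 (F k))
    (Finset.card_pos.1 (by exact_mod_cast hS0))
  have hk' := hsum
  have hle : (S.card : ℝ) * area2 (F k) ≤ tv2 f := by
    refine le_trans (le_of_eq ?_) ((Finset.sum_le_sum fun j hj => hmin j hj).trans hsum)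
    simp
  set s : ℝ := k * h with hsdef
  obtain ⟨hkN, hkB⟩ := Finset.mem_sdiff.1 hk
  have hkr := Finset.mem_range.1 hkN
  simp only [hB, hbad, Finset.mem_union, Finset.mem_filter, Finset.mem_insert,
    Finset.mem_singleton, not_or, not_and, not_lt] at hkB
  obtain ⟨⟨⟨⟨g1, g2⟩, g3⟩, g4⟩, k0, k1, k2⟩ := hkB
  have hs : h ≤ s := by
    have : (1 : ℝ) ≤ k := by exact_mod_cast (by omega : 1 ≤ k)
    rw [hsdef]; nlinarith
  have hs' : s + 3 * h ≤ 1 := by
    have : (k : ℝ) + 3 ≤ N := by exact_mod_cast (by omega : k + 3 ≤ N)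
    rw [hsdef, ← hNh]; nlinarith
  have good : ∀ th, (k ∈ Finset.range N → (k : ℝ) * h < th → (k : ℝ) * h + 2 * h ≤ th) →
      th ≤ s ∨ s + 2 * h ≤ th := fun th g => (le_or_gt th s).imp id (g hkN)
  have d1 := good a₁ g1
  have d2 := good a₂ g2
  have d3 := good (-c₁) g3
  have d4 := good (-c₂) g4
  set u : ℝ × ℝ → ℝ := fun p => lv h s (f p) with hu
  have hud : Dens2 u := ⟨(contDiff_lv h s).comp hf.smooth,
    fun y z => by simp [hu, (hf.per y z).1, (hf.per y z).2], fun p => lv_mem hh s _⟩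
  have z0 : ∀ {p}, f p ≤ s → u p = 0 := fun hp => lv_eq_zero hh hp
  have z1 : ∀ {p}, s + 2 * h ≤ f p → u p = 1 := fun hp => lv_eq_one hh hp
  refine ⟨u, hud, ?_, ?_, ?_, ?_⟩
  · rcases d1 with d1 | d1
    · rcases d3 with d3 | d3
      · rcases d4 with d4 | d4
        · exact Or.inl ⟨yb, zb, fun z => z0 (le_trans (le_neg.1 (hyb z)) d3),
            fun y => z0 (le_trans (le_neg.1 (hzb y)) d4)⟩
        · rcases d2 with d2 | d2
          · refine Or.inr (Or.inr (Or.inr ⟨fun z => (A₂ z).imp fun y e => z0 (le_trans e d2),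
              fun z => (C₂ z).imp fun y e => z1 (le_trans d4 (neg_le.1 e))⟩))
          · linarith
      · exact Or.inr (Or.inr (Or.inl ⟨fun y => (A₁ y).imp fun z e => z0 (le_trans e d1),
          fun y => (C₁ y).imp fun z e => z1 (le_trans d3 (neg_le.1 e))⟩))
    · rcases d2 with d2 | d2
      · rcases d4 with d4 | d4
        · linarith
        · exact Or.inr (Or.inr (Or.inr ⟨fun z => (A₂ z).imp fun y e => z0 (le_trans e d2),
            fun z => (C₂ z).imp fun y e => z1 (le_trans d4 (neg_le.1 e))⟩))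
      · exact Or.inr (Or.inl ⟨ya, za, fun z => z1 (d1.trans (hya z)),
          fun y => z1 (d2.trans (hza y))⟩)
  · rw [show u = fun p => lv h ((k : ℕ) * h) (f p) from rfl, htv k, div_le_iff₀ hh]
    have : (1 - 11 * h) * area2 (F k) ≤ h * tv2 f := by
      have h3 : 0 ≤ area2 (F k) := area2_nonneg fun p =>
        mul_nonneg (sub_nonneg.2 (ramp_mono hh (by push_cast; linarith))) (Real.sqrt_nonneg _)
      nlinarith [mul_le_mul_of_nonneg_left hle hh.le, mul_le_mul_of_nonneg_right hSc h3]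
    have h4 : area2 (F k) ≤ 4 * h := by
      nlinarith [mul_le_mul_of_nonneg_left hT hh.le]
    nlinarith
  all_goals
    have hr' : Continuous fun p => f p * (1 - f p) := hfc.mul (continuous_const.sub hfc)
    have he : 2 / h * err f ≤ τ := by
      have h6 : 6 / (h * τ) * err f = 3 / τ * (2 / h * err f) := by field_simp; ring
      rw [h6] at hK
      rw [div_mul_eq_mul_div, div_le_iff₀ hτ] at hK
      linarith
  · refine le_trans (le_trans (area2_mono (cont_abs_sub hud hf)
      (continuous_const.mul hr') fun p => (clip_pt hh hs hs' (hf.mem p).1 (hf.mem p).2).1)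
      (le_of_eq (area2_const_mul _ _))) he
  · refine le_trans (le_trans (area2_mono
      (hud.smooth.continuous.mul (continuous_const.sub hud.smooth.continuous))
      (continuous_const.mul hr') fun p => (clip_pt hh hs hs' (hf.mem p).1 (hf.mem p).2).2)
      (le_of_eq (area2_const_mul _ _))) he

/-! ### A band and a disc are far apart -/

lemma proj_le {v : ℝ × ℝ → ℝ} (hv : Dens2 v) (h : ∀ y, ∃ z, v (y, z) = 0) :
    2 * wide v ≤ area2 fun p => |fderiv ℝ v p (0, 1)| := by
  have hc := hv.smooth.continuous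
  rw [wide, ← intervalIntegral.integral_const_mul]
  refine intervalIntegral.integral_mono_on zero_le_one
    ((continuous_const.mul (continuous_hiLine hc)).intervalIntegrable _ _)
    ((cont_inner ((hv.smooth.continuous_fderiv one_ne_zero).clm_apply
      continuous_const).abs).intervalIntegrable _ _) fun y _ => ?_
  obtain ⟨z₁, hz₁⟩ := h y
  obtain ⟨z₂, hz₂⟩ := (hiLine_spec hc hv.per y).2
  have hvd : ∀ z, HasDerivAt (fun z => v (y, z)) (fderiv ℝ v (y, z) (0, 1)) z := fun z =>
    (hv.smooth.differentiable one_ne_zero (y, z)).hasFDerivAt.comp_hasDerivAt z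
      ((hasDerivAt_const z y).prodMk (hasDerivAt_id z))
  have h := line_osc (g := fun z => v (y, z))
    (hv.smooth.comp (contDiff_const.prodMk contDiff_id)) (fun z => (hv.per y z).2) z₁ z₂
  simp only [fun z => (hvd z).deriv, hz₁, hz₂, sub_zero] at h
  exact h

lemma proj_pair {v : ℝ × ℝ → ℝ} (hv : Dens2 v) (h : Cross0 v) :
    wide v ^ 2 + wide (v ∘ Prod.swap) ^ 2 ≤ (tv2 v / 2) ^ 2 := by
  obtain ⟨y₀, z₀, hy, hz⟩ := h
  have hs := hv.swap
  have h1 := proj_le hv fun y => ⟨z₀, hz y⟩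
  have h2 := proj_le hs fun z => ⟨y₀, hy z⟩
  have hD : ∀ d, Continuous fun p => |fderiv ℝ v p d| := fun d =>
    ((hv.smooth.continuous_fderiv one_ne_zero).clm_apply continuous_const).abs
  have e : (fun p => |fderiv ℝ (v ∘ Prod.swap) p (0, 1)|) =
      fun p : ℝ × ℝ => |fderiv ℝ v p.swap (1, 0)| := by
    funext p
    have hd : HasFDerivAt (v ∘ Prod.swap) _ p :=
      (hv.smooth.differentiable one_ne_zero p.swap).hasFDerivAt.comp p
        (hasFDerivAt_snd.prodMk hasFDerivAt_fst)
    rw [hd.fderiv]; simp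
  rw [e, area2_swap (hD (1, 0))] at h2
  have h3 := Axis.sqrt_le_area2 (hD (1, 0)) (hD (0, 1))
  have e3 : (area2 fun q => √(|fderiv ℝ v q (1, 0)| ^ 2 + |fderiv ℝ v q (0, 1)| ^ 2)) = tv2 v := by
    show _ = area2 (grad2 v)
    congr 1; funext q; simp [grad2, sq_abs]
  rw [e3, Real.sqrt_le_left (tv2_nonneg v)] at h3
  have p0 : ∀ {g : ℝ × ℝ → ℝ}, Dens2 g → 0 ≤ wide g := fun hg =>
    intervalIntegral.integral_nonneg zero_le_one fun y _ => (hiLine_mem hg y).1
  nlinarith [mul_self_le_mul_self (mul_nonneg zero_le_two (p0 hv)) h1,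
    mul_self_le_mul_self (mul_nonneg zero_le_two (p0 hs)) h2]

/-- The distance between a band and a disc of almost the same area. -/
lemma band_disc_far {u v : ℝ × ℝ → ℝ} (hu : Dens2 u) (hv : Dens2 v) (hb : BandY u) (hc : Cross0 v)
    {τ : ℝ} (hτ : τ ≤ 1 / 10 ^ 7) (hul : tv2 u / 2 ≤ 10094 / 10000 + τ)
    (hvl : tv2 v / 2 ≤ 1 + τ) (heu : 31830 / 100000 ≤ area2 u) (hev : err v ≤ τ)
    (hav : 31230 / 100000 - τ ≤ area2 v) (hd : area2 u - area2 v ≤ 6 / 1000 + 2 * τ) :
    7153 / 100000 ≤ area2 fun p => |u p - v p| := by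
  have cu := hu.smooth.continuous
  have cv := hv.smooth.continuous
  -- every line of the band has mass
  have hm : ∀ y, 23783 / 100000 ≤ ∫ z in (0 : ℝ)..1, u (y, z) := fun y => by
    have := (bandY_tv hu hb).2 (235 / 1000) ⟨by norm_num, by norm_num⟩ y
    nlinarith
  -- the two widths of the disc
  have hW : 548 / 1000 < wide (v ∘ Prod.swap) := by
    by_contra hle
    push Not at hle
    obtain ⟨y₀, z₀, hy, hz⟩ := hc
    have h := width_cal hv.swap (fun z => ⟨y₀, hy z⟩) (y₀ := z₀) (fun y => hz y) hle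
    rw [tv2_swap hv.smooth, show (area2 fun p => (v ∘ Prod.swap) p ^ 2) = area2 fun p => v p ^ 2
      from area2_swap (F := fun p => v p ^ 2) (cv.pow 2), sq_eq hv] at h
    have hp := Real.pi_gt_d4
    have hp' := Real.pi_lt_d4
    have hbr : π / 4 * (548 / 1000) ^ 2 ≤ area2 v - err v := by nlinarith
    rw [csW, if_pos hbr] at h
    have : 1 + 1 / 100000 ≤ (area2 v - err v) / (548 / 1000) + π / 4 * (548 / 1000) := by
      rw [div_eq_mul_inv _ (548 / 1000 : ℝ)]
      norm_num
      nlinarith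
    linarith
  have hW0 : 0 ≤ wide v :=
    intervalIntegral.integral_nonneg zero_le_one fun y _ => (hiLine_mem hv y).1
  have hW' : wide v ≤ 837 / 1000 := by
    have := proj_pair hv hc
    have : (tv2 v / 2) ^ 2 ≤ (1 + τ) ^ 2 :=
      pow_le_pow_left₀ (by linarith [tv2_nonneg v]) hvl 2
    have hτ0 : 0 ≤ τ := (err_nonneg hv).trans hev
    have hW2 := mul_self_le_mul_self (by norm_num : (0 : ℝ) ≤ 548 / 1000) hW.le
    nlinarith [mul_le_mul_of_nonneg_right hτ hτ0]
  -- the overlap
  have chi : Continuous fun p : ℝ × ℝ => hiLine v p.1 :=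
    (continuous_hiLine cv).comp continuous_fst
  have cL : Continuous fun p : ℝ × ℝ => (1 - hiLine v p.1) * u p :=
    (continuous_const.sub chi).mul cu
  have cd := cont_abs_sub hu hv
  have ce : Continuous fun p => v p * (1 - v p) := cv.mul (continuous_const.sub cv)
  have h1 : 2 * (area2 fun p => (1 - hiLine v p.1) * u p) ≤
      (area2 fun p => |u p - v p|) + (area2 u - area2 v) + 2 * err v := by
    have c2L : Continuous fun p : ℝ × ℝ => 2 * ((1 - hiLine v p.1) * u p) := continuous_const.mul cL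
    have c2e : Continuous fun p => 2 * (v p * (1 - v p)) := continuous_const.mul ce
    have hpt := area2_mono c2L (((cd.fun_add cu).fun_sub cv).fun_add c2e) fun p => by
      have hi1 := (hiLine_spec cv hv.per p.1).1 p.2
      have hi0 := hiLine_mem hv p.1
      show 2 * ((1 - hiLine v p.1) * u p) ≤ |u p - v p| + u p - v p + 2 * (v p * (1 - v p))
      nlinarith [mul_le_mul_of_nonneg_right hi1 (hv.mem p).1,
        mul_nonneg (sub_nonneg.2 hi0.2) (sub_nonneg.2 (le_abs_self (u p - v p))),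
        mul_nonneg hi0.1 (by linarith [neg_le_abs (u p - v p)] : 0 ≤ |u p - v p| + (u p - v p))]
    rw [area2_const_mul, area2_add ((cd.fun_add cu).fun_sub cv) c2e,
      area2_const_mul] at hpt
    have e1 := area2_add ((cd.fun_add cu).fun_sub cv) cv
    simp only [sub_add_cancel] at e1
    rw [area2_add cd cu] at e1
    unfold err
    linarith
  have h2 : 23783 / 100000 * (1 - wide v) ≤ area2 fun p => (1 - hiLine v p.1) * u p := by
    have e : 23783 / 100000 * (1 - wide v) = ∫ y in (0 : ℝ)..1, 23783 / 100000 * (1 - hiLine v y) := by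
      rw [intervalIntegral.integral_const_mul, intervalIntegral.integral_sub intervalIntegrable_const
        ((continuous_hiLine cv).intervalIntegrable _ _)]
      simp [wide]
    rw [e]
    refine intervalIntegral.integral_mono_on zero_le_one
      ((continuous_const.mul (continuous_const.sub (continuous_hiLine cv))).intervalIntegrable _ _)
      ((cont_inner cL).intervalIntegrable _ _) fun y _ => ?_
    show _ ≤ ∫ z in (0 : ℝ)..1, (1 - hiLine v y) * u (y, z)
    rw [intervalIntegral.integral_const_mul, mul_comm]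
    exact mul_le_mul_of_nonneg_left (hm y) (sub_nonneg.2 (hiLine_mem hv y).2)
  nlinarith

/-! ### The two kinds of cheap slices -/

/-- A slice cheaper than a disc is a band, a slice cheaper than a band is a disc. -/
lemma cheap_slices {δ τ : ℝ} (hτ : 0 < τ) (hτ7 : τ ≤ 1 / 10 ^ 7) (hτδ : τ ≤ δ / 2)
    (hτ2 : τ ≤ δ ^ 2 / 100) : ∃ K : ℝ, 0 ≤ K ∧ ∀ f, Dens2 f →
      area2 f ≤ 325 / 1000 →
      (tv2 f / 2 + δ + K * err f < √(π * area2 f) → 1 < √(π * area2 f) ∧
        ∃ u, Dens2 u ∧ (BandY u ∨ BandY (u ∘ Prod.swap)) ∧ tv2 u / 2 ≤ √(π * area2 f) + τ ∧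
          (area2 fun p => |u p - f p|) ≤ τ) ∧
      (tv2 f / 2 + δ + K * err f < 1 → ∃ u, Dens2 u ∧ Cross0 u ∧ tv2 u / 2 ≤ 1 + τ ∧
          (area2 fun p => |u p - f p|) ≤ τ ∧ err u ≤ τ) := by
  obtain ⟨K, hK, hclip⟩ := exists_clip hτ
  refine ⟨K, hK, fun f hf hA => ?_⟩
  have hp := Real.pi_lt_d4
  have hp' := Real.pi_gt_d4
  have hA0 : 0 ≤ area2 f := area2_nonneg fun p => (hf.mem p).1
  have hr : √(π * area2 f) ≤ 1011 / 1000 := by
    rw [Real.sqrt_le_left (by norm_num)]; nlinarith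
  have h0 : 0 ≤ K * err f := mul_nonneg hK (err_nonneg hf)
  -- the common part
  have main : tv2 f / 2 + δ + K * err f < 1011 / 1000 → ∃ u, Dens2 u ∧
      ((Cross0 u ∧ √(π * area2 f) ≤ tv2 f / 2 + δ) ∨
        ((BandY u ∨ BandY (u ∘ Prod.swap)) ∧ 1 ≤ tv2 u / 2)) ∧
      tv2 u / 2 ≤ tv2 f / 2 + τ ∧ (area2 fun p => |u p - f p|) ≤ τ ∧ err u ≤ τ := fun hlt => by
    have := tv2_nonneg f
    obtain ⟨u, hu, ht, h1, h2, h3⟩ := hclip f hf (by linarith) (by linarith)
    have hd := abs_le.1 ((area2_abs_le hu hf).trans h2)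
    refine ⟨u, hu, ?_, by linarith, h2, h3⟩
    rcases ht with ht | ht | ht | ht
    · refine Or.inl ⟨ht, ?_⟩
      have hc := cross0_tv hu ht
      have he := err_nonneg hu
      set M := area2 u - err u
      have hM : 0 ≤ M := by
        show 0 ≤ area2 u - err u
        rw [← sq_eq hu]; exact area2_nonneg fun p => sq_nonneg _
      have hgap : √(π * area2 f) ≤ √(π * M) + √(π * (2 * τ)) := by
        have hle : π * area2 f ≤ π * M + π * (2 * τ) := by
          rw [← mul_add]
          refine mul_le_mul_of_nonneg_left ?_ Real.pi_pos.le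
          show area2 f ≤ area2 u - err u + 2 * τ
          linarith
        exact (Real.sqrt_le_sqrt hle).trans (sqrt_add_le' (by positivity) (by positivity))
      have hsm : √(π * (2 * τ)) ≤ δ / 2 := by
        rw [Real.sqrt_le_left (by linarith)]; nlinarith
      linarith
    · exfalso
      have hc := cross1_tv hu ht
      have : 11 / 10 ≤ √(π * (1 - area2 u - err u)) :=
        Real.le_sqrt_of_sq_le (by nlinarith)
      linarith
    · exact Or.inr ⟨Or.inl ht, (bandY_tv hu ht).1⟩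
    · refine Or.inr ⟨Or.inr ht, ?_⟩
      have := (bandY_tv hu.swap ht).1
      rwa [tv2_swap hu.smooth] at this
  refine ⟨fun hlt => ?_, fun hlt => ?_⟩
  · obtain ⟨u, hu, ht, h1, h2, -⟩ := main (by linarith)
    rcases ht with ⟨-, hc⟩ | ⟨ht, h4⟩
    · linarith
    · exact ⟨by linarith, u, hu, ht, by linarith, h2⟩
  · obtain ⟨u, hu, ht, h1, h2, h3⟩ := main (by linarith)
    rcases ht with ⟨ht, -⟩ | ⟨-, h4⟩
    · exact ⟨u, hu, ht, by linarith, h2, h3⟩
    · linarith

/-! ### The variation along the axis -/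

variable {w : (ℝ × ℝ × ℝ) → ℝ}

lemma sec_dist (hw : Dens w) (t₁ t₂ : ℝ) :
    (area2 fun p => |sec w t₁ p - sec w t₂ p|) ≤ (int3 fun p => |fderiv ℝ w p e₁|) / 2 := by
  have hd : Continuous fun p => |fderiv ℝ w p e₁| := (continuous_dir hw e₁).abs
  rw [le_div_iff₀ two_pos, mul_comm, ← area2_const_mul, ← int3_col hd]
  refine area2_mono (continuous_const.mul
    (cont_abs_sub (dens2_sec hw t₁) (dens2_sec hw t₂))) (continuous_col hd) fun p => ?_
  have hg : ∀ t, HasDerivAt (fun t => w (t, p)) (fderiv ℝ w (t, p) e₁) t := fun t =>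
    (hw.smooth.differentiable two_ne_zero (t, p)).hasFDerivAt.comp_hasDerivAt t
      ((hasDerivAt_id t).prodMk (hasDerivAt_const t p))
  have hp : Function.Periodic (fun t => w (t, p)) 1 := fun t => by
    have h := (hw.per (t, p)).1
    simpa [e₁, Prod.mk_zero_zero] using h
  have hs : ContDiff ℝ 1 fun t => w (t, p) :=
    (hw.smooth.of_le one_le_two).comp (contDiff_id.prodMk contDiff_const)
  have a := line_osc hs hp t₁ t₂
  have b := line_osc hs hp t₂ t₁
  simp only [fun t => (hg t).deriv] at a b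
  show 2 * |w (t₁, p) - w (t₂, p)| ≤ _
  rcases abs_choice (w (t₁, p) - w (t₂, p)) with e | e <;> rw [e] <;> linarith

lemma cont_gnorm (hw : Dens w) : Continuous (gnorm w) :=
  ((((continuous_dir hw e₁).pow 2).add ((continuous_dir hw e₂).pow 2)).add
    ((continuous_dir hw e₃).pow 2)).sqrt

/-- A fixed split of the gradient between the slice and the axis. -/
lemma split_le (hw : Dens w) {c₁ c₂ : ℝ} (h : c₁ ^ 2 + c₂ ^ 2 ≤ 1) :
    c₁ * (∫ t in (0 : ℝ)..1, area2 fun q => grad2 (sec w t) q)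
      + c₂ * int3 (fun p => |fderiv ℝ w p e₁|) ≤ int3 (gnorm w) := by
  set P : (ℝ × ℝ × ℝ) → ℝ := fun p => √(fderiv ℝ w p e₂ ^ 2 + fderiv ℝ w p e₃ ^ 2) with hP
  have hPc : Continuous P := (((continuous_dir hw e₂).pow 2).add ((continuous_dir hw e₃).pow 2)).sqrt
  have hd : Continuous fun p => |fderiv ℝ w p e₁| := (continuous_dir hw e₁).abs
  have e : ∀ t q, grad2 (sec w t) q = P (t, q) := fun t q => by
    have hf : HasFDerivAt (sec w t)
        ((fderiv ℝ w (t, q)).comp (ContinuousLinearMap.inr ℝ ℝ (ℝ × ℝ))) q :=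
      (hw.smooth.differentiable two_ne_zero (t, q)).hasFDerivAt.comp q
        ((hasFDerivAt_const t q).prodMk (hasFDerivAt_id q))
    rw [grad2, hf.fderiv]
    simp [hP, e₂, e₃]
  simp only [e, int3_eq]
  have cA : Continuous fun t => c₁ * area2 fun q => P (t, q) :=
    continuous_const.mul (continuous_sec hPc)
  have cB : Continuous fun t => c₂ * area2 fun q => |fderiv ℝ w (t, q) e₁| :=
    continuous_const.mul (continuous_sec hd)
  rw [← intervalIntegral.integral_const_mul, ← intervalIntegral.integral_const_mul,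
    ← intervalIntegral.integral_add (cA.intervalIntegrable _ _) (cB.intervalIntegrable _ _)]
  refine intervalIntegral.integral_mono_on zero_le_one
    ((cA.add cB).intervalIntegrable _ _)
    ((continuous_sec (cont_gnorm hw)).intervalIntegrable _ _) fun t _ => ?_
  have cc : ∀ {F : ℝ × ℝ × ℝ → ℝ}, Continuous F → Continuous fun q : ℝ × ℝ => F (t, q) :=
    fun hF => hF.comp (continuous_const.prodMk continuous_id)
  show c₁ * (area2 fun q => P (t, q)) + c₂ * (area2 fun q => |fderiv ℝ w (t, q) e₁|) ≤ _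
  have qA : Continuous fun q => c₁ * P (t, q) := continuous_const.mul (cc hPc)
  have qB : Continuous fun q => c₂ * |fderiv ℝ w (t, q) e₁| := continuous_const.mul (cc hd)
  rw [← Axis.area2_const_mul, ← Axis.area2_const_mul, ← area2_add qA qB]
  refine area2_mono (qA.add qB)
    (cc (cont_gnorm hw)) fun q => ?_
  have hp : P (t, q) ^ 2 = fderiv ℝ w (t, q) e₂ ^ 2 + fderiv ℝ w (t, q) e₃ ^ 2 :=
    Real.sq_sqrt (by positivity)
  show _ ≤ √_
  refine Real.le_sqrt_of_sq_le ?_
  show _ ≤ fderiv ℝ w (t, q) e₁ ^ 2 + fderiv ℝ w (t, q) e₂ ^ 2 + fderiv ℝ w (t, q) e₃ ^ 2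
  set X := fderiv ℝ w (t, q) e₁
  nlinarith [sq_nonneg (c₁ * |X| - c₂ * P (t, q)), sq_abs X, sq_nonneg X, sq_nonneg (P (t, q))]

/-- The concavity loss of the profile. -/
lemma gfun_line {f a x : ℝ} (hfc : f ≤ 1 / π) (hca : 1 / π < a) (hD : a - f ≤ 6 / 1000)
    (h : x ∈ Icc f a) :
    1 - 158 / 100 * ((a - x) * (1 / π - f) / (a - f)) ≤ gfun x := by
  have hp := Real.pi_lt_d4
  have hp' := Real.pi_gt_d4
  have hπ := Real.pi_pos
  have hc : π * (1 / π) = 1 := by field_simp
  have hcl : (318307 : ℝ) / 1000000 ≤ 1 / π := by rw [le_div_iff₀ hπ]; nlinarith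
  have hcu : 1 / π ≤ 318315 / 1000000 := by rw [div_le_iff₀ hπ]; linarith [Real.pi_gt_d6]
  set c := 1 / π
  have haf : 0 < a - f := by linarith
  set P := (a - x) * (c - f) / (a - f)
  have hP0 : 0 ≤ P := div_nonneg (mul_nonneg (by linarith [h.2]) (by linarith)) haf.le
  have h1 : 1 ≤ √(π * (1 - x)) := by
    rw [Real.one_le_sqrt]; nlinarith [h.2]
  rcases le_or_gt c x with hx | hx
  · have : gfun x = 1 := by
      unfold gfun
      rw [min_eq_right (Real.one_le_sqrt.2 (by nlinarith)), min_eq_left h1]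
    linarith
  · have hs0 : 99 / 100 ≤ √(π * x) := Real.le_sqrt_of_sq_le (by nlinarith [h.1])
    have hs1 : √(π * x) ≤ 1 := Real.sqrt_le_one.2 (by nlinarith)
    have e : gfun x = √(π * x) := by
      unfold gfun
      rw [min_eq_left hs1, min_eq_left (hs1.trans h1)]
    rw [e]
    have hP : c - x ≤ P := by
      rw [le_div_iff₀ haf]
      nlinarith [mul_nonneg (sub_nonneg.2 h.1) (sub_nonneg.2 hca.le)]
    have hsq := Real.sq_sqrt (show 0 ≤ π * x by nlinarith [h.1])
    nlinarith

/-- Round slices of almost constant area pay for the change of the area. -/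
lemma round_slack {v f a P : ℝ} (hf : 4 / 25 ≤ f) (hfv : f ≤ v) (hva : v ≤ a) (ha : a ≤ 33 / 100)
    (hP : Low (fun x => √(π * x)) v f a P) : √(π * v) + (a - f) ^ 2 / 20 ≤ P := by
  have hf0 : 0 ≤ f := by linarith
  have hv : 0 ≤ v := hf0.trans hfv
  set p := √a
  set q := √f
  set u := √v
  have hp2 : p ^ 2 = a := Real.sq_sqrt (hv.trans hva)
  have hq2 : q ^ 2 = f := Real.sq_sqrt hf0
  have hu2 : u ^ 2 = v := Real.sq_sqrt hv
  have hqu : q ≤ u := Real.sqrt_le_sqrt hfv
  have hup : u ≤ p := Real.sqrt_le_sqrt hva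
  have hq : 2 / 5 ≤ q := Real.le_sqrt_of_sq_le (by linarith)
  have hp : p ≤ 575 / 1000 := Real.sqrt_le_iff.2 ⟨by norm_num, by linarith⟩
  have hpos : 0 < p + q := by linarith
  have main := hP (√π / (p + q)) (√π * p * q / (p + q)) (rbeta p q)
    (by rw [← hp2, ← hq2]; exact rbeta_cont (Real.sqrt_nonneg _))
    fun x hx => rbeta_adm (Real.sqrt_nonneg _) hpos (by rw [hq2]; exact hx.1)
      (by rw [hp2]; exact hx.2) (Real.sqrt_nonneg _)
  have hI := integral_rbeta_ge (Real.sqrt_nonneg f) (hqu.trans hup) hpos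
  rw [hp2, hq2] at hI
  have hB : (√π * (v + p * q) + (2 / 3 * (p - q) ^ 3 + π / 2 * (p - q) ^ 2 * q)) / (p + q) ≤ P := by
    refine le_trans ?_ ((add_le_add_right hI _).trans main)
    exact le_of_eq (by ring)
  refine le_trans ?_ hB
  rw [le_div_iff₀ hpos, Real.sqrt_mul Real.pi_pos.le, ← hu2, ← hp2, ← hq2]
  change (√π * √(u ^ 2) + _) * _ ≤ _
  rw [Real.sqrt_sq (Real.sqrt_nonneg v)]
  obtain ⟨hs, hs'⟩ := sqrt_pi_five
  have h3 : (p + q) ^ 3 ≤ (23 / 20) ^ 3 := pow_le_pow_left₀ hpos.le (by linarith) 3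
  have hsq : 0 ≤ (p - q) ^ 2 := sq_nonneg _
  have hr : √π * ((p - u) * (u - q)) ≤ 44312 / 100000 * (p - q) ^ 2 := by
    have h1 : (p - u) * (u - q) ≤ (p - q) ^ 2 / 4 := by nlinarith [sq_nonneg ((p - u) - (u - q))]
    have h2 := mul_le_mul_of_nonneg_left h1 (Real.sqrt_nonneg π)
    have h4 := mul_le_mul_of_nonneg_right hs' hsq
    linarith
  have hi : 62830 / 100000 * (p - q) ^ 2 ≤ π / 2 * (p - q) ^ 2 * q := by
    have h1 : 62830 / 100000 ≤ π / 2 * q := by nlinarith [Real.pi_gt_d4]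
    nlinarith [mul_le_mul_of_nonneg_right h1 hsq]
  have hd : (p ^ 2 - q ^ 2) ^ 2 / 20 * (p + q) ≤ 77 / 1000 * (p - q) ^ 2 := by
    rw [show (p ^ 2 - q ^ 2) ^ 2 / 20 * (p + q) = (p - q) ^ 2 * ((p + q) ^ 3 / 20) by ring]
    nlinarith [mul_le_mul_of_nonneg_left h3 hsq]
  have hc : 0 ≤ 2 / 3 * (p - q) ^ 3 :=
    mul_nonneg (by norm_num) (pow_nonneg (by linarith) 3)
  nlinarith

/-- The greatest loss from the concavity of the profile. -/
lemma loss_le {f a v c : ℝ} (hπc : π * c = 1) (hfc : f < c) (hca : c < a) (hfv : f ≤ v)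
    (hD : a - f ≤ 6 / 1000) :
    min 1 √(π * v) ≤ 1 - 158 / 100 * ((a - v) * (c - f) / (a - f)) + 2432 / 1000000 := by
  have hπ := Real.pi_pos
  have haf : 0 < a - f := by linarith
  rcases le_or_gt c v with hcv | hcv
  · refine (min_le_left _ _).trans ?_
    have hP : (a - v) * (c - f) / (a - f) ≤ (a - f) / 4 := by
      rw [div_le_iff₀ haf]
      have := mul_le_mul_of_nonneg_right (by linarith : a - v ≤ a - c) (sub_nonneg.2 hfc.le)
      nlinarith [sq_nonneg ((a - c) - (c - f))]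
    linarith
  · refine (min_le_right _ _).trans ?_
    have hr : √(π * v) ≤ 1 - π * (c - v) / 2 := by
      have h0 : 0 ≤ 1 - π * (c - v) / 2 := by nlinarith [Real.pi_lt_d4]
      rw [Real.sqrt_le_left h0, show π * v = 1 - π * (c - v) by linear_combination hπc]
      nlinarith [sq_nonneg (π * (c - v))]
    have hP : (a - v) * (c - f) / (a - f) ≤ (a - f) / 4 + (c - v) := by
      rw [div_le_iff₀ haf]
      have hsum : (a - c) + (v - f) ≤ a - f := by linarith
      nlinarith [sq_nonneg ((a - c) - (v - f)),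
        mul_self_le_mul_self (by linarith : 0 ≤ (a - c) + (v - f)) hsum]
    have := mul_le_mul_of_nonneg_right (Real.pi_gt_d4.le) (by linarith : 0 ≤ c - v)
    linarith

lemma gfun_eq_one {x : ℝ} (h0 : 1 / π ≤ x) (h1 : x ≤ 6 / 10) : gfun x = 1 := by
  have hπ := Real.pi_pos
  have hc : 1 ≤ π * x := by
    have := mul_le_mul_of_nonneg_left h0 hπ.le
    rwa [mul_one_div, div_self hπ.ne'] at this
  unfold gfun
  rw [min_eq_right (Real.one_le_sqrt.2 hc),
    min_eq_left (Real.one_le_sqrt.2 (by nlinarith [Real.pi_gt_three]))]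

end NearTube

open NearTube

/-- Volumes near that of the critical tube: one axis with slice areas within `0.006` suffices, and
the change of the slice area is paid in addition. -/
theorem near_tube_strict {δ : ℝ} (hδ : 0 < δ) : ∃ K : ℝ, 0 ≤ K ∧ ∀ w, Dens w → ∀ t₀ t₁ : ℝ,
    (∀ t, secA w t₀ ≤ secA w t) → (∀ t, secA w t ≤ secA w t₁) →
    1 / 6 ≤ int3 w → int3 w ≤ 1 / 2 → secA w t₁ - secA w t₀ ≤ 6 / 1000 →
      min 1 √(π * int3 w) + (secA w t₁ - secA w t₀) ^ 2 / 20 ≤
        int3 (gnorm w) / 2 + δ + K * int3 (fun p => w p * (1 - w p)) := by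
  set τ := min (1 / 10 ^ 7) (min (δ / 2) (δ ^ 2 / 100))
  have hτ : 0 < τ := by positivity
  obtain ⟨K₁, hK₁, hT⟩ := torus2_lower hδ
  obtain ⟨K₂, hK₂, hC⟩ := cheap_slices hτ (min_le_left _ _)
    ((min_le_right _ _).trans (min_le_left _ _)) ((min_le_right _ _).trans (min_le_right _ _))
  refine ⟨K₁ + K₂, by positivity, fun w hw t₀ t₁ h0 h1 hv0 hv1 hD => ?_⟩
  obtain ⟨hfv, hva⟩ := mean_mem hw h0 h1
  set v := int3 w with hv
  set f := secA w t₀
  set a := secA w t₁
  set K := K₁ + K₂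
  have hF : Continuous fun p => w p * (1 - w p) :=
    hw.smooth.continuous.mul (continuous_const.sub hw.smooth.continuous)
  set E := int3 fun p => w p * (1 - w p)
  set e : ℝ → ℝ := fun t => err (sec w t) with he
  have hec : Continuous e := continuous_sec hF
  have he0 : ∀ t, 0 ≤ e t := fun t => err_nonneg (dens2_sec hw t)
  have hE : 0 ≤ E := intervalIntegral.integral_nonneg zero_le_one fun t _ => he0 t
  have hXi : (∫ t in (0 : ℝ)..1, δ + K * e t) = δ + K * E := int3_add_const hF δ K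
  have hXc : Continuous fun t => δ + K * e t := continuous_const.add (continuous_const.mul hec)
  have hX0 : ∀ t, 0 ≤ δ + K * e t := fun t => by
    have := he0 t; positivity
  set L : ℝ → ℝ := fun t => tv2 (sec w t) / 2 with hL
  have hg : ∀ t, gfun (secA w t) ≤ L t + (δ + K * e t) := fun t => by
    have h := hT _ (dens2_sec hw t)
    change 2 * gfun (secA w t) ≤ tv2 (sec w t) + δ + K₁ * e t at h
    have := mul_nonneg hK₂ (he0 t)
    have := mul_nonneg hK₁ (he0 t)
    simp only [hL, K]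
    nlinarith
  have hπ := Real.pi_pos
  have hp := Real.pi_lt_d4
  have hp' := Real.pi_gt_d4
  set c := 1 / π with hc
  have hπc : π * c = 1 := by rw [hc]; field_simp
  have hcl : (318307 : ℝ) / 1000000 ≤ c := by rw [hc, le_div_iff₀ hπ]; nlinarith
  have hcu : c ≤ 318315 / 1000000 := by rw [hc, div_le_iff₀ hπ]; linarith [Real.pi_gt_d6]
  have hf0 : 0 ≤ f := (secA_mem hw t₀).1
  have hD0 : 0 ≤ a - f := by linarith
  -- all slices pay like discs
  have round : (∀ t, √(π * secA w t) ≤ L t + (δ + K * e t)) → a ≤ 33 / 100 →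
      min 1 √(π * v) + (a - f) ^ 2 / 20 ≤ int3 (gnorm w) / 2 + δ + K * E := fun hall ha => by
    have hlow := low_of_slices hw (h := fun x => √(π * x)) (fun x => Real.sqrt_nonneg _) hXc hX0
      (fun t => by have := hall t; simp only [hL] at this; linarith) h0 h1
      (P := int3 (gnorm w) / 2 + δ + K * E) (by rw [hXi, add_assoc])
    have hr := round_slack (by linarith) hfv hva ha hlow
    linarith [min_le_right 1 √(π * v)]
  -- all slices pay like bands
  have flat : (∀ t, 1 ≤ L t + (δ + K * e t)) →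
      min 1 √(π * v) + (a - f) ^ 2 / 20 ≤ int3 (gnorm w) / 2 + δ + K * E := fun hall => by
    have hlow := low_of_slices hw (h := fun _ => (1 : ℝ)) (fun _ => zero_le_one) hXc hX0
      (fun t => by have := hall t; simp only [hL] at this; linarith) h0 h1
      (P := int3 (gnorm w) / 2 + δ + K * E) (by rw [hXi, add_assoc])
    have hb : ((a - f) / 2) ^ 2 ≤ 1 := pow_le_one₀ (by linarith) (by linarith)
    have hb0 : 0 ≤ 1 - ((a - f) / 2) ^ 2 := by linarith
    have h := hlow 0 √(1 - ((a - f) / 2) ^ 2) (fun _ => (a - f) / 2) continuousOn_const fun x _ =>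
      ⟨by linarith, by simp [Real.sq_sqrt hb0], by linarith⟩
    simp only [zero_mul, zero_add, intervalIntegral.integral_const, smul_eq_mul] at h
    have hr : 1 - ((a - f) / 2) ^ 2 ≤ √(1 - ((a - f) / 2) ^ 2) := by
      refine Real.le_sqrt_of_sq_le ?_
      nlinarith [mul_nonneg hb0 (sq_nonneg ((a - f) / 2))]
    linarith [min_le_left 1 √(π * v), sq_nonneg (a - f)]
  rcases le_or_gt a c with hac | hac
  · refine round (fun t => ?_) (by linarith)
    have hx : secA w t ≤ c := (h1 t).trans hac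
    have h2 : π * secA w t ≤ π * (1 - secA w t) := by nlinarith
    have h3 : π * secA w t ≤ 1 := hπc ▸ mul_le_mul_of_nonneg_left hx hπ.le
    have hgt := hg t
    rwa [gfun, min_eq_left (a := √(π * secA w t)) (b := (1 : ℝ)) (Real.sqrt_le_one.2 h3),
      min_eq_left (Real.sqrt_le_sqrt h2)] at hgt
  set T := fun t => area2 fun q => grad2 (sec w t) q
  have hTc : Continuous T := by
    have hPc : Continuous fun p : ℝ × ℝ × ℝ => √(fderiv ℝ w p e₂ ^ 2 + fderiv ℝ w p e₃ ^ 2) :=
      (((continuous_dir hw e₂).pow 2).add ((continuous_dir hw e₃).pow 2)).sqrt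
    have e : T = fun t => area2 fun q : ℝ × ℝ =>
        √(fderiv ℝ w (t, q) e₂ ^ 2 + fderiv ℝ w (t, q) e₃ ^ 2) := by
      funext t
      show area2 _ = area2 _
      congr 1; funext q
      have hf : HasFDerivAt (sec w t)
          ((fderiv ℝ w (t, q)).comp (ContinuousLinearMap.inr ℝ ℝ (ℝ × ℝ))) q :=
        (hw.smooth.differentiable two_ne_zero (t, q)).hasFDerivAt.comp q
          ((hasFDerivAt_const t q).prodMk (hasFDerivAt_id q))
      rw [grad2, hf.fderiv]
      simp [e₂, e₃]
    rw [e]; exact continuous_sec hPc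
  have hsplit : ∀ c₁ c₂ : ℝ, c₁ ^ 2 + c₂ ^ 2 ≤ 1 →
      c₁ * (∫ t in (0 : ℝ)..1, L t) + c₂ * (int3 (fun p => |fderiv ℝ w p e₁|) / 2) ≤
        int3 (gnorm w) / 2 := fun c₁ c₂ h => by
    have := split_le hw h
    rw [show (fun t => L t) = fun t => T t / 2 from rfl, intervalIntegral.integral_div]
    linarith
  have hLi : ∀ φ : ℝ → ℝ, Continuous φ → (∀ t, φ t ≤ L t + (δ + K * e t)) →
      (∫ t in (0 : ℝ)..1, φ t) ≤ (∫ t in (0 : ℝ)..1, L t) + (δ + K * E) := fun φ hφ h => by
    have hLc : Continuous L := hTc.div_const 2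
    rw [← hXi, ← intervalIntegral.integral_add (hLc.intervalIntegrable _ _)
      (hXc.intervalIntegrable _ _)]
    exact intervalIntegral.integral_mono_on zero_le_one (hφ.intervalIntegrable _ _)
      ((hLc.add hXc).intervalIntegrable _ _) fun t _ => h t
  rcases le_or_gt c f with hcf | hcf
  · refine flat fun t => ?_
    have := hg t
    rwa [gfun_eq_one (hcf.trans (h0 t)) (by linarith [h1 t])] at this
  by_cases hA : ∀ t, √(π * secA w t) ≤ L t + (δ + K * e t)
  · exact round hA (by linarith)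
  by_cases hB : ∀ t, 1 ≤ L t + (δ + K * e t)
  · exact flat hB
  push Not at hA hB
  obtain ⟨s₁, hs₁⟩ := hA
  obtain ⟨s₂, hs₂⟩ := hB
  have hKe : ∀ t, K₂ * e t ≤ K * e t := fun t =>
    mul_le_mul_of_nonneg_right (by linarith) (he0 t)
  obtain ⟨hbig, u, hu, hub, hul, hud⟩ :=
    (hC _ (dens2_sec hw s₁) (by show secA w s₁ ≤ _; linarith [h1 s₁])).1 (by
      have := hKe s₁; simp only [hL, he] at hs₁ this
      show _ < √(π * secA w s₁); linarith)
  obtain ⟨u', hu', hc', hu'l, hu'd, hu'e⟩ :=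
    (hC _ (dens2_sec hw s₂) (by show secA w s₂ ≤ _; linarith [h1 s₂])).2 (by
      have := hKe s₂; simp only [hL, he] at hs₂ this
      linarith)
  have hτ7 : τ ≤ 1 / 10 ^ 7 := min_le_left _ _
  have hAc : c ≤ secA w s₁ := by
    by_contra hlt
    push Not at hlt
    have : √(π * secA w s₁) ≤ 1 :=
      Real.sqrt_le_one.2 (hπc ▸ mul_le_mul_of_nonneg_left hlt.le hπ.le)
    change 1 < √(π * secA w s₁) at hbig
    linarith
  have hd1 := abs_le.1 ((area2_abs_le hu (dens2_sec hw s₁)).trans hud)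
  have hd2 := abs_le.1 ((area2_abs_le hu' (dens2_sec hw s₂)).trans hu'd)
  change -τ ≤ area2 u - secA w s₁ ∧ area2 u - secA w s₁ ≤ τ at hd1
  change -τ ≤ area2 u' - secA w s₂ ∧ area2 u' - secA w s₂ ≤ τ at hd2
  have hsq : √(π * secA w s₁) ≤ 10094 / 10000 := by
    rw [Real.sqrt_le_left (by norm_num)]; nlinarith [h1 s₁]
  change tv2 u / 2 ≤ √(π * secA w s₁) + τ at hul
  have hfar : 7153 / 100000 ≤ area2 fun p => |u p - u' p| := by
    have hev : err u' ≤ τ := hu'e
    rcases hub with hb | hb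
    · exact band_disc_far hu hu' hb hc' hτ7 (by linarith) hu'l (by linarith) hev
        (by linarith [h0 s₂]) (by linarith [h1 s₁, h0 s₂])
    · obtain ⟨y₀, z₀, hy, hz⟩ := hc'
      have hsw : ∀ {g : ℝ × ℝ → ℝ}, Dens2 g → area2 (g ∘ Prod.swap) = area2 g := fun hg =>
        area2_swap hg.smooth.continuous
      have h := band_disc_far hu.swap hu'.swap hb ⟨z₀, y₀, hz, hy⟩ hτ7
        (by rw [tv2_swap hu.smooth]; linarith) (by rw [tv2_swap hu'.smooth]; linarith)
        (by rw [hsw hu]; linarith)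
        (by
          rw [show err (u' ∘ Prod.swap) = err u' from area2_swap (F := fun p => u' p * (1 - u' p))
            (hu'.smooth.continuous.mul (continuous_const.sub hu'.smooth.continuous))]
          exact hev)
        (by rw [hsw hu']; linarith [h0 s₂]) (by rw [hsw hu, hsw hu']; linarith [h1 s₁, h0 s₂])
      rwa [show (area2 fun p => |(u ∘ Prod.swap) p - (u' ∘ Prod.swap) p|) =
        area2 fun p => |u p - u' p| from area2_swap (cont_abs_sub hu hu')] at h
  have hX : 7152 / 100000 ≤ int3 (fun p => |fderiv ℝ w p e₁|) / 2 := by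
    refine le_trans ?_ (sec_dist hw s₁ s₂)
    set g := sec w s₁
    set g' := sec w s₂
    have hgd : Dens2 g := dens2_sec hw s₁
    have hgd' : Dens2 g' := dens2_sec hw s₂
    have c1 := cont_abs_sub hu hgd
    have c2 := cont_abs_sub hgd hgd'
    have c3 := cont_abs_sub hu' hgd'
    have := area2_mono (cont_abs_sub hu hu') ((c1.fun_add c2).fun_add c3) fun p => by
      have := abs_sub_le (u p) (g p) (u' p)
      have := abs_sub_le (g p) (g' p) (u' p)
      rw [abs_sub_comm (g' p) (u' p)] at this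
      linarith
    rw [area2_add (c1.fun_add c2) c3, area2_add c1 c2] at this
    linarith
  -- the concavity loss
  have haf : 0 < a - f := by linarith
  have hAc' : Continuous (secA w) := continuous_secA hw
  set q := 158 / 100 * ((c - f) / (a - f))
  have hI := hLi (fun t => 1 - q * a + q * secA w t)
    (continuous_const.add (continuous_const.mul hAc')) fun t => by
      refine le_trans ?_ (hg t)
      refine le_trans (le_of_eq ?_) (gfun_line hcf.le hac hD ⟨h0 t, h1 t⟩)
      simp only [q]; ring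
  have hqA : Continuous fun t => q * secA w t := continuous_const.mul hAc'
  rw [intervalIntegral.integral_add (intervalIntegrable_const)
      (hqA.intervalIntegrable _ _),
    intervalIntegral.integral_const_mul, intervalIntegral.integral_const, sub_zero, one_smul,
    show (∫ t in (0 : ℝ)..1, secA w t) = v from rfl] at hI
  have hq : q * (a - v) = 158 / 100 * ((a - v) * (c - f) / (a - f)) := by simp only [q]; ring
  have hdef : min 1 √(π * v) ≤ 1 - q * a + q * v + 2432 / 1000000 := by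
    have := loss_le hπc hcf hac hfv hD
    linarith
  have hs := hsplit (997545 / 1000000) (7 / 100) (by norm_num)
  set I := ∫ t in (0 : ℝ)..1, L t
  set X := int3 (fun p => |fderiv ℝ w p e₁|) / 2
  have hKE : 0 ≤ δ + K * E := add_nonneg hδ.le (by positivity)
  have hsl : (a - f) ^ 2 / 20 ≤ 18 / 10000000 := by
    rw [pow_two]; linarith [mul_self_le_mul_self hD0 hD]
  have hm1 : min 1 √(π * v) ≤ 1 := min_le_left _ _
  linarith

/-- `near_tube_strict` without the slack. -/
theorem near_tube {δ : ℝ} (hδ : 0 < δ) : ∃ K : ℝ, 0 ≤ K ∧ ∀ w, Dens w → ∀ t₀ t₁ : ℝ,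
    (∀ t, secA w t₀ ≤ secA w t) → (∀ t, secA w t ≤ secA w t₁) →
    1 / 6 ≤ int3 w → int3 w ≤ 1 / 2 → secA w t₁ - secA w t₀ ≤ 6 / 1000 →
      min 1 √(π * int3 w) ≤
        int3 (gnorm w) / 2 + δ + K * int3 (fun p => w p * (1 - w p)) := by
  obtain ⟨K, hK, h⟩ := near_tube_strict hδ
  refine ⟨K, hK, fun w hw t₀ t₁ h0 h1 v0 v1 hD => ?_⟩
  linarith [h w hw t₀ t₁ h0 h1 v0 v1 hD, sq_nonneg (secA w t₁ - secA w t₀)]

end

end Vale.Agent.P232
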