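import Vale.Agent.P232.NearTube
import Vale.Agent.P232.Window

/-! # P232: the exceptional data of the window covered by `near_tube` -/

namespace Vale.Agent.P232

noncomputable section

open Set Real

/-- Along some axis the slice areas differ by at most `0.006`. -/
def TubeExc (v : ℝ) (f a : Fin 3 → ℝ) : Prop :=
  v ∈ Icc (1 / 6 : ℝ) (1 / 2) ∧ ∃ i, a i - f i ≤ 6 / 1000

open Axis in
/-- The bound for the tube corner. -/
theorem tubeExc_bound : ExcBound TubeExc := by
  intro δ hδ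
  obtain ⟨K, hK, h⟩ := near_tube hδ
  refine ⟨K, hK, fun w hw f a hfa ⟨⟨v0, v1⟩, i, hi⟩ => ?_⟩
  have key : ∀ u, Dens u → ∀ φ α, IsExt u φ α → α - φ ≤ 6 / 1000 → int3 u = int3 w →
      int3 (gnorm u) = int3 (gnorm w) →
      int3 (fun p => u p * (1 - u p)) = int3 (fun p => w p * (1 - w p)) →
      min 1 √(π * int3 w) ≤ int3 (gnorm w) / 2 + δ + K * int3 (fun p => w p * (1 - w p)) := by
    rintro u hu φ α ⟨⟨t₀, e0, g0⟩, t₁, e1, g1⟩ hD ev eg eE
    have := h u hu t₀ t₁ (fun t => e0 ▸ g0 t) (fun t => e1 ▸ g1 t) (by rwa [ev]) (by rwa [ev])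
      (by rw [e0, e1]; exact hD)
    rwa [ev, eg, eE] at this
  have hw0 := hw.smooth.continuous
  have hg := continuous_gnorm hw
  have hF : Continuous fun p => w p * (1 - w p) := hw0.mul (continuous_const.sub hw0)
  suffices h' : min 1 √(π * int3 w) ≤
      int3 (gnorm w) / 2 + δ + K * int3 (fun p => w p * (1 - w p)) by
    refine le_trans ?_ h'
    unfold goalF
    exact le_min (min_le_right _ _) ((min_le_left _ _).trans (min_le_right _ _))
  obtain ⟨x₀, x₁, x₂⟩ := hfa
  fin_cases i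
  · exact key w hw _ _ x₀ hi rfl rfl rfl
  · refine key _ (dens_comp hw swap₂ fun e he => ?_) _ _ x₁ hi (int3_swap₂ hw0) ?_ (int3_swap₂ hF)
    · rcases he with rfl | rfl | rfl <;> simp [swap₂_apply, e₁, e₂, e₃]
    · rw [show gnorm (fun p => w (swap₂ p)) = fun p => gnorm w (swap₂ p) from funext fun p => by
        rw [gnorm_comp hw, gnorm]; simp only [swap₂_apply, e₁, e₂, e₃]; ring_nf]
      exact int3_swap₂ hg
  · refine key _ (dens_comp hw cyc₃ fun e he => ?_) _ _ x₂ hi (int3_cyc₃ hw0) ?_ (int3_cyc₃ hF)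
    · rcases he with rfl | rfl | rfl <;> simp [cyc₃_apply, e₁, e₂, e₃]
    · rw [show gnorm (fun p => w (cyc₃ p)) = fun p => gnorm w (cyc₃ p) from funext fun p => by
        rw [gnorm_comp hw, gnorm]; simp only [cyc₃_apply, e₁, e₂, e₃]; ring_nf]
      exact int3_cyc₃ hg

end

end Vale.Agent.P232
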