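import Vale.Agent.P232.Sobolev

/-! # P232: planar isoperimetric inequality on a cut square -/

namespace Vale.Agent.P232

noncomputable section

open MeasureTheory Set
open scoped Topology

/-- Total variation of a `C¹` function on the unit square. -/
def tv2 (f : ℝ × ℝ → ℝ) : ℝ :=
  ∫ y in (0 : ℝ)..1, ∫ z in (0 : ℝ)..1,
    Real.sqrt (fderiv ℝ f (y, z) (1, 0) ^ 2 + fderiv ℝ f (y, z) (0, 1) ^ 2)

/-- Doubly periodic functions on the plane. -/
def Per2 (f : ℝ × ℝ → ℝ) : Prop := ∀ y z, f (y + 1, z) = f (y, z) ∧ f (y, z + 1) = f (y, z)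

/-- The Euclidean length of the gradient. -/
def grad2 (f : ℝ × ℝ → ℝ) (p : ℝ × ℝ) : ℝ :=
  Real.sqrt (fderiv ℝ f p (1, 0) ^ 2 + fderiv ℝ f p (0, 1) ^ 2)

lemma sqrt_sq_add_le (p q r t : ℝ) :
    Real.sqrt ((p + r) ^ 2 + (q + t) ^ 2) ≤ Real.sqrt (p ^ 2 + q ^ 2) + (|r| + |t|) := by
  set s := Real.sqrt (p ^ 2 + q ^ 2)
  have hs : s ^ 2 = p ^ 2 + q ^ 2 := Real.sq_sqrt (by positivity)
  have hp : |p| ≤ s := Real.abs_le_sqrt (by nlinarith)
  have hq : |q| ≤ s := Real.abs_le_sqrt (by nlinarith)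
  rw [Real.sqrt_le_left (by positivity)]
  nlinarith [abs_mul p r, abs_mul q t, le_abs_self (p * r), le_abs_self (q * t), sq_abs r, sq_abs t,
    mul_le_mul_of_nonneg_right hp (abs_nonneg r), mul_le_mul_of_nonneg_right hq (abs_nonneg t),
    mul_nonneg (abs_nonneg r) (abs_nonneg t)]

lemma continuous_grad2 {f : ℝ × ℝ → ℝ} (hf : ContDiff ℝ 1 f) : Continuous (grad2 f) := by
  have h := hf.continuous_fderiv (by simp)
  exact (((h.clm_apply continuous_const).pow 2).add ((h.clm_apply continuous_const).pow 2)).sqrt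

/-- The coordinates of a point of the Euclidean plane. -/
def toPair : P237.E 2 ≃L[ℝ] ℝ × ℝ :=
  (EuclideanSpace.equiv (Fin 2) ℝ).trans (ContinuousLinearEquiv.finTwoArrow ℝ ℝ)

lemma sobolev_pair {g : ℝ × ℝ → ℝ} (hg : ContDiff ℝ 1 g) (hs : HasCompactSupport g)
    (h0 : ∀ p, 0 ≤ g p) :
    2 * Real.sqrt Real.pi * Real.sqrt (∫ p, g p ^ 2) ≤ ∫ p, grad2 g p := by
  have hmp : MeasurePreserving (toPair : P237.E 2 → ℝ × ℝ) volume volume :=
    (volume_preserving_finTwoArrow ℝ).comp (PiLp.volume_preserving_ofLp (Fin 2))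
  have hme : MeasurableEmbedding (toPair : P237.E 2 → ℝ × ℝ) :=
    toPair.toHomeomorph.measurableEmbedding
  have hc : HasCompactSupport (g ∘ toPair) := hs.comp_homeomorph toPair.toHomeomorph
  have hd : ContDiff ℝ 1 (g ∘ toPair) := hg.comp toPair.contDiff
  have h := sobolev hd hc fun x => h0 _
  have e1 : ∫ x, (g ∘ toPair) x ^ 2 = ∫ p, g p ^ 2 := hmp.integral_comp hme (fun p => g p ^ 2)
  rw [e1] at h
  refine h.trans (le_of_le_of_eq ?_ (hmp.integral_comp hme (grad2 g)))
  refine integral_mono_of_nonneg (Filter.Eventually.of_forall fun x => norm_nonneg _)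
    (hmp.integrable_comp_of_integrable ((continuous_grad2 hg).integrable_of_hasCompactSupport ?_))
    (Filter.Eventually.of_forall fun x => ?_)
  · refine hs.mono' fun p hp => ?_
    by_contra hn
    exact hp (by simp [grad2, fderiv_of_notMem_tsupport ℝ hn])
  · show ‖fderiv ℝ (g ∘ toPair) x‖ ≤ grad2 g (toPair x)
    rw [fderiv_comp x (hg.differentiable (by simp) _) toPair.differentiableAt, toPair.fderiv]
    refine ContinuousLinearMap.opNorm_le_bound _ (Real.sqrt_nonneg _) fun v => ?_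
    set L := fderiv ℝ g (toPair x)
    have ev : toPair v = v 0 • ((1, 0) : ℝ × ℝ) + v 1 • ((0, 1) : ℝ × ℝ) := by
      ext <;> simp [toPair]
    have e : L (toPair v) = v 0 * L (1, 0) + v 1 * L (0, 1) := by
      rw [ev, map_add, map_smul, map_smul, smul_eq_mul, smul_eq_mul]
    show ‖L (toPair v)‖ ≤ _
    rw [e, grad2, EuclideanSpace.norm_eq, Fin.sum_univ_two, Real.norm_eq_abs, Real.norm_eq_abs,
      Real.norm_eq_abs, sq_abs, sq_abs, ← Real.sqrt_mul (by positivity)]
    refine Real.le_sqrt_of_sq_le ?_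
    rw [sq_abs]
    nlinarith [sq_nonneg (v 0 * L (0, 1) - v 1 * L (1, 0))]

/-- The cut-off of the unit interval. -/
def cut (n t : ℝ) : ℝ := Real.smoothTransition (n * t) + Real.smoothTransition (n * (1 - t)) - 1

/-- A bound for the derivative of the cut-off. -/
def cutd (n t : ℝ) : ℝ :=
  n * deriv Real.smoothTransition (n * t) + n * deriv Real.smoothTransition (n * (1 - t))

lemma cut_mem {n : ℝ} (hn : 2 ≤ n) (t : ℝ) : 0 ≤ cut n t ∧ cut n t ≤ 1 := by
  have h1 := Real.smoothTransition.le_one (n * t)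
  have h2 := Real.smoothTransition.le_one (n * (1 - t))
  have h3 := Real.smoothTransition.nonneg (n * t)
  have h4 := Real.smoothTransition.nonneg (n * (1 - t))
  refine ⟨?_, by unfold cut; linarith⟩
  rcases le_total t (1 / 2) with c | c
  · have := Real.smoothTransition.one_of_one_le (x := n * (1 - t)) (by nlinarith)
    unfold cut; linarith
  · have := Real.smoothTransition.one_of_one_le (x := n * t) (by nlinarith)
    unfold cut; linarith

lemma cut_eq_zero {n : ℝ} (hn : 1 ≤ n) {t : ℝ} (ht : t ∉ Ioo (0 : ℝ) 1) : cut n t = 0 := by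
  rcases le_or_gt t 0 with c | c
  · simp [cut, Real.smoothTransition.zero_of_nonpos (x := n * t) (by nlinarith),
      Real.smoothTransition.one_of_one_le (x := n * (1 - t)) (by nlinarith)]
  · have c' : 1 ≤ t := not_lt.1 fun h => ht ⟨c, h⟩
    simp [cut, Real.smoothTransition.zero_of_nonpos (x := n * (1 - t)) (by nlinarith),
      Real.smoothTransition.one_of_one_le (x := n * t) (by nlinarith)]

lemma contDiff_cut (n : ℝ) : ContDiff ℝ 1 (cut n) :=
  ((Real.smoothTransition.contDiff.comp (contDiff_const.mul contDiff_id)).add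
    (Real.smoothTransition.contDiff.comp (contDiff_const.mul (contDiff_const.sub contDiff_id)))).sub
    contDiff_const

lemma deriv_trans_nonneg (t : ℝ) : 0 ≤ deriv Real.smoothTransition t :=
  Real.smoothTransition.monotone.deriv_nonneg

lemma deriv_trans_eq_zero {t : ℝ} (ht : 1 < t) : deriv Real.smoothTransition t = 0 := by
  have h : Real.smoothTransition =ᶠ[𝓝 t] fun _ => (1 : ℝ) :=
    Filter.eventuallyEq_of_mem (Ioi_mem_nhds ht)
      fun x (hx : 1 < x) => Real.smoothTransition.one_of_one_le hx.le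
  rw [h.deriv_eq, deriv_const]

lemma hasDerivAt_trans (t : ℝ) :
    HasDerivAt Real.smoothTransition (deriv Real.smoothTransition t) t :=
  ((Real.smoothTransition.contDiff (n := 1)).differentiable (by simp) t).hasDerivAt

lemma hasDerivAt_cut (n t : ℝ) : HasDerivAt (cut n)
    (n * deriv Real.smoothTransition (n * t) - n * deriv Real.smoothTransition (n * (1 - t))) t := by
  have h1 := (hasDerivAt_trans (n * t)).comp t ((hasDerivAt_id t).const_mul n)
  have h2 := (hasDerivAt_trans (n * (1 - t))).comp t (((hasDerivAt_id t).const_sub 1).const_mul n)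
  exact ((h1.add h2).sub_const 1).congr_deriv (by ring)

lemma abs_deriv_cut_le {n : ℝ} (hn : 0 ≤ n) (t : ℝ) : |deriv (cut n) t| ≤ cutd n t := by
  rw [(hasDerivAt_cut n t).deriv, cutd, abs_le]
  constructor <;> nlinarith [mul_nonneg hn (deriv_trans_nonneg (n * t)),
    mul_nonneg hn (deriv_trans_nonneg (n * (1 - t)))]

lemma continuous_deriv_trans : Continuous (deriv Real.smoothTransition) :=
  (Real.smoothTransition.contDiff (n := 1)).continuous_deriv le_rfl

lemma continuous_cutd (n : ℝ) : Continuous (cutd n) :=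
  (continuous_const.mul (continuous_deriv_trans.comp (continuous_const.mul continuous_id))).add
    (continuous_const.mul (continuous_deriv_trans.comp
      (continuous_const.mul (continuous_const.sub continuous_id))))

lemma half_le {n ε : ℝ} (hn : 1 ≤ n) {h : ℝ → ℝ} (hh : Continuous h)
    (hb : ∀ t ∈ Icc (0 : ℝ) 1, n * t ≤ 1 → h t ≤ h 0 + ε) :
    ∫ t in (0 : ℝ)..1, n * deriv Real.smoothTransition (n * t) * h t ≤ h 0 + ε := by
  have hd : Continuous fun t => n * deriv Real.smoothTransition (n * t) :=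
    continuous_const.mul (continuous_deriv_trans.comp (continuous_const.mul continuous_id))
  have hI : ∫ t in (0 : ℝ)..1, n * deriv Real.smoothTransition (n * t) = 1 := by
    rw [intervalIntegral.integral_eq_sub_of_hasDerivAt
      (f := fun t => Real.smoothTransition (n * t)) (fun t _ => ?_) (hd.intervalIntegrable _ _)]
    · simp [Real.smoothTransition.one_of_one_le hn]
    · exact ((hasDerivAt_trans (n * t)).comp t ((hasDerivAt_id t).const_mul n)).congr_deriv (by ring)
  refine (intervalIntegral.integral_mono_on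
    (g := fun t => n * deriv Real.smoothTransition (n * t) * (h 0 + ε)) zero_le_one ((hd.mul hh).intervalIntegrable _ _)
    ((hd.mul continuous_const).intervalIntegrable _ _) fun t ht => ?_).trans_eq
    (by rw [intervalIntegral.integral_mul_const, hI, one_mul])
  rcases le_or_gt (n * t) 1 with c | c
  · exact mul_le_mul_of_nonneg_left (hb t ht c) (mul_nonneg (by linarith) (deriv_trans_nonneg _))
  · simp [deriv_trans_eq_zero c]

lemma integral_cutd_le {n ε : ℝ} (hn : 1 ≤ n) {h : ℝ → ℝ} (hh : Continuous h) (hp : h 1 = h 0)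
    (hb : ∀ t ∈ Icc (0 : ℝ) 1, (n * t ≤ 1 ∨ n * (1 - t) ≤ 1) → h t ≤ h 0 + ε) :
    ∫ t in (0 : ℝ)..1, cutd n t * h t ≤ 2 * h 0 + 2 * ε := by
  have hd1 : Continuous fun t => n * deriv Real.smoothTransition (n * t) :=
    continuous_const.mul (continuous_deriv_trans.comp (continuous_const.mul continuous_id))
  have hd2 : Continuous fun t => n * deriv Real.smoothTransition (n * (1 - t)) :=
    continuous_const.mul (continuous_deriv_trans.comp
      (continuous_const.mul (continuous_const.sub continuous_id)))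
  simp only [cutd, add_mul]
  rw [intervalIntegral.integral_add (f := fun t => n * deriv Real.smoothTransition (n * t) * h t)
    (g := fun t => n * deriv Real.smoothTransition (n * (1 - t)) * h t)
    ((hd1.mul hh).intervalIntegrable _ _)
    ((hd2.mul hh).intervalIntegrable _ _)]
  have h2 : ∫ t in (0 : ℝ)..1, n * deriv Real.smoothTransition (n * (1 - t)) * h t
      = ∫ t in (0 : ℝ)..1, n * deriv Real.smoothTransition (n * t) * h (1 - t) := by
    simpa using intervalIntegral.integral_comp_sub_left (a := (0 : ℝ)) (b := 1)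
      (fun t => n * deriv Real.smoothTransition (n * t) * h (1 - t)) 1
  rw [h2]
  have a := half_le (ε := ε) hn hh fun t ht c => hb t ht (Or.inl c)
  have b := half_le (ε := ε) hn (h := fun t => h (1 - t)) (hh.comp (continuous_const.sub continuous_id))
    fun t ht c => by
      simp only [sub_zero, hp]
      exact hb (1 - t) ⟨by linarith [ht.2], by linarith [ht.1]⟩ (Or.inr (by simpa using c))
  simp only [sub_zero, hp] at b
  linarith

lemma cut_mass {n : ℝ} (hn : 2 ≤ n) : 1 - 2 / n ≤ ∫ t in (0 : ℝ)..1, cut n t := by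
  have hc := (contDiff_cut n).continuous
  have hn0 : 0 < n := by linarith
  have h1 : (1 : ℝ) / n ≤ 1 - 1 / n := by
    rw [le_sub_iff_add_le, ← add_div, div_le_one hn0]; linarith
  have hmid : ∫ t in (1 / n)..(1 - 1 / n), cut n t = ∫ _t in (1 / n)..(1 - 1 / n), (1 : ℝ) := by
    refine intervalIntegral.integral_congr fun t ht => ?_
    rw [uIcc_of_le h1] at ht
    have a : 1 ≤ n * t := by
      have := mul_le_mul_of_nonneg_left ht.1 hn0.le
      rwa [mul_one_div_cancel hn0.ne'] at this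
    have b : 1 ≤ n * (1 - t) := by
      have := mul_le_mul_of_nonneg_left (le_sub_comm.1 ht.2) hn0.le
      rwa [mul_one_div_cancel hn0.ne'] at this
    simp [cut, Real.smoothTransition.one_of_one_le a, Real.smoothTransition.one_of_one_le b]
  have h2 : 0 ≤ 1 / n := by positivity
  rw [← intervalIntegral.integral_add_adjacent_intervals (hc.intervalIntegrable 0 (1 / n))
    (hc.intervalIntegrable _ 1), ← intervalIntegral.integral_add_adjacent_intervals
    (hc.intervalIntegrable (1 / n) (1 - 1 / n)) (hc.intervalIntegrable _ 1), hmid,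
    intervalIntegral.integral_const, smul_eq_mul, mul_one]
  have a := intervalIntegral.integral_nonneg (μ := volume) (f := cut n) h2 fun t _ => (cut_mem hn t).1
  have b := intervalIntegral.integral_nonneg (μ := volume) (f := cut n) (by linarith : 1 - 1 / n ≤ 1)
    fun t _ => (cut_mem hn t).1
  have : 2 / n = 1 / n + 1 / n := by ring
  linarith

lemma cont_inner {F : ℝ × ℝ → ℝ} (hF : Continuous F) :
    Continuous fun y => ∫ z in (0 : ℝ)..1, F (y, z) :=
  intervalIntegral.continuous_parametric_intervalIntegral_of_continuous'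
    (f := fun y z => F (y, z)) hF _ _

lemma sq_mono {F G : ℝ × ℝ → ℝ} (hF : Continuous F) (hG : Continuous G)
    (h : ∀ y ∈ Icc (0 : ℝ) 1, ∀ z ∈ Icc (0 : ℝ) 1, F (y, z) ≤ G (y, z)) :
    ∫ y in (0 : ℝ)..1, ∫ z in (0 : ℝ)..1, F (y, z)
      ≤ ∫ y in (0 : ℝ)..1, ∫ z in (0 : ℝ)..1, G (y, z) :=
  intervalIntegral.integral_mono_on zero_le_one ((cont_inner hF).intervalIntegrable _ _)
    ((cont_inner hG).intervalIntegrable _ _) fun y hy =>
      intervalIntegral.integral_mono_on zero_le_one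
        ((hF.comp (continuous_const.prodMk continuous_id)).intervalIntegrable _ _)
        ((hG.comp (continuous_const.prodMk continuous_id)).intervalIntegrable _ _) (h y hy)

lemma sq_add {F G : ℝ × ℝ → ℝ} (hF : Continuous F) (hG : Continuous G) :
    ∫ y in (0 : ℝ)..1, ∫ z in (0 : ℝ)..1, (F (y, z) + G (y, z))
      = (∫ y in (0 : ℝ)..1, ∫ z in (0 : ℝ)..1, F (y, z))
        + ∫ y in (0 : ℝ)..1, ∫ z in (0 : ℝ)..1, G (y, z) := by
  rw [← intervalIntegral.integral_add ((cont_inner hF).intervalIntegrable _ _)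
    ((cont_inner hG).intervalIntegrable _ _)]
  refine intervalIntegral.integral_congr fun y _ => ?_
  exact intervalIntegral.integral_add
    ((hF.comp (continuous_const.prodMk continuous_id)).intervalIntegrable _ _)
    ((hG.comp (continuous_const.prodMk continuous_id)).intervalIntegrable _ _)

lemma sq_swap {F : ℝ × ℝ → ℝ} (hF : Continuous F) :
    ∫ y in (0 : ℝ)..1, ∫ z in (0 : ℝ)..1, F (y, z)
      = ∫ z in (0 : ℝ)..1, ∫ y in (0 : ℝ)..1, F (y, z) := by
  simp only [intervalIntegral.integral_of_le (zero_le_one' ℝ)]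
  refine integral_integral_swap (f := fun y z => F (y, z)) ?_
  rw [Measure.prod_restrict, ← Measure.volume_eq_prod]
  exact (hF.continuousOn.integrableOn_compact (isCompact_Icc.prod isCompact_Icc)).mono_set
    (prod_mono Ioc_subset_Icc_self Ioc_subset_Icc_self)

lemma integral_square {F : ℝ × ℝ → ℝ} (hF : Continuous F)
    (h0 : ∀ y z, y ∉ Ioo (0 : ℝ) 1 ∨ z ∉ Ioo (0 : ℝ) 1 → F (y, z) = 0) :
    ∫ p, F p = ∫ y in (0 : ℝ)..1, ∫ z in (0 : ℝ)..1, F (y, z) := by
  have hs : HasCompactSupport F := HasCompactSupport.intro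
    (isCompact_Icc.prod isCompact_Icc : IsCompact (Icc (0 : ℝ) 1 ×ˢ Icc (0 : ℝ) 1)) fun p hp => by
      refine h0 p.1 p.2 ?_
      by_contra hc
      push Not at hc
      exact hp ⟨Ioo_subset_Icc_self hc.1, Ioo_subset_Icc_self hc.2⟩
  have hint := hF.integrable_of_hasCompactSupport hs (μ := volume)
  rw [Measure.volume_eq_prod] at hint ⊢
  rw [integral_prod _ hint, intervalIntegral.integral_eq_integral_of_support_subset]
  · refine integral_congr_ae (Filter.Eventually.of_forall fun y => ?_)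
    exact (intervalIntegral.integral_eq_integral_of_support_subset fun z hz => Ioo_subset_Ioc_self
      (not_not.1 fun c => hz (h0 y z (Or.inr c)))).symm
  · intro y hy
    by_contra c
    exact hy (by simp [h0 y _ (Or.inl fun hc => c (Ioo_subset_Ioc_self hc))])

lemma planar_cut_zero {f : ℝ × ℝ → ℝ} (hf : ContDiff ℝ 1 f) (hp : Per2 f) (h0 : ∀ p, 0 ≤ f p) :
    2 * Real.sqrt Real.pi * Real.sqrt (∫ y in (0 : ℝ)..1, ∫ z in (0 : ℝ)..1, f (y, z) ^ 2) ≤
      tv2 f + 2 * (∫ z in (0 : ℝ)..1, f (0, z)) + 2 * (∫ y in (0 : ℝ)..1, f (y, 0)) := by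
  have hc := hf.continuous
  set h := fun y => ∫ z in (0 : ℝ)..1, f (y, z)
  set k := fun z => ∫ y in (0 : ℝ)..1, f (y, z)
  have hh : Continuous h := cont_inner hc
  have hk : Continuous k := cont_inner (F := fun p => f (p.2, p.1)) (hc.comp continuous_swap)
  have hh1 : h 1 = h 0 := intervalIntegral.integral_congr fun z _ => by simpa using (hp 0 z).1
  have hk1 : k 1 = k 0 := intervalIntegral.integral_congr fun y _ => by simpa using (hp y 0).2
  obtain ⟨M, hM⟩ := ((isCompact_Icc (a := (0 : ℝ)) (b := 1)).prod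
    (isCompact_Icc (a := (0 : ℝ)) (b := 1))).exists_bound_of_continuousOn hc.continuousOn
  set P := 2 * Real.sqrt Real.pi
  set I := ∫ y in (0 : ℝ)..1, ∫ z in (0 : ℝ)..1, f (y, z) ^ 2
  have hP : 0 ≤ P := by positivity
  have hM0 : 0 ≤ M := (norm_nonneg _).trans (hM (0, 0) ⟨by simp, by simp⟩)
  refine le_of_forall_pos_le_add fun e he => ?_
  obtain ⟨d1, hd1, u1⟩ := Metric.uniformContinuousOn_iff.1
    ((isCompact_Icc (a := (0 : ℝ)) (b := 1)).uniformContinuousOn_of_continuous hh.continuousOn)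
    (e / 8) (by positivity)
  obtain ⟨d2, hd2, u2⟩ := Metric.uniformContinuousOn_iff.1
    ((isCompact_Icc (a := (0 : ℝ)) (b := 1)).uniformContinuousOn_of_continuous hk.continuousOn)
    (e / 8) (by positivity)
  set η := (e / (2 * (P + 1))) ^ 2 / (8 * M ^ 2 + 1)
  have hη : 0 < η := by positivity
  obtain ⟨n, hn2, hn1, hn2', hn4⟩ : ∃ n : ℝ, 2 ≤ n ∧ 1 / n < d1 ∧ 1 / n < d2 ∧ 1 / n < η := by
    set m := min (min d1 d2) η
    have hm : 0 < m := lt_min (lt_min hd1 hd2) hη
    refine ⟨max 2 (2 / m), le_max_left _ _, ?_⟩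
    have h1 : 1 / max 2 (2 / m) < m := by
      rw [div_lt_iff₀ (lt_of_lt_of_le (by norm_num) (le_max_left _ _))]
      have := mul_le_mul_of_nonneg_left (le_max_right 2 (2 / m)) hm.le
      rw [mul_div_cancel₀ _ hm.ne'] at this
      linarith
    exact ⟨h1.trans_le ((min_le_left _ _).trans (min_le_left _ _)),
      h1.trans_le ((min_le_left _ _).trans (min_le_right _ _)), h1.trans_le (min_le_right _ _)⟩
  have hn0 : 0 < n := by linarith
  have near : ∀ (g : ℝ → ℝ) (d : ℝ), g 1 = g 0 → (∀ x ∈ Icc (0 : ℝ) 1, ∀ y ∈ Icc (0 : ℝ) 1,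
      dist x y < d → dist (g x) (g y) < e / 8) → 1 / n < d →
      ∀ t ∈ Icc (0 : ℝ) 1, (n * t ≤ 1 ∨ n * (1 - t) ≤ 1) → g t ≤ g 0 + e / 8 := by
    intro g d hg hu hd t ht hc'
    rcases hc' with c | c
    · have ht' : dist t 0 < d := by
        rw [Real.dist_eq, sub_zero, abs_of_nonneg ht.1]
        exact lt_of_le_of_lt ((le_div_iff₀' hn0).2 c) hd
      have := hu t ht 0 (by simp) ht'
      rw [Real.dist_eq] at this
      linarith [le_abs_self (g t - g 0)]
    · have ht' : dist t 1 < d := by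
        rw [Real.dist_eq, abs_sub_comm, abs_of_nonneg (by linarith [ht.2])]
        exact lt_of_le_of_lt ((le_div_iff₀' hn0).2 c) hd
      have := hu t ht 1 (by simp) ht'
      rw [Real.dist_eq] at this
      linarith [le_abs_self (g t - g 1)]
  have bh := integral_cutd_le (ε := e / 8) (by linarith) hh hh1 (near h d1 hh1 u1 hn1)
  have bk := integral_cutd_le (ε := e / 8) (by linarith) hk hk1 (near k d2 hk1 u2 hn2')
  set G : ℝ × ℝ → ℝ := fun p => cut n p.1 * cut n p.2 * f p
  have hG : ContDiff ℝ 1 G :=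
    (((contDiff_cut n).comp contDiff_fst).mul ((contDiff_cut n).comp contDiff_snd)).mul hf
  have hG0 : ∀ p, 0 ≤ G p := fun p =>
    mul_nonneg (mul_nonneg (cut_mem hn2 _).1 (cut_mem hn2 _).1) (h0 p)
  have hGz : ∀ y z, y ∉ Ioo (0 : ℝ) 1 ∨ z ∉ Ioo (0 : ℝ) 1 → G (y, z) = 0 := fun y z hyz => by
    rcases hyz with c | c <;> simp [G, cut_eq_zero (by linarith : (1 : ℝ) ≤ n) c]
  have hGs : HasCompactSupport G := HasCompactSupport.intro
    (isCompact_Icc.prod isCompact_Icc : IsCompact (Icc (0 : ℝ) 1 ×ˢ Icc (0 : ℝ) 1)) fun p hp' => by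
      refine hGz p.1 p.2 ?_
      by_contra hc'
      push Not at hc'
      exact hp' ⟨Ioo_subset_Icc_self hc'.1, Ioo_subset_Icc_self hc'.2⟩
  have hgz : ∀ y z, y ∉ Icc (0 : ℝ) 1 ∨ z ∉ Icc (0 : ℝ) 1 → grad2 G (y, z) = 0 := by
    intro y z hyz
    have hev : G =ᶠ[𝓝 (y, z)] fun _ => 0 := by
      rcases hyz with c | c
      · filter_upwards [(continuous_fst.tendsto (y, z)).eventually
          (isClosed_Icc.isOpen_compl.mem_nhds c)] with p hp'
        exact hGz p.1 p.2 (Or.inl fun hh => hp' (Ioo_subset_Icc_self hh))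
      · filter_upwards [(continuous_snd.tendsto (y, z)).eventually
          (isClosed_Icc.isOpen_compl.mem_nhds c)] with p hp'
        exact hGz p.1 p.2 (Or.inr fun hh => hp' (Ioo_subset_Icc_self hh))
    simp [grad2, hev.fderiv_eq]
  have hgc := continuous_grad2 hG
  have hgz' : ∀ y z, y ∉ Ioo (0 : ℝ) 1 ∨ z ∉ Ioo (0 : ℝ) 1 → grad2 G (y, z) = 0 := by
    intro y z hyz
    have hS : IsClosed {p : ℝ × ℝ | grad2 G p = 0} := isClosed_eq hgc continuous_const
    rcases hyz with c | c
    · have : (Icc (0 : ℝ) 1)ᶜ ⊆ {x | grad2 G (x, z) = 0} := fun x hx => hgz x z (Or.inl hx)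
      refine (hS.preimage (continuous_id.prodMk continuous_const)).closure_subset_iff.2 this ?_
      rw [closure_compl, interior_Icc]
      exact c
    · have : (Icc (0 : ℝ) 1)ᶜ ⊆ {x | grad2 G (y, x) = 0} := fun x hx => hgz y x (Or.inr hx)
      refine (hS.preimage (continuous_const.prodMk continuous_id)).closure_subset_iff.2 this ?_
      rw [closure_compl, interior_Icc]
      exact c
  have hpt : ∀ y z : ℝ, grad2 G (y, z)
      ≤ grad2 f (y, z) + (cutd n y * f (y, z) + cutd n z * f (y, z)) := by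
    intro y z
    obtain ⟨a0, a1⟩ := cut_mem hn2 y
    obtain ⟨b0, b1⟩ := cut_mem hn2 z
    have hy : HasFDerivAt (fun p : ℝ × ℝ => cut n p.1)
        (deriv (cut n) y • ContinuousLinearMap.fst ℝ ℝ ℝ) (y, z) :=
      HasDerivAt.comp_hasFDerivAt (f := (Prod.fst : ℝ × ℝ → ℝ)) (y, z)
        ((contDiff_cut n).differentiable (by simp) y).hasDerivAt hasFDerivAt_fst
    have hz : HasFDerivAt (fun p : ℝ × ℝ => cut n p.2)
        (deriv (cut n) z • ContinuousLinearMap.snd ℝ ℝ ℝ) (y, z) :=
      HasDerivAt.comp_hasFDerivAt (f := (Prod.snd : ℝ × ℝ → ℝ)) (y, z)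
        ((contDiff_cut n).differentiable (by simp) z).hasDerivAt hasFDerivAt_snd
    have hD := ((hy.fun_mul hz).fun_mul (hf.differentiable (by simp) (y, z)).hasFDerivAt).fderiv
    simp only [grad2, G, hD]
    simp only [ContinuousLinearMap.add_apply, ContinuousLinearMap.smul_apply, smul_eq_mul,
      ContinuousLinearMap.coe_fst', ContinuousLinearMap.coe_snd', mul_zero, mul_one, add_zero,
      zero_add]
    set A := fderiv ℝ f (y, z) (1, 0)
    set B := fderiv ℝ f (y, z) (0, 1)
    set a := cut n y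
    set b := cut n z
    set s := Real.sqrt (A ^ 2 + B ^ 2)
    have hs0 : 0 ≤ s := Real.sqrt_nonneg _
    have hss : s ^ 2 = A ^ 2 + B ^ 2 := Real.sq_sqrt (by positivity)
    have hA : |deriv (cut n) y| ≤ cutd n y := abs_deriv_cut_le hn0.le y
    have hB : |deriv (cut n) z| ≤ cutd n z := abs_deriv_cut_le hn0.le z
    have hu0 := (abs_nonneg _).trans hA
    have hv0 := (abs_nonneg _).trans hB
    have hf0 := h0 (y, z)
    refine (sqrt_sq_add_le (a * b * A) (a * b * B) (f (y, z) * (b * deriv (cut n) y))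
      (f (y, z) * (a * deriv (cut n) z))).trans' (le_of_eq ?_) |>.trans ?_
    · congr 1
    rw [show (a * b * A) ^ 2 + (a * b * B) ^ 2 = (a * b) ^ 2 * (A ^ 2 + B ^ 2) by ring,
      Real.sqrt_mul (sq_nonneg _), Real.sqrt_sq (mul_nonneg a0 b0), abs_mul, abs_mul, abs_mul,
      abs_mul, abs_of_nonneg hf0, abs_of_nonneg a0, abs_of_nonneg b0]
    have e1 : a * b * s ≤ 1 * s :=
      mul_le_mul_of_nonneg_right (mul_le_one₀ a1 b0 b1) hs0
    have e2 : f (y, z) * (b * |deriv (cut n) y|) ≤ f (y, z) * (1 * cutd n y) := by gcongr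
    have e3 : f (y, z) * (a * |deriv (cut n) z|) ≤ f (y, z) * (1 * cutd n z) := by gcongr
    linarith
  have hcy : Continuous fun p : ℝ × ℝ => cutd n p.1 * f p :=
    ((continuous_cutd n).comp continuous_fst).mul hc
  have hcz : Continuous fun p : ℝ × ℝ => cutd n p.2 * f p :=
    ((continuous_cutd n).comp continuous_snd).mul hc
  have hS := sobolev_pair hG hGs hG0
  rw [integral_square (F := fun p => G p ^ 2) (hG.continuous.pow 2) fun y z hyz => by simp [hGz y z hyz],
    integral_square hgc hgz'] at hS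
  have hup : ∫ y in (0 : ℝ)..1, ∫ z in (0 : ℝ)..1, grad2 G (y, z)
      ≤ tv2 f + 2 * h 0 + 2 * k 0 + e / 2 := by
    refine (sq_mono hgc ((continuous_grad2 hf).fun_add (hcy.fun_add hcz))
      fun y _ z _ => hpt y z).trans ?_
    rw [sq_add (continuous_grad2 hf) (hcy.fun_add hcz), sq_add hcy hcz, sq_swap hcz]
    simp only [intervalIntegral.integral_const_mul]
    have : (∫ y in (0 : ℝ)..1, ∫ z in (0 : ℝ)..1, grad2 f (y, z)) = tv2 f := rfl
    linarith
  set K := ∫ y in (0 : ℝ)..1, ∫ z in (0 : ℝ)..1, G (y, z) ^ 2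
  have hlow : I ≤ K + 8 * M ^ 2 / n := by
    have c1 : Continuous fun p : ℝ × ℝ => 2 * M ^ 2 * (1 - cut n p.1) :=
      continuous_const.mul (continuous_const.sub ((contDiff_cut n).continuous.comp continuous_fst))
    have c2 : Continuous fun p : ℝ × ℝ => 2 * M ^ 2 * (1 - cut n p.2) :=
      continuous_const.mul (continuous_const.sub ((contDiff_cut n).continuous.comp continuous_snd))
    refine (sq_mono (G := fun p => G p ^ 2 + (2 * M ^ 2 * (1 - cut n p.1)
      + 2 * M ^ 2 * (1 - cut n p.2))) (hc.pow 2)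
      ((hG.continuous.pow 2).fun_add (c1.fun_add c2)) fun y hy z hz => ?_).trans ?_
    · obtain ⟨a0, a1⟩ := cut_mem hn2 y
      obtain ⟨b0, b1⟩ := cut_mem hn2 z
      have hfM : f (y, z) ^ 2 ≤ M ^ 2 :=
        pow_le_pow_left₀ (h0 _) ((le_abs_self _).trans (hM (y, z) ⟨hy, hz⟩)) 2
      simp only [G, mul_pow, Pi.pow_apply]
      set a := cut n y
      set b := cut n z
      set q := f (y, z) ^ 2
      have hab : a * b ≤ 1 := mul_le_one₀ a1 b0 b1
      have h1 : 1 - (a * b) ^ 2 ≤ 2 * ((1 - a) + (1 - b)) := by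
        nlinarith [mul_nonneg (sub_nonneg.2 a1) (sub_nonneg.2 b1), mul_nonneg a0 b0]
      have h2 := mul_le_mul_of_nonneg_left h1 (sq_nonneg (f (y, z)))
      have h3 := mul_le_mul_of_nonneg_right hfM
        (show (0 : ℝ) ≤ 2 * ((1 - a) + (1 - b)) by linarith)
      linarith [mul_pow a b 2]
    rw [sq_add (F := fun p => G p ^ 2) (hG.continuous.pow 2) (c1.fun_add c2), sq_add c1 c2, sq_swap c2]
    simp only [intervalIntegral.integral_const_mul, intervalIntegral.integral_const, sub_zero,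
      one_smul]
    rw [intervalIntegral.integral_sub (intervalIntegrable_const)
      ((contDiff_cut n).continuous.intervalIntegrable _ _), intervalIntegral.integral_const,
      sub_zero, one_smul]
    have := mul_le_mul_of_nonneg_left (cut_mass hn2) (show 0 ≤ 4 * M ^ 2 by positivity)
    have e8 : 8 * M ^ 2 / n = 4 * M ^ 2 * (2 / n) := by ring
    linarith
  have hK : 0 ≤ K := intervalIntegral.integral_nonneg zero_le_one fun y _ =>
    intervalIntegral.integral_nonneg zero_le_one fun z _ => sq_nonneg _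
  have hr : 8 * M ^ 2 / n ≤ (e / (2 * (P + 1))) ^ 2 := by
    have := mul_le_mul_of_nonneg_left hn4.le (show 0 ≤ 8 * M ^ 2 + 1 by positivity)
    rw [mul_div_cancel₀ _ (by positivity)] at this
    rw [div_eq_mul_one_div]
    nlinarith [show 0 ≤ 1 / n by positivity]
  have hsq : Real.sqrt I ≤ Real.sqrt K + e / (2 * (P + 1)) := by
    refine (Real.sqrt_le_sqrt (hlow.trans (add_le_add_right hr _))).trans ?_
    rw [Real.sqrt_le_left (by positivity)]
    nlinarith [Real.sq_sqrt hK, Real.sqrt_nonneg K, show 0 ≤ e / (2 * (P + 1)) by positivity]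
  have hPe : P * (e / (2 * (P + 1))) ≤ e / 2 := by
    rw [mul_div_assoc', div_le_div_iff₀ (by positivity) two_pos]
    nlinarith
  have := mul_le_mul_of_nonneg_left hsq hP
  linarith

/-- Cutting the torus along `y = y₀` and `z = z₀` gives the planar isoperimetric inequality. -/
theorem planar_cut {f : ℝ × ℝ → ℝ} (hf : ContDiff ℝ 1 f) (hp : Per2 f) (h0 : ∀ p, 0 ≤ f p)
    (y₀ z₀ : ℝ) :
    2 * Real.sqrt Real.pi * Real.sqrt (∫ y in (0 : ℝ)..1, ∫ z in (0 : ℝ)..1, f (y, z) ^ 2) ≤
      tv2 f + 2 * (∫ z in (0 : ℝ)..1, f (y₀, z)) + 2 * (∫ y in (0 : ℝ)..1, f (y, z₀)) := by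
  set a : ℝ × ℝ := (y₀, z₀)
  set f' : ℝ × ℝ → ℝ := fun p => f (p + a)
  have hf' : ContDiff ℝ 1 f' := hf.comp (contDiff_id.add contDiff_const)
  have hp' : Per2 f' := fun y z => by
    simp only [f', a, Prod.mk_add_mk]
    rw [show y + 1 + y₀ = y + y₀ + 1 by ring, show z + 1 + z₀ = z + z₀ + 1 by ring]
    exact hp _ _
  have sh : ∀ {g : ℝ → ℝ}, Function.Periodic g 1 → ∀ c : ℝ,
      ∫ t in (0 : ℝ)..1, g (t + c) = ∫ t in (0 : ℝ)..1, g t := fun hg c => by
    rw [intervalIntegral.integral_comp_add_right, zero_add, add_comm]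
    simpa using hg.intervalIntegral_add_eq c 0
  have sh2 : ∀ F : ℝ × ℝ → ℝ, Per2 F →
      ∫ y in (0 : ℝ)..1, ∫ z in (0 : ℝ)..1, F (y + y₀, z + z₀)
        = ∫ y in (0 : ℝ)..1, ∫ z in (0 : ℝ)..1, F (y, z) := fun F hF => by
    have e : ∀ y, ∫ z in (0 : ℝ)..1, F (y, z + z₀) = ∫ z in (0 : ℝ)..1, F (y, z) := fun y =>
      sh (g := fun z => F (y, z)) (fun z => (hF y z).2) z₀
    simp only [e]
    exact sh (g := fun y => ∫ z in (0 : ℝ)..1, F (y, z))
      (fun y => intervalIntegral.integral_congr fun z _ => (hF y z).1) y₀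
  have hd : ∀ p, fderiv ℝ f' p = fderiv ℝ f (p + a) := fun p => fderiv_comp_add_right a
  have hg : Per2 (grad2 f) := by
    have key : ∀ c : ℝ × ℝ, (∀ q, f (q + c) = f q) → ∀ q, grad2 f (q + c) = grad2 f q :=
      fun c hc q => by
        rw [grad2, grad2, ← fderiv_comp_add_right (f := f) c, show (fun q => f (q + c)) = f from funext hc]
    intro y z
    have h1 := key (1, 0) (fun q => by simpa [Prod.add_def] using (hp q.1 q.2).1) (y, z)
    have h2 := key (0, 1) (fun q => by simpa [Prod.add_def] using (hp q.1 q.2).2) (y, z)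
    simp only [Prod.mk_add_mk, add_zero] at h1 h2
    exact ⟨h1, h2⟩
  have h := planar_cut_zero hf' hp' fun p => h0 _
  have e1 : tv2 f' = tv2 f := by
    have : ∀ p, grad2 f' p = grad2 f (p + a) := fun p => by simp only [grad2, hd]
    show (∫ y in (0 : ℝ)..1, ∫ z in (0 : ℝ)..1, grad2 f' (y, z)) = _
    simp only [this, a, Prod.mk_add_mk]
    exact sh2 _ hg
  have e2 : ∀ g : ℝ → ℝ, Function.Periodic g 1 → ∀ c : ℝ,
      ∫ t in (0 : ℝ)..1, g (t + c) = ∫ t in (0 : ℝ)..1, g t := fun g hg c => sh hg c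
  rw [e1] at h
  simp only [f', a, Prod.mk_add_mk, zero_add] at h
  rw [sh2 (fun p => f p ^ 2) (fun y z => by simp [(hp y z).1, (hp y z).2]),
    e2 (fun z => f (y₀, z)) (fun z => (hp y₀ z).2) z₀,
    e2 (fun y => f (y, z₀)) (fun y => (hp y z₀).1) y₀] at h
  exact h

end

end Vale.Agent.P232
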