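import Vale.Agent.P232.Calib

/-! # P232: the chord calibration of round slices -/

namespace Vale.Agent.P232

noncomputable section

open Real MeasureTheory

lemma integral_mul_sqrt : (∫ t in (0 : ℝ)..1, t * √(1 - t ^ 2)) = 1 / 3 := by
  have h : ∀ t ∈ Set.Ioo (0 : ℝ) 1,
      HasDerivAt (fun x => -((1 - x ^ 2) * √(1 - x ^ 2)) / 3) (t * √(1 - t ^ 2)) t := by
    intro t ht
    have hp : 0 < 1 - t ^ 2 := by nlinarith [ht.1, ht.2]
    have h1 : HasDerivAt (fun x : ℝ => 1 - x ^ 2) (-(2 * t)) t := by
      simpa using (hasDerivAt_pow 2 t).const_sub 1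
    refine (((h1.mul (h1.sqrt hp.ne')).neg).div_const 3).congr_deriv ?_
    have hs := Real.mul_self_sqrt hp.le
    field_simp
    rw [Real.sq_sqrt hp.le]
    ring
  rw [intervalIntegral.integral_eq_sub_of_hasDerivAt_of_le zero_le_one (by fun_prop) h
    (by apply Continuous.intervalIntegrable; fun_prop)]
  norm_num

lemma integral_sqrt_mul : (∫ t in (0 : ℝ)..1, √(t * (1 - t))) = π / 8 := by
  have e : ∀ t : ℝ, √(t * (1 - t)) = 1 / 2 * √(1 - (2 * t + -1) ^ 2) := by
    intro t
    rw [show 1 - (2 * t + -1) ^ 2 = 4 * (t * (1 - t)) by ring,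
      Real.sqrt_mul (x := 4) (by norm_num),
      show √(4 : ℝ) = 2 by rw [show (4 : ℝ) = 2 ^ 2 by norm_num, Real.sqrt_sq (by norm_num)]]
    ring
  simp_rw [e]
  rw [intervalIntegral.integral_const_mul,
    intervalIntegral.integral_comp_mul_add (fun x => √(1 - x ^ 2)) two_ne_zero]
  norm_num [integral_sqrt_one_sub_sq]
  ring

/-- The calibration of the chord through `q` and `p`. -/
def rbeta (p q x : ℝ) : ℝ := √(max 0 (1 - ((√x + p * q / √x) / (p + q)) ^ 2))

lemma rbeta_adm {p q x : ℝ} (hq : 0 ≤ q) (hS : 0 < p + q) (h1 : q ^ 2 ≤ x) (h2 : x ≤ p ^ 2)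
    (hp : 0 ≤ p) :
    0 ≤ rbeta p q x ∧
      (√π / (p + q) * x + √π * p * q / (p + q)) ^ 2 + √(π * x) ^ 2 * rbeta p q x ^ 2
        ≤ √(π * x) ^ 2 ∧ rbeta p q x ≤ 1 := by
  have x0 : 0 ≤ x := (sq_nonneg q).trans h1
  refine ⟨Real.sqrt_nonneg _, ?_, ?_⟩
  · rw [Real.sq_sqrt (by positivity), rbeta, Real.sq_sqrt (le_max_left _ _)]
    rcases x0.eq_or_lt with h | h
    · have : q = 0 := by nlinarith
      simp [← h, this]
    set s := √x with hs
    have s0 : 0 < s := Real.sqrt_pos.2 h
    have xs : x = s ^ 2 := (Real.sq_sqrt x0).symm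
    have s1 : q ≤ s := Real.le_sqrt_of_sq_le h1
    have s2 : s ≤ p := Real.sqrt_le_iff.2 ⟨hp, h2⟩
    have hr : (s + p * q / s) / (p + q) ≤ 1 := by
      rw [div_le_one hS, add_div' _ _ _ s0.ne', div_le_iff₀ s0]
      nlinarith [mul_nonneg (sub_nonneg.2 s1) (sub_nonneg.2 s2)]
    have hr0 : 0 ≤ (s + p * q / s) / (p + q) := by positivity
    rw [max_eq_right (by nlinarith)]
    have e : (√π / (p + q) * x + √π * p * q / (p + q)) ^ 2 =
        π * x * ((s + p * q / s) / (p + q)) ^ 2 := by
      rw [xs]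
      field_simp
      rw [Real.sq_sqrt Real.pi_pos.le]
    rw [e]
    linarith
  · rw [rbeta, Real.sqrt_le_one]
    exact max_le zero_le_one (by nlinarith [sq_nonneg ((√x + p * q / √x) / (p + q))])

lemma rbeta_cont {p q : ℝ} (hq : 0 ≤ q) :
    ContinuousOn (rbeta p q) (Set.Icc (q ^ 2) (p ^ 2)) := by
  rcases hq.eq_or_lt with rfl | h
  · unfold rbeta
    simp only [mul_zero, zero_div, add_zero]
    exact (by fun_prop : Continuous fun x => √(max 0 (1 - (√x / p) ^ 2))).continuousOn
  · have hne : ∀ x ∈ Set.Icc (q ^ 2) (p ^ 2), √x ≠ 0 := fun x hx =>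
      (Real.sqrt_pos.2 (lt_of_lt_of_le (by positivity) hx.1)).ne'
    refine ((continuousOn_const).sup (continuousOn_const.sub
      (((Real.continuous_sqrt.continuousOn.add
        (continuousOn_const.div Real.continuous_sqrt.continuousOn hne)).div_const _).pow 2))).sqrt

/-- The integral of the calibration. -/
lemma integral_rbeta_ge {p q : ℝ} (hq : 0 ≤ q) (hqp : q ≤ p) (hS : 0 < p + q) :
    (2 / 3 * (p - q) ^ 3 + π / 2 * (p - q) ^ 2 * q) / (p + q) ≤
      ∫ x in q ^ 2..p ^ 2, rbeta p q x := by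
  set D := p - q with hD
  have hD0 : 0 ≤ D := by linarith
  set F : ℝ → ℝ := fun t => (q + D * t) ^ 2 with hF
  have hF' : ∀ t, HasDerivAt F (2 * D * (q + D * t)) t := fun t => by
    have : HasDerivAt (fun t => q + D * t) D t := by
      simpa using ((hasDerivAt_id t).const_mul D).const_add q
    exact (this.pow 2).congr_deriv (by norm_num; ring)
  have himg : F '' Set.uIcc 0 1 ⊆ Set.Icc (q ^ 2) (p ^ 2) := by
    rintro _ ⟨t, ht, rfl⟩
    rw [Set.uIcc_of_le zero_le_one] at ht
    have := mul_nonneg hD0 ht.1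
    have := mul_le_of_le_one_right hD0 ht.2
    constructor <;> simp only [hF] <;> nlinarith
  have sub := intervalIntegral.integral_comp_mul_deriv' (a := (0 : ℝ)) (b := 1) (f := F)
    (f' := fun t => 2 * D * (q + D * t)) (g := rbeta p q) (fun t _ => hF' t) (by fun_prop)
    ((rbeta_cont hq).mono himg)
  have e0 : F 0 = q ^ 2 := by simp [hF]
  have e1 : F 1 = p ^ 2 := by simp [hF, hD]
  rw [e0, e1] at sub
  rw [← sub]
  have cont : ContinuousOn (fun t => (rbeta p q ∘ F) t * (2 * D * (q + D * t))) (Set.Icc 0 1) :=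
    ((rbeta_cont hq).comp (by fun_prop) fun t ht => himg ⟨t, by
      rwa [Set.uIcc_of_le zero_le_one], rfl⟩).mul (by fun_prop)
  calc (2 / 3 * D ^ 3 + π / 2 * D ^ 2 * q) / (p + q)
      = ∫ t in (0 : ℝ)..1, 2 * D ^ 2 / (p + q) * (D * (t * √(1 - t ^ 2)) + 2 * q * √(t * (1 - t))) := by
        rw [intervalIntegral.integral_const_mul, intervalIntegral.integral_add
          (by apply Continuous.intervalIntegrable; fun_prop)
          (by apply Continuous.intervalIntegrable; fun_prop),
          intervalIntegral.integral_const_mul, intervalIntegral.integral_const_mul,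
          integral_mul_sqrt, integral_sqrt_mul]
        field_simp
        ring
    _ ≤ _ := by
      refine intervalIntegral.integral_mono_on zero_le_one
        (by apply Continuous.intervalIntegrable; fun_prop)
        (cont.intervalIntegrable_of_Icc zero_le_one) fun t ht => ?_
      obtain ⟨t0, t1⟩ := ht
      set s := q + D * t with hs
      have s0 : 0 ≤ s := by positivity
      have h1 : 0 ≤ t * (1 - t) := mul_nonneg t0 (by linarith)
      rcases s0.eq_or_lt with h | h
      · have hq0 : q = 0 := by nlinarith [mul_nonneg hD0 t0]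
        have hDt : D * t = 0 := by linarith
        have : D * (t * √(1 - t ^ 2)) = 0 := by rw [← mul_assoc, hDt, zero_mul]
        rw [this, hq0, ← h]
        simp
      have hd : 0 ≤ D * √(t * (1 - t)) := by positivity
      have key : D * √(t * (1 - t)) * (D * √(t * (1 + t)) + 2 * q) / (p + q) ≤
          rbeta p q (s ^ 2) * s := by
        rw [rbeta, Real.sqrt_sq s0]
        nth_rw 3 [show s = √(s ^ 2) from (Real.sqrt_sq s0).symm]
        rw [← Real.sqrt_mul (le_max_left _ _)]
        refine Real.le_sqrt_of_sq_le (le_trans ?_ (mul_le_mul_of_nonneg_right (le_max_right _ _)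
          (sq_nonneg s)))
        have e : (1 - ((s + p * q / s) / (p + q)) ^ 2) * s ^ 2 =
            (p + s) * (s + q) * (D * D * (t * (1 - t))) / (p + q) ^ 2 := by
          have hs0 : s ≠ 0 := h.ne'
          calc (1 - ((s + p * q / s) / (p + q)) ^ 2) * s ^ 2
              = (((p + q) * s) ^ 2 - (s ^ 2 + p * q) ^ 2) / (p + q) ^ 2 := by field_simp
            _ = _ := by
              congr 1
              rw [show p = q + D by linarith, hs]
              ring
        rw [e, div_pow, mul_pow, mul_pow, Real.sq_sqrt h1]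
        refine div_le_div_of_nonneg_right ?_ (sq_nonneg _)
        have cs : (D * √(t * (1 + t)) + 2 * q) ^ 2 ≤ (p + s) * (s + q) := by
          have h2 : 0 ≤ t * (1 + t) := by positivity
          set r := √(t * (1 + t)) with hr
          have hr2 : r ^ 2 = t * (1 + t) := Real.sq_sqrt h2
          have hr1 : r ≤ t + 1 / 2 := Real.sqrt_le_iff.2 ⟨by linarith, by nlinarith⟩
          rw [show p = q + D by linarith, hs]
          nlinarith [mul_le_mul_of_nonneg_left hr1 (mul_nonneg hD0 hq)]
        calc D ^ 2 * (t * (1 - t)) * (D * √(t * (1 + t)) + 2 * q) ^ 2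
            ≤ D ^ 2 * (t * (1 - t)) * ((p + s) * (s + q)) :=
              mul_le_mul_of_nonneg_left cs (by positivity)
          _ = _ := by ring
      have e2 : t * √(1 - t ^ 2) = √(t * (1 + t)) * √(t * (1 - t)) := by
        rw [← Real.sqrt_mul (by positivity),
          show t * (1 + t) * (t * (1 - t)) = t ^ 2 * (1 - t ^ 2) by ring,
          Real.sqrt_mul (sq_nonneg t), Real.sqrt_sq t0]
      calc 2 * D ^ 2 / (p + q) * (D * (t * √(1 - t ^ 2)) + 2 * q * √(t * (1 - t)))
          = 2 * D * (D * √(t * (1 - t)) * (D * √(t * (1 + t)) + 2 * q) / (p + q)) := by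
            rw [e2]; ring
        _ ≤ 2 * D * (rbeta p q (s ^ 2) * s) := mul_le_mul_of_nonneg_left key (by positivity)
        _ = _ := by simp only [hF, Function.comp_apply, ← hs]; ring

end

end Vale.Agent.P232
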