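import Vale.Agent.P232.Defs

/-! # P232: smooth periodic densities -/

namespace Vale.Agent.P232

noncomputable section

open MeasureTheory

/-- A smooth periodic density with values in `[0,1]`. -/
structure Dens (w : ℝ × ℝ × ℝ → ℝ) : Prop where
  smooth : ContDiff ℝ 2 w
  per : Per w
  mem : ∀ p, w p ∈ Set.Icc (0 : ℝ) 1

/-- Triple integral over the unit cube, first coordinate outermost. -/
def int3 (F : ℝ × ℝ × ℝ → ℝ) : ℝ :=
  ∫ t in (0 : ℝ)..1, ∫ y in (0 : ℝ)..1, ∫ z in (0 : ℝ)..1, F (t, y, z)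

/-- Euclidean norm of the gradient. -/
def gnorm (w : ℝ × ℝ × ℝ → ℝ) (p : ℝ × ℝ × ℝ) : ℝ :=
  Real.sqrt (fderiv ℝ w p e₁ ^ 2 + fderiv ℝ w p e₂ ^ 2 + fderiv ℝ w p e₃ ^ 2)

end

end Vale.Agent.P232
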