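import Vale.Agent.P237.BM

/-! P232: the sharp Sobolev inequality `L¹ → L²` in the plane. -/

open MeasureTheory Set Metric
open scoped ENNReal Pointwise

namespace Vale.Agent.P232

open P237 (E)

noncomputable section

lemma lintegral_sq_le {f : E 2 → ℝ} (hf : Continuous f) :
    ∫⁻ x, ENNReal.ofReal (f x) ^ (2 : ℝ)
      ≤ (∫⁻ x, ENNReal.ofReal (f x) ^ (2 : ℝ)) ^ (1 / 2 : ℝ) *
        ∫⁻ s in Ioi (0 : ℝ), volume {x | s ≤ f x} ^ (1 / 2 : ℝ) := by
  set F : E 2 → ℝ≥0∞ := fun x => ENNReal.ofReal (f x)
  have hF : Measurable F := hf.measurable.ennreal_ofReal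
  set S := {p : E 2 × ℝ | p.2 ≤ f p.1}
  have hS : MeasurableSet S := measurableSet_le measurable_snd (hf.measurable.comp measurable_fst)
  have hx : ∀ x, F x ^ (2 : ℝ) = ∫⁻ s in Ioi (0 : ℝ), S.indicator (fun p => F p.1) (x, s) := by
    intro x
    have e : (fun s => S.indicator (fun p => F p.1) (x, s)) = (Iic (f x)).indicator fun _ => F x := by
      funext s; simp [S, indicator]
    rw [e, setLIntegral_indicator measurableSet_Iic, setLIntegral_const, Iic_inter_Ioi,
      Real.volume_Ioc, sub_zero, ENNReal.rpow_two, sq]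
  have hK : ∀ s, MeasurableSet {x | s ≤ f x} := fun s => measurableSet_le measurable_const hf.measurable
  calc ∫⁻ x, F x ^ (2 : ℝ)
      = ∫⁻ x, ∫⁻ s in Ioi (0 : ℝ), S.indicator (fun p => F p.1) (x, s) := lintegral_congr hx
    _ = ∫⁻ s in Ioi (0 : ℝ), ∫⁻ x, S.indicator (fun p => F p.1) (x, s) :=
        lintegral_lintegral_swap ((hF.comp measurable_fst).indicator hS).aemeasurable
    _ ≤ ∫⁻ s in Ioi (0 : ℝ),
          (∫⁻ x, F x ^ (2 : ℝ)) ^ (1 / 2 : ℝ) * volume {x | s ≤ f x} ^ (1 / 2 : ℝ) := by
        refine lintegral_mono fun s => ?_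
        have e : (fun x => S.indicator (fun p => F p.1) (x, s)) = {x | s ≤ f x}.indicator F := by
          funext x; simp [S, indicator]
        simp only [e]
        rw [lintegral_indicator (hK s)]
        have h := ENNReal.lintegral_mul_le_Lp_mul_Lq (volume.restrict {x | s ≤ f x})
          Real.HolderConjugate.two_two hF.aemeasurable (aemeasurable_const (b := (1 : ℝ≥0∞)))
        simp only [Pi.mul_apply, mul_one, ENNReal.one_rpow, lintegral_one,
          Measure.restrict_apply_univ] at h
        exact h.trans (mul_le_mul_left (ENNReal.rpow_le_rpow (setLIntegral_le_lintegral _ _)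
          (by norm_num)) _)
    _ = _ := lintegral_const_mul _ ((Antitone.measurable fun s t hst =>
        measure_mono fun x (hx : t ≤ f x) => hst.trans hx).pow_const _)

lemma sqrt_le_of_le_mul {N : ℝ} (hN : 0 < N) {P : ℝ≥0∞}
    (h : ENNReal.ofReal N ≤ ENNReal.ofReal N ^ (1 / 2 : ℝ) * P) :
    ENNReal.ofReal (Real.sqrt N) ≤ P := by
  rw [ENNReal.ofReal_rpow_of_nonneg hN.le (by norm_num), ← Real.sqrt_eq_rpow] at h
  have e : ENNReal.ofReal N = ENNReal.ofReal (Real.sqrt N) * ENNReal.ofReal (Real.sqrt N) := by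
    rw [← ENNReal.ofReal_mul (Real.sqrt_nonneg _), Real.mul_self_sqrt hN.le]
  rw [e] at h
  exact (ENNReal.mul_le_mul_iff_right (by simpa using hN) ENNReal.ofReal_ne_top).1 h

/-- The sharp Sobolev inequality of exponent one in the plane. -/
theorem sobolev {f : E 2 → ℝ} (hf : ContDiff ℝ 1 f) (hs : HasCompactSupport f)
    (h0 : ∀ x, 0 ≤ f x) :
    2 * Real.sqrt Real.pi * Real.sqrt (∫ x, f x ^ 2) ≤ ∫ x, ‖fderiv ℝ f x‖ := by
  have hc := hf.continuous
  have hdc : Continuous fun x => ‖fderiv ℝ f x‖ := (hf.continuous_fderiv (by simp)).norm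
  obtain ⟨R, hR⟩ := hs.isBounded.subset_closedBall (0 : E 2)
  set B := closedBall (0 : E 2) (R + 1) with hB
  set J := ∫ x, ‖fderiv ℝ f x‖
  set N := ∫ x, f x ^ 2
  have hN : 0 ≤ N := integral_nonneg fun x => sq_nonneg _
  have hfz : ∀ x, x ∉ closedBall (0 : E 2) R → f x = 0 := fun x hx =>
    image_eq_zero_of_notMem_tsupport fun h => hx (hR h)
  have hdz : ∀ x, x ∉ closedBall (0 : E 2) R → fderiv ℝ f x = 0 := fun x hx =>
    image_eq_zero_of_notMem_tsupport fun h => hx (hR (tsupport_fderiv_subset ℝ h))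
  refine le_of_forall_pos_le_add fun e he => ?_
  set η := e / (volume.real B + 1)
  have hη : 0 < η := div_pos he (by positivity)
  obtain ⟨δ, hδ, hu⟩ := Metric.uniformContinuous_iff.1
    ((hs.fderiv (𝕜 := ℝ)).uniformContinuous_of_continuous (hf.continuous_fderiv (by simp))) η hη
  set ε := min (δ / 2) 1
  have hε : 0 < ε := lt_min (half_pos hδ) one_pos
  set hh : E 2 → ℝ := B.indicator fun x => f x + ε * (‖fderiv ℝ f x‖ + η) with hhdef
  have key : ∀ x z, ‖z - x‖ ≤ ε → f z ≤ f x + ε * (‖fderiv ℝ f x‖ + η) := by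
    intro x z hz
    have h := (convex_closedBall x ε).norm_image_sub_le_of_norm_fderiv_le (𝕜 := ℝ) (f := f)
      (C := ‖fderiv ℝ f x‖ + η) (fun w _ => hf.differentiable (by simp) w) (fun w hw => ?_)
      (mem_closedBall_self hε.le) (show z ∈ closedBall x ε by rwa [mem_closedBall, dist_eq_norm])
    · rw [Real.norm_eq_abs] at h
      have h1 := mul_le_mul_of_nonneg_left hz (show (0 : ℝ) ≤ ‖fderiv ℝ f x‖ + η by positivity)
      linarith [le_abs_self (f z - f x), mul_comm ε (‖fderiv ℝ f x‖ + η)]
    · have hd : dist w x < δ := lt_of_le_of_lt ((mem_closedBall.1 hw).trans (min_le_left _ _))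
        (half_lt_self hδ)
      have h2 := hu hd
      rw [dist_eq_norm] at h2
      linarith [norm_le_norm_add_norm_sub' (fderiv ℝ f w) (fderiv ℝ f x)]
  have hh0 : ∀ x, 0 ≤ hh x := fun x => indicator_nonneg (fun y _ => by
    have := h0 y; positivity) x
  have hsub : ∀ s, 0 < s → {x | s ≤ f x} + closedBall (0 : E 2) ε ⊆ {x | s ≤ hh x} := by
    rintro s hs' _ ⟨z, hz, b, hb, rfl⟩
    have hb' : ‖b‖ ≤ ε := mem_closedBall_zero_iff.1 hb
    have hzR : ‖z‖ ≤ R := by
      by_contra hc'
      linarith [hfz z (by simpa [mem_closedBall_zero_iff] using hc'), show s ≤ f z from hz]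
    have hm : z + b ∈ B := mem_closedBall_zero_iff.2
      ((norm_add_le _ _).trans (add_le_add hzR (hb'.trans (min_le_right _ _))))
    show s ≤ hh (z + b)
    rw [hhdef, indicator_of_mem hm]
    exact le_trans hz (key _ _ (by simpa using hb'))
  have hbm : ∀ s ∈ Ioi (0 : ℝ), volume {x | s ≤ f x}
      + ENNReal.ofReal (2 * Real.sqrt Real.pi * ε) * volume {x | s ≤ f x} ^ (1 / 2 : ℝ)
      ≤ volume {x | s ≤ hh x} := by
    intro s (hs' : 0 < s)
    set K := {x | s ≤ f x}
    have hKc : IsCompact K := hs.isCompact.of_isClosed_subset (isClosed_le continuous_const hc)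
      fun x (hx : s ≤ f x) => subset_tsupport f (Function.mem_support.2 (hs'.trans_le hx).ne')
    rcases K.eq_empty_or_nonempty with hK | hK
    · simp [hK]
    set a := Real.sqrt (volume K).toReal
    have hKa : volume K = ENNReal.ofReal (a ^ 2) := by
      rw [Real.sq_sqrt ENNReal.toReal_nonneg, ENNReal.ofReal_toReal hKc.measure_lt_top.ne]
    have h := P237.bm hKc (isCompact_closedBall (0 : E 2) ε) hK ⟨0, mem_closedBall_self hε.le⟩
      (Real.sqrt_nonneg _) (b := Real.sqrt Real.pi * ε) (by positivity)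
      (Real.sq_sqrt ENNReal.toReal_nonneg).le (le_of_eq ?_)
    · refine le_trans ?_ ((ENNReal.ofReal_le_ofReal h).trans
        (ENNReal.ofReal_toReal_le.trans (measure_mono (hsub s hs'))))
      have hrt : volume K ^ (1 / 2 : ℝ) = ENNReal.ofReal a := by
        conv_lhs => rw [hKa]
        rw [ENNReal.ofReal_rpow_of_nonneg (sq_nonneg _) (by norm_num), ← Real.sqrt_eq_rpow,
          Real.sqrt_sq (Real.sqrt_nonneg _)]
      rw [hrt, ← ENNReal.ofReal_mul (by positivity)]
      conv_lhs => arg 1; rw [hKa]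
      rw [← ENNReal.ofReal_add (sq_nonneg _) (by positivity)]
      exact ENNReal.ofReal_le_ofReal
        (show a ^ 2 + 2 * Real.sqrt Real.pi * ε * a ≤ (a + Real.sqrt Real.pi * ε) ^ 2 by
          nlinarith [sq_nonneg (Real.sqrt Real.pi * ε)])
    · rw [mul_pow, Real.sq_sqrt Real.pi_pos.le, EuclideanSpace.volume_closedBall_fin_two]
      simp [ENNReal.toReal_ofReal hε.le, Real.pi_pos.le]
      ring
  have hmeas : Measurable hh :=
    (hc.add (continuous_const.mul (hdc.add continuous_const))).measurable.indicator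
      measurableSet_closedBall
  have hint : Integrable hh := IntegrableOn.integrable_indicator
    ((hc.add (continuous_const.mul (hdc.add continuous_const))).continuousOn.integrableOn_compact
      (isCompact_closedBall _ _)) measurableSet_closedBall
  have hfi : Integrable f := hc.integrable_of_hasCompactSupport hs
  have hle : ∫ x, hh x ≤ (∫ x, f x) + ε * (J + e) := by
    have e1 : hh = fun x => f x + ε * (‖fderiv ℝ f x‖ + B.indicator (fun _ => η) x) := by
      funext x
      by_cases hx : x ∈ B
      · simp [hhdef, indicator_of_mem hx]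
      · have hx' : x ∉ closedBall (0 : E 2) R := fun h =>
          hx (closedBall_subset_closedBall (by linarith) h)
        simp [hhdef, indicator_of_notMem hx, hfz x hx', hdz x hx']
    have hdi : Integrable fun x => ‖fderiv ℝ f x‖ :=
      hdc.integrable_of_hasCompactSupport ((hs.fderiv (𝕜 := ℝ)).norm)
    have hBi : Integrable (B.indicator fun _ => η) :=
      (integrableOn_const (isCompact_closedBall _ _).measure_lt_top.ne).integrable_indicator
        measurableSet_closedBall
    rw [e1, integral_add hfi ((hdi.fun_add hBi).const_mul ε), integral_const_mul,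
      integral_add hdi hBi, integral_indicator_const _ measurableSet_closedBall, smul_eq_mul]
    gcongr
    rw [← mul_div_assoc, div_le_iff₀ (by positivity)]
    nlinarith
  rcases hN.eq_or_lt with hN0 | hN0
  · rw [← hN0]
    simp only [Real.sqrt_zero, mul_zero]
    have : 0 ≤ J := integral_nonneg fun x => norm_nonneg _
    linarith
  have hF2 : ∫⁻ x, ENNReal.ofReal (f x) ^ (2 : ℝ) = ENNReal.ofReal N := by
    rw [ofReal_integral_eq_lintegral_ofReal (f := fun x => f x ^ 2)
      ((hc.pow 2).integrable_of_hasCompactSupport ?_)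
      (Filter.Eventually.of_forall fun x => sq_nonneg _)]
    · refine lintegral_congr fun x => ?_
      rw [ENNReal.ofReal_rpow_of_nonneg (h0 x) (by norm_num), Real.rpow_two]
    · exact hs.mono fun x (hx : (f ^ 2) x ≠ 0) h => hx (by simp [h])
  have hΦ : ENNReal.ofReal (Real.sqrt N)
      ≤ ∫⁻ s in Ioi (0 : ℝ), volume {x | s ≤ f x} ^ (1 / 2 : ℝ) := by
    have h := lintegral_sq_le hc
    rw [hF2] at h
    exact sqrt_le_of_le_mul hN0 h
  have hmain : ENNReal.ofReal (∫ x, f x)
      + ENNReal.ofReal (2 * Real.sqrt Real.pi * ε) * ENNReal.ofReal (Real.sqrt N)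
      ≤ ENNReal.ofReal (∫ x, hh x) := by
    rw [ofReal_integral_eq_lintegral_ofReal hfi (Filter.Eventually.of_forall h0),
      ofReal_integral_eq_lintegral_ofReal hint (Filter.Eventually.of_forall hh0),
      lintegral_eq_lintegral_meas_le _ (Filter.Eventually.of_forall h0) hc.measurable.aemeasurable,
      lintegral_eq_lintegral_meas_le _ (Filter.Eventually.of_forall hh0) hmeas.aemeasurable]
    refine le_trans (add_le_add_right (mul_le_mul_right hΦ _) _) ?_
    rw [← lintegral_const_mul' _ _ ENNReal.ofReal_ne_top,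
      ← lintegral_add_left (f := fun t : ℝ => volume {x | t ≤ f x})
      (Antitone.measurable fun s t hst => measure_mono fun x (hx : t ≤ f x) => hst.trans hx)]
    exact setLIntegral_mono' measurableSet_Ioi hbm
  rw [← ENNReal.ofReal_mul (by positivity), ← ENNReal.ofReal_add (integral_nonneg h0) (by positivity),
    ENNReal.ofReal_le_ofReal_iff (integral_nonneg hh0)] at hmain
  nlinarith

end

end Vale.Agent.P232
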