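import Vale.Agent.P232.Band
import Vale.Agent.P232.Axis

/-!
# P232: widths of slices

For a function `v` on the square torus `wide v` is the mass of the projection of `v` to the first
coordinate and `narrow v` that of the lines along which `v` is full. A planar slice pays at least the
half perimeter of a stadium inside a strip of width `wide v`, and a band pays for the difference
`wide v - narrow v`.
-/

namespace Vale.Agent.P232

noncomputable section

open MeasureTheory Set

/-- The greatest value on a line. -/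
def hiLine (v : ℝ × ℝ → ℝ) (y : ℝ) : ℝ := sSup ((fun z => v (y, z)) '' Icc 0 1)

/-- The least value on a line. -/
def loLine (v : ℝ × ℝ → ℝ) (y : ℝ) : ℝ := sInf ((fun z => v (y, z)) '' Icc 0 1)

/-- The mass of the projection to the first coordinate. -/
def wide (v : ℝ × ℝ → ℝ) : ℝ := ∫ y in (0 : ℝ)..1, hiLine v y

/-- The mass of the full lines. -/
def narrow (v : ℝ × ℝ → ℝ) : ℝ := ∫ y in (0 : ℝ)..1, loLine v y

/-- Half the perimeter of the least convex set of area `N` in a strip of width `w`. -/
def csW (w N : ℝ) : ℝ :=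
  if Real.pi / 4 * w ^ 2 ≤ N then N / w + Real.pi / 4 * w else √(Real.pi * N)

variable {v u : ℝ × ℝ → ℝ}

lemma continuous_hiLine (hv : Continuous v) : Continuous (hiLine v) :=
  isCompact_Icc.continuous_sSup (f := fun y z => v (y, z)) hv

lemma continuous_loLine (hv : Continuous v) : Continuous (loLine v) :=
  isCompact_Icc.continuous_sInf (f := fun y z => v (y, z)) hv

lemma hiLine_spec (hv : Continuous v) (hp : Per2 v) (y : ℝ) :
    (∀ z, v (y, z) ≤ hiLine v y) ∧ ∃ z, v (y, z) = hiLine v y := by
  have hK : IsCompact (Icc (0 : ℝ) 1) := isCompact_Icc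
  have hne : (Icc (0 : ℝ) 1).Nonempty := nonempty_Icc.2 zero_le_one
  obtain ⟨z₁, -, e, hle⟩ := hK.exists_sSup_image_eq_and_ge hne
    (hv.comp (by fun_prop : Continuous fun z : ℝ => (y, z))).continuousOn
  refine ⟨fun z => ?_, z₁, e.symm⟩
  have hper : Function.Periodic (fun z => v (y, z)) 1 := fun z => (hp y z).2
  obtain ⟨z', hz', ez⟩ := hper.exists_mem_Ico₀ one_pos z
  show v (y, z) ≤ sSup _
  rw [show v (y, z) = v (y, z') from ez]
  exact (hle z' (Ico_subset_Icc_self hz')).trans e.symm.le

lemma loLine_spec (hv : Continuous v) (hp : Per2 v) (y : ℝ) :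
    (∀ z, loLine v y ≤ v (y, z)) ∧ ∃ z, v (y, z) = loLine v y := by
  have hK : IsCompact (Icc (0 : ℝ) 1) := isCompact_Icc
  have hne : (Icc (0 : ℝ) 1).Nonempty := nonempty_Icc.2 zero_le_one
  obtain ⟨z₁, -, e, hle⟩ := hK.exists_sInf_image_eq_and_le hne
    (hv.comp (by fun_prop : Continuous fun z : ℝ => (y, z))).continuousOn
  refine ⟨fun z => ?_, z₁, e.symm⟩
  have hper : Function.Periodic (fun z => v (y, z)) 1 := fun z => (hp y z).2
  obtain ⟨z', hz', ez⟩ := hper.exists_mem_Ico₀ one_pos z
  show sInf _ ≤ v (y, z)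
  rw [show v (y, z) = v (y, z') from ez]
  exact e.le.trans (hle z' (Ico_subset_Icc_self hz'))

lemma hiLine_periodic (hp : Per2 v) : Function.Periodic (hiLine v) 1 := fun y => by
  simp only [hiLine, (hp y _).1]

lemma hiLine_mem (hv : Dens2 v) (y : ℝ) : hiLine v y ∈ Icc (0 : ℝ) 1 := by
  obtain ⟨z, e⟩ := (hiLine_spec hv.smooth.continuous hv.per y).2
  exact e ▸ hv.mem _

lemma area2_le_wide (hv : Dens2 v) : area2 v ≤ wide v := by
  refine intervalIntegral.integral_mono_on zero_le_one
    ((cont_inner hv.smooth.continuous).intervalIntegrable _ _)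
    ((continuous_hiLine hv.smooth.continuous).intervalIntegrable _ _) fun y _ => ?_
  exact (intervalIntegral.integral_mono_on zero_le_one
    ((hv.smooth.continuous.comp (by fun_prop : Continuous fun z : ℝ => (y, z))).intervalIntegrable _ _)
    intervalIntegrable_const fun z _ =>
      (hiLine_spec hv.smooth.continuous hv.per y).1 z).trans_eq (by simp)

lemma narrow_le_area2 (hv : Dens2 v) : narrow v ≤ area2 v := by
  refine intervalIntegral.integral_mono_on zero_le_one
    ((continuous_loLine hv.smooth.continuous).intervalIntegrable _ _)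
    ((cont_inner hv.smooth.continuous).intervalIntegrable _ _) fun y _ => ?_
  refine le_trans (le_of_eq ?_) (intervalIntegral.integral_mono_on zero_le_one
    (f := fun _ => loLine v y) intervalIntegrable_const
    ((hv.smooth.continuous.comp (by fun_prop : Continuous fun z : ℝ => (y, z))).intervalIntegrable _ _)
    fun z _ => (loLine_spec hv.smooth.continuous hv.per y).1 z)
  simp

lemma wide_mono (hv : Continuous v) (hu : Continuous u) (hpv : Per2 v) (hpu : Per2 u)
    (h : ∀ p, v p ≤ u p) : wide v ≤ wide u := by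
  refine intervalIntegral.integral_mono_on zero_le_one
    ((continuous_hiLine hv).intervalIntegrable _ _)
    ((continuous_hiLine hu).intervalIntegrable _ _) fun y _ => ?_
  obtain ⟨z, e⟩ := (hiLine_spec hv hpv y).2
  exact e ▸ (h _).trans ((hiLine_spec hu hpu y).1 z)

lemma narrow_mono (hv : Continuous v) (hu : Continuous u) (hpv : Per2 v) (hpu : Per2 u)
    (h : ∀ p, v p ≤ u p) : narrow v ≤ narrow u := by
  refine intervalIntegral.integral_mono_on zero_le_one
    ((continuous_loLine hv).intervalIntegrable _ _)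
    ((continuous_loLine hu).intervalIntegrable _ _) fun y _ => ?_
  obtain ⟨z, e⟩ := (loLine_spec hu hpu y).2
  exact e ▸ ((loLine_spec hv hpv y).1 z).trans (h _)

/-- The width of the complement. -/
lemma wide_one_sub (hv : Dens2 v) : wide (fun p => 1 - v p) = 1 - narrow v := by
  have hc := hv.smooth.continuous
  have hp : Per2 fun p => 1 - v p := fun y z => ⟨by simp [(hv.per y z).1], by simp [(hv.per y z).2]⟩
  have hc' : Continuous fun p => 1 - v p := continuous_const.sub hc
  have e : hiLine (fun p => 1 - v p) = fun y => 1 - loLine v y := by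
    funext y
    obtain ⟨h1, z₁, e₁⟩ := hiLine_spec hc' hp y
    obtain ⟨h2, z₂, e₂⟩ := loLine_spec hc hv.per y
    refine le_antisymm ?_ ?_
    · rw [← e₁]; linarith [h2 z₁]
    · rw [← e₂]; exact h1 z₂
  simp only [wide, narrow, e]
  rw [intervalIntegral.integral_sub intervalIntegrable_const
    ((continuous_loLine hc).intervalIntegrable _ _)]
  simp

/-- Every line meeting the top level gives full width. -/
lemma wide_eq_one (hv : Dens2 v) (h : ∀ y, ∃ z, v (y, z) = 1) : wide v = 1 := by
  have e : hiLine v = fun _ => (1 : ℝ) := by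
    funext y
    obtain ⟨z, hz⟩ := h y
    exact le_antisymm (hiLine_mem hv y).2 (hz ▸ (hiLine_spec hv.smooth.continuous hv.per y).1 z)
  simp [wide, e]

lemma csW_le {W w N : ℝ} (hW : 0 < W) (hw : W ≤ w) (hN : 0 ≤ N) :
    csW w N ≤ N / W + Real.pi / 4 * W := by
  have hπ := Real.pi_pos
  unfold csW
  split_ifs with h
  · have hw0 : 0 < w := hW.trans_le hw
    have e : N / W + Real.pi / 4 * W - (N / w + Real.pi / 4 * w)
        = (w - W) * ((N - Real.pi / 4 * (W * w)) / (W * w)) := by
      field_simp
      ring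
    have h1 : 0 ≤ N - Real.pi / 4 * (W * w) := by
      nlinarith [mul_le_mul_of_nonneg_right hw hw0.le]
    have := mul_nonneg (sub_nonneg.2 hw) (div_nonneg h1 (mul_pos hW hw0).le)
    linarith
  · rw [Real.sqrt_le_left (by positivity)]
    have e : (N / W + Real.pi / 4 * W) ^ 2 - Real.pi * N = (N / W - Real.pi / 4 * W) ^ 2 := by
      field_simp
      ring
    nlinarith [sq_nonneg (N / W - Real.pi / 4 * W)]

/-- The stadium bound, cut along the line `y = 0`. -/
lemma width_cal₀ (hv : Dens2 v) (hline : ∀ y, ∃ z, v (y, z) = 0) (h0 : ∀ z, v (0, z) = 0)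
    (hW : 0 < wide v) :
    2 * ((area2 fun p => v p ^ 2) / wide v + Real.pi / 4 * wide v) ≤ tv2 v := by
  set W := wide v with hWdef
  have hc := hv.smooth.continuous
  set c : ℝ → ℝ := hiLine v with hcdef
  have hcc : Continuous c := continuous_hiLine hc
  set F : ℝ → ℝ := fun y => ∫ t in (0 : ℝ)..y, c t with hF
  have hFd : ∀ y, HasDerivAt F (c y) y := fun y =>
    intervalIntegral.integral_hasDerivAt_right (hcc.intervalIntegrable _ _)
      hcc.aestronglyMeasurable.stronglyMeasurableAtFilter hcc.continuousAt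
  have hFc : Continuous F := continuous_iff_continuousAt.2 fun y => (hFd y).continuousAt
  set q : ℝ → ℝ := fun y => 2 * F y / W - 1 with hq
  have hqd : ∀ y, HasDerivAt q (2 * c y / W) y := fun y =>
    (((hFd y).const_mul 2).div_const W).sub_const 1
  have hqc : Continuous q := continuous_iff_continuousAt.2 fun y => (hqd y).continuousAt
  have hF01 : ∀ y ∈ Icc (0 : ℝ) 1, 0 ≤ F y ∧ F y ≤ W := fun y hy => by
    refine ⟨intervalIntegral.integral_nonneg hy.1 fun t _ => (hiLine_mem hv t).1, ?_⟩
    have hsplit := intervalIntegral.integral_add_adjacent_intervals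
      (hcc.intervalIntegrable (μ := volume) 0 y) (hcc.intervalIntegrable y 1)
    have : 0 ≤ ∫ t in y..1, c t :=
      intervalIntegral.integral_nonneg hy.2 fun t _ => (hiLine_mem hv t).1
    have eW : W = ∫ t in (0 : ℝ)..1, c t := rfl
    show (∫ t in (0 : ℝ)..y, c t) ≤ W
    linarith
  have hq1 : ∀ y ∈ Icc (0 : ℝ) 1, q y ^ 2 ≤ 1 := fun y hy => by
    obtain ⟨a, b⟩ := hF01 y hy
    have t0 : 0 ≤ F y / W := div_nonneg a hW.le
    have t1 : F y / W ≤ 1 := (div_le_one hW).2 b
    simp only [hq, mul_div_assoc]
    nlinarith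
  set s : ℝ → ℝ := fun y => √(1 - q y ^ 2) with hs
  have hsc : Continuous s := (continuous_const.sub (hqc.pow 2)).sqrt
  have hD : ∀ d, Continuous fun p => fderiv ℝ v p d := fun d =>
    (hv.smooth.continuous_fderiv one_ne_zero).clm_apply continuous_const
  -- the tilted part
  have hz : ∀ z, (∫ y in (0 : ℝ)..1, q y * fderiv ℝ v (y, z) (1, 0))
      = -(2 / W) * ∫ y in (0 : ℝ)..1, c y * v (y, z) := fun z => by
    have hvd : ∀ y, HasDerivAt (fun y => v (y, z)) (fderiv ℝ v (y, z) (1, 0)) y := fun y =>
      (hv.smooth.differentiable one_ne_zero (y, z)).hasFDerivAt.comp_hasDerivAt y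
        ((hasDerivAt_id y).prodMk (hasDerivAt_const y z))
    rw [intervalIntegral.integral_mul_deriv_eq_deriv_mul (a := 0) (b := 1) (fun y _ => hqd y)
      (fun y _ => hvd y) (((continuous_const.mul hcc).div_const W).intervalIntegrable _ _)
      (((hD (1, 0)).comp (by fun_prop : Continuous fun y : ℝ => (y, z))).intervalIntegrable 0 1)]
    have e : v (1, z) = 0 := by rw [← h0 z]; simpa using (hv.per 0 z).1
    rw [e, h0 z, mul_zero, mul_zero, sub_zero, zero_sub, ← intervalIntegral.integral_const_mul,
      ← intervalIntegral.integral_neg]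
    exact intervalIntegral.integral_congr fun y _ => by ring
  have hcv : Continuous fun p : ℝ × ℝ => c p.1 * v p := (hcc.comp continuous_fst).mul hc
  have htilt : area2 (fun p => q p.1 * fderiv ℝ v p (1, 0))
      = -(2 / W) * area2 fun p => c p.1 * v p := by
    simp only [area2]
    rw [sq_swap (F := fun p => q p.1 * fderiv ℝ v p (1, 0)) ((hqc.comp continuous_fst).mul (hD (1, 0))),
      sq_swap (F := fun p => c p.1 * v p) hcv]
    simp only [hz, intervalIntegral.integral_const_mul]
  -- the straight part
  have hAbs : Continuous fun p => |fderiv ℝ v p (0, 1)| := (hD (0, 1)).abs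
  have hlineb : ∀ y, 2 * c y ≤ ∫ z in (0 : ℝ)..1, |fderiv ℝ v (y, z) (0, 1)| := fun y => by
    obtain ⟨z₁, hz₁⟩ := hline y
    obtain ⟨z₂, hz₂⟩ := (hiLine_spec hc hv.per y).2
    have hvd : ∀ z, HasDerivAt (fun z => v (y, z)) (fderiv ℝ v (y, z) (0, 1)) z := fun z =>
      (hv.smooth.differentiable one_ne_zero (y, z)).hasFDerivAt.comp_hasDerivAt z
        ((hasDerivAt_const z y).prodMk (hasDerivAt_id z))
    have h := line_osc (g := fun z => v (y, z))
      (hv.smooth.comp (contDiff_const.prodMk contDiff_id)) (fun z => (hv.per y z).2) z₁ z₂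
    simp only [fun z => (hvd z).deriv, hz₁, hz₂, sub_zero] at h
    exact h
  have hstraight : 2 * (W / 2 * (Real.pi / 2)) ≤
      area2 fun p => s p.1 * |fderiv ℝ v p (0, 1)| := by
    have hcov := intervalIntegral.integral_comp_mul_deriv (a := 0) (b := 1)
      (f := q) (f' := fun y => 2 * c y / W) (g := fun x : ℝ => √(1 - x ^ 2))
      (fun y _ => hqd y) ((continuous_const.mul hcc).div_const W).continuousOn (by fun_prop)
    have e0 : q 0 = -1 := by simp [hq, hF]
    have e1 : q 1 = 1 := by
      have : F 1 = W := rfl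
      simp only [hq, this]
      rw [mul_div_assoc, div_self hW.ne']; norm_num
    rw [e0, e1, integral_sqrt_one_sub_sq] at hcov
    have e2 : (∫ y in (0 : ℝ)..1, s y * c y) = W / 2 * (Real.pi / 2) := by
      rw [← hcov, ← intervalIntegral.integral_const_mul]
      refine intervalIntegral.integral_congr fun y _ => ?_
      simp only [Function.comp_apply, hs]
      field_simp
    rw [← e2, ← intervalIntegral.integral_const_mul]
    refine intervalIntegral.integral_mono_on zero_le_one
      ((continuous_const.mul (hsc.mul hcc)).intervalIntegrable _ _)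
      ((cont_inner ((hsc.comp continuous_fst).mul hAbs)).intervalIntegrable _ _) fun y _ => ?_
    simp only [intervalIntegral.integral_const_mul]
    nlinarith [mul_le_mul_of_nonneg_left (hlineb y) (Real.sqrt_nonneg (1 - q y ^ 2))]
  have hq1' : Continuous fun p : ℝ × ℝ => q p.1 * fderiv ℝ v p (1, 0) :=
    (hqc.comp continuous_fst).mul (hD (1, 0))
  have hmain : area2 (fun p => s p.1 * |fderiv ℝ v p (0, 1)|) ≤
      area2 fun p => q p.1 * fderiv ℝ v p (1, 0) + grad2 v p := by
    refine sq_mono ((hsc.comp continuous_fst).mul hAbs) (hq1'.add (continuous_grad2 hv.smooth))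
      fun y hy z _ => ?_
    have := tilt_pt (D := fderiv ℝ v (y, z) (0, 1)) (E := fderiv ℝ v (y, z) (1, 0)) (hq1 y hy)
    simp only [Pi.add_apply, Pi.mul_apply, Function.comp_apply, grad2, hs]
    linarith
  rw [area2_add hq1' (continuous_grad2 hv.smooth), htilt] at hmain
  have hsq : (area2 fun p => v p ^ 2) ≤ area2 fun p => c p.1 * v p :=
    area2_mono (hc.pow 2) hcv fun p => by
      rw [pow_two]
      exact mul_le_mul_of_nonneg_right ((hiLine_spec hc hv.per p.1).1 p.2) (hv.mem p).1
  have hdiv := mul_le_mul_of_nonneg_left hsq (show (0 : ℝ) ≤ 2 / W by positivity)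
  have etv : area2 (grad2 v) = tv2 v := rfl
  have e3 : 2 * ((area2 fun p => v p ^ 2) / W) = 2 / W * area2 fun p => v p ^ 2 := by ring
  rw [etv] at hmain
  linarith

/-- A planar slice in a strip of width `w`. -/
theorem width_cal (hv : Dens2 v) (hline : ∀ y, ∃ z, v (y, z) = 0) {y₀ : ℝ}
    (h0 : ∀ z, v (y₀, z) = 0) {w : ℝ} (hw : wide v ≤ w) :
    2 * csW w (area2 fun p => v p ^ 2) ≤ tv2 v := by
  set N := area2 fun p => v p ^ 2
  have hN : 0 ≤ N := area2_nonneg fun p => sq_nonneg _
  have htv : 0 ≤ tv2 v := intervalIntegral.integral_nonneg zero_le_one fun y _ =>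
    intervalIntegral.integral_nonneg zero_le_one fun z _ => Real.sqrt_nonneg _
  set G : ℝ × ℝ → ℝ := fun p => v (p.1 + y₀, p.2) with hGdef
  have hG : Dens2 G :=
    ⟨hv.smooth.comp ((contDiff_fst.add contDiff_const).prodMk contDiff_snd),
      fun y z => ⟨by
        show v (y + 1 + y₀, z) = v (y + y₀, z)
        rw [show y + 1 + y₀ = y + y₀ + 1 by ring, (hv.per _ _).1], (hv.per _ _).2⟩,
      fun p => hv.mem _⟩
  have hshift : ∀ H : ℝ × ℝ → ℝ, (∀ y z, H (y + 1, z) = H (y, z)) →
      area2 (fun p => H (p.1 + y₀, p.2)) = area2 H := fun H hH => by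
    have hper : Function.Periodic (fun y => ∫ z in (0 : ℝ)..1, H (y, z)) 1 := fun y => by
      simp only [hH]
    simp only [area2]
    rw [intervalIntegral.integral_comp_add_right (fun y => ∫ z in (0 : ℝ)..1, H (y, z)) y₀,
      zero_add, add_comm 1 y₀, hper.intervalIntegral_add_eq y₀ 0, zero_add]
  have eN : (area2 fun p => G p ^ 2) = N :=
    hshift (fun p => v p ^ 2) fun y z => by simp [(hv.per y z).1]
  have eT : tv2 G = tv2 v := by
    have hdper : ∀ y z, fderiv ℝ v (y + 1, z) = fderiv ℝ v (y, z) := fun y z => by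
      have := fderiv_comp_add_right (𝕜 := ℝ) (f := v) (x := (y, z)) ((1 : ℝ), (0 : ℝ))
      have e : (fun p : ℝ × ℝ => v (p + (1, 0))) = v := funext fun p => by
        simpa [Prod.add_def] using (hv.per p.1 p.2).1
      rw [e] at this
      simpa [Prod.add_def] using this.symm
    have e : grad2 G = fun p => grad2 v (p.1 + y₀, p.2) := funext fun p => by
      have := fderiv_comp_add_right (𝕜 := ℝ) (f := v) (x := p) (y₀, (0 : ℝ))
      have e : fderiv ℝ G p = fderiv ℝ v (p.1 + y₀, p.2) := by
        simpa [hGdef, Prod.add_def] using this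
      simp only [grad2, e]
    show area2 (grad2 G) = area2 (grad2 v)
    rw [e]
    exact hshift (grad2 v) fun y z => by simp [grad2, hdper]
  have eW : wide G = wide v := by
    have hper := hiLine_periodic hv.per
    show (∫ y in (0 : ℝ)..1, hiLine v (y + y₀)) = _
    rw [intervalIntegral.integral_comp_add_right (hiLine v) y₀, zero_add, add_comm 1 y₀,
      hper.intervalIntegral_add_eq y₀ 0, zero_add]
    rfl
  have hW0 : 0 ≤ wide v :=
    intervalIntegral.integral_nonneg zero_le_one fun y _ => (hiLine_mem hv y).1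
  rcases hW0.eq_or_lt with hz | hz
  · have hA := area2_le_wide hv
    have hNA : N ≤ area2 v := area2_mono (hv.smooth.continuous.pow 2) hv.smooth.continuous
      fun p => by nlinarith [(hv.mem p).1, (hv.mem p).2]
    have hN0 : N = 0 := le_antisymm (by linarith) hN
    have : csW w N = 0 := by
      unfold csW
      split_ifs with h
      · have : w ^ 2 = 0 :=
          le_antisymm (by nlinarith [Real.pi_pos]) (sq_nonneg w)
        rw [hN0, pow_eq_zero_iff two_ne_zero |>.1 this]; simp
      · simp [hN0]
    rw [this]; linarith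
  · have h := width_cal₀ hG (fun y => hline (y + y₀)) (fun z => by simpa [hGdef] using h0 z)
      (eW ▸ hz)
    rw [eN, eW, eT] at h
    have := csW_le hz hw hN
    linarith

/-- A band crossing every line `ℝ × {z}` pays for the variation of its width. -/
theorem band_diag (hv : Dens2 v) (hlo : ∀ z, ∃ y, v (y, z) = 0) (hhi : ∀ z, ∃ y, v (y, z) = 1) :
    2 * √(1 + (wide v - narrow v) ^ 2) ≤ tv2 v := by
  have hc := hv.smooth.continuous
  have hD : ∀ d, Continuous fun p => |fderiv ℝ v p d| := fun d =>
    ((hv.smooth.continuous_fderiv one_ne_zero).clm_apply continuous_const).abs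
  set X := area2 fun p => |fderiv ℝ v p (1, 0)|
  set Y := area2 fun p => |fderiv ℝ v p (0, 1)|
  have hX : 2 ≤ X := by
    have h := band_le' hv.smooth hv.per (φ := fun t => t) (φ' := fun _ => 1) (lo := 0) (hi := 1)
      (fun x => hasDerivAt_id x) continuous_const (fun _ => zero_le_one)
      (fun z => (hlo z).imp fun y h => h.le) (fun z => (hhi z).imp fun y h => h.ge)
    simpa [X] using h
  have hY : 2 * (wide v - narrow v) ≤ Y := by
    rw [wide, narrow, ← intervalIntegral.integral_sub
      ((continuous_hiLine hc).intervalIntegrable _ _) ((continuous_loLine hc).intervalIntegrable _ _),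
      ← intervalIntegral.integral_const_mul]
    refine intervalIntegral.integral_mono_on zero_le_one
      ((continuous_const.mul ((continuous_hiLine hc).sub (continuous_loLine hc))).intervalIntegrable _ _)
      ((cont_inner (hD (0, 1))).intervalIntegrable _ _) fun y _ => ?_
    obtain ⟨z₁, hz₁⟩ := (loLine_spec hc hv.per y).2
    obtain ⟨z₂, hz₂⟩ := (hiLine_spec hc hv.per y).2
    have hvd : ∀ z, HasDerivAt (fun z => v (y, z)) (fderiv ℝ v (y, z) (0, 1)) z := fun z =>
      (hv.smooth.differentiable one_ne_zero (y, z)).hasFDerivAt.comp_hasDerivAt z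
        ((hasDerivAt_const z y).prodMk (hasDerivAt_id z))
    have h := line_osc (g := fun z => v (y, z))
      (hv.smooth.comp (contDiff_const.prodMk contDiff_id)) (fun z => (hv.per y z).2) z₁ z₂
    simp only [fun z => (hvd z).deriv, hz₁, hz₂] at h
    exact h
  have hWU : 0 ≤ wide v - narrow v := by linarith [area2_le_wide hv, narrow_le_area2 hv]
  have hv' : √(X ^ 2 + Y ^ 2) ≤ tv2 v := by
    refine (Axis.sqrt_le_area2 (hD (1, 0)) (hD (0, 1))).trans (le_of_eq ?_)
    show _ = area2 (grad2 v)
    congr 1; funext p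
    simp [grad2, sq_abs]
  refine le_trans ?_ hv'
  rw [show (2 : ℝ) = √4 by rw [show (4 : ℝ) = 2 ^ 2 by norm_num, Real.sqrt_sq zero_le_two],
    ← Real.sqrt_mul (by norm_num)]
  refine Real.sqrt_le_sqrt ?_
  nlinarith [mul_self_le_mul_self (by linarith : (0 : ℝ) ≤ 2 * (wide v - narrow v)) hY]

end

end Vale.Agent.P232
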